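import Vale.Agent.P123.Curve

/-!
# P123: approximating a compact convex set by smooth strictly convex curves
-/

namespace Vale.P123

open Complex MeasureTheory intervalIntegral
open scoped Real Topology

/-- moving average -/
noncomputable def avg (ε : ℝ) (g : ℝ → ℝ) (θ : ℝ) : ℝ := (∫ u in (θ - ε)..(θ + ε), g u) / (2 * ε)

lemma avg_close {ε : ℝ} (hε : 0 < ε) {g : ℝ → ℝ} (hg : Continuous g) {θ c K : ℝ}
    (h : ∀ u, |u - θ| ≤ ε → |g u - c| ≤ K) : |avg ε g θ - c| ≤ K := by
  have h1 : avg ε g θ - c = (∫ u in (θ - ε)..(θ + ε), (g u - c)) / (2 * ε) := by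
    unfold avg
    rw [intervalIntegral.integral_sub (hg.intervalIntegrable _ _) intervalIntegrable_const,
      intervalIntegral.integral_const, smul_eq_mul]
    field_simp
    ring
  rw [h1, abs_div, abs_of_pos (by positivity : 0 < 2 * ε), div_le_iff₀ (by positivity)]
  have h2 := intervalIntegral.norm_integral_le_of_norm_le_const (a := θ - ε) (b := θ + ε)
    (f := fun u => g u - c) (C := K) (fun u hu => by
      rw [Set.uIoc_of_le (by linarith)] at hu
      exact h u (abs_le.2 ⟨by linarith [hu.1], by linarith [hu.2]⟩))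
  rw [Real.norm_eq_abs] at h2
  have h3 : |θ + ε - (θ - ε)| = 2 * ε := by
    rw [abs_of_pos (by linarith)]; ring
  rwa [h3] at h2

lemma avg_hasDerivAt {ε : ℝ} {g : ℝ → ℝ} (hg : Continuous g) (θ : ℝ) :
    HasDerivAt (avg ε g) ((g (θ + ε) - g (θ - ε)) / (2 * ε)) θ := by
  set P : ℝ → ℝ := fun x => ∫ u in (0 : ℝ)..x, g u with hP
  have hPd : ∀ x, HasDerivAt P (g x) x := fun x =>
    intervalIntegral.integral_hasDerivAt_right (hg.intervalIntegrable _ _)
      (hg.stronglyMeasurableAtFilter _ _) hg.continuousAt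
  have h1 : avg ε g = fun θ => (P (θ + ε) - P (θ - ε)) / (2 * ε) := by
    ext θ
    unfold avg
    rw [hP]
    simp only
    rw [intervalIntegral.integral_interval_sub_left (hg.intervalIntegrable _ _)
      (hg.intervalIntegrable _ _)]
  rw [h1]
  have h2 := (hPd (θ + ε)).comp_add_const θ ε
  have h3 := (hPd (θ - ε)).comp_sub_const θ ε
  exact (h2.sub h3).div_const _

lemma avg_continuous {ε : ℝ} {g : ℝ → ℝ} (hg : Continuous g) : Continuous (avg ε g) :=
  continuous_iff_continuousAt.2 fun θ => (avg_hasDerivAt hg θ).continuousAt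

lemma avg_periodic {ε T : ℝ} {g : ℝ → ℝ} (hp : ∀ θ, g (θ + T) = g θ) (θ : ℝ) :
    avg ε g (θ + T) = avg ε g θ := by
  unfold avg
  congr 1
  have h1 : ∫ u in (θ + T - ε)..(θ + T + ε), g u = ∫ u in (θ - ε)..(θ + ε), g (u + T) := by
    rw [intervalIntegral.integral_comp_add_right]
    congr 1 <;> ring
  rw [h1]
  congr 1
  ext u
  exact hp u

/-- existence of the support function -/
lemma exists_supp {W : Set ℂ} (hW : IsCompact W) (hne : W.Nonempty) :
    ∃ h : ℝ → ℝ, (∀ θ : ℝ, ∀ z ∈ W, (exp (-(θ * I)) * z).re ≤ h θ) ∧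
      ∀ θ : ℝ, ∃ z ∈ W, h θ = (exp (-(θ * I)) * z).re := by
  have h1 : ∀ θ : ℝ, ∃ z ∈ W, ∀ z' ∈ W, (exp (-(θ * I)) * z').re ≤ (exp (-(θ * I)) * z).re := by
    intro θ
    obtain ⟨z, hz, hmax⟩ := hW.exists_isMaxOn hne
      (f := fun z => (exp (-(θ * I)) * z).re) (by fun_prop)
    exact ⟨z, hz, fun z' hz' => hmax hz'⟩
  choose z hz hmax using h1
  exact ⟨fun θ => (exp (-(θ * I)) * z θ).re, fun θ z' hz' => hmax θ z' hz',
    fun θ => ⟨z θ, hz θ, rfl⟩⟩

lemma norm_exp_sub_le (a b : ℝ) : ‖exp (-(a * I)) - exp (-(b * I))‖ ≤ |a - b| := by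
  have h1 : exp (-(a * I)) - exp (-(b * I))
      = exp (-(b * I)) * (exp (I * ((b - a : ℝ) : ℂ)) - 1) := by
    rw [mul_sub, mul_one, ← exp_add]
    congr 2
    push_cast; ring
  rw [h1, norm_mul]
  have h2 : ‖exp (-(b * I))‖ = 1 := by
    have : -((b : ℂ) * I) = ((-b : ℝ) : ℂ) * I := by push_cast; ring
    rw [this, norm_exp_ofReal_mul_I]
  rw [h2, one_mul]
  refine (Real.norm_exp_I_mul_ofReal_sub_one_le (x := b - a)).trans ?_
  rw [Real.norm_eq_abs, abs_sub_comm]

/-- A compact convex set is approximated from outside by smooth strictly convex curves. -/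
theorem exists_curve (W : Set ℂ) (hW : IsCompact W) (hc : Convex ℝ W) (hne : W.Nonempty)
    (δ : ℝ) (hδ : 0 < δ) :
    ∃ c : ConvexCurve, (∀ z ∈ W, c.Inside z) ∧ ∀ θ, ∃ w ∈ W, ‖c.σ θ - w‖ ≤ δ := by
  obtain ⟨R₀, hR₀⟩ := hW.isBounded.exists_norm_le
  set R : ℝ := max R₀ 1 with hR
  have hR0 : 0 < R := by positivity
  have hRW : ∀ z ∈ W, ‖z‖ ≤ R := fun z hz => (hR₀ z hz).trans (le_max_left _ _)
  obtain ⟨h, hle, hex⟩ := exists_supp hW hne
  -- Lipschitz
  have hlip1 : ∀ a b : ℝ, h a - h b ≤ R * |a - b| := by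
    intro a b
    obtain ⟨z, hz, hza⟩ := hex a
    have h1 := hle b z hz
    have h2 : h a - h b ≤ ((exp (-(a * I)) - exp (-(b * I))) * z).re := by
      rw [sub_mul, sub_re, hza]; linarith
    refine h2.trans ((re_le_norm _).trans ?_)
    rw [norm_mul]
    have := norm_exp_sub_le a b
    have := hRW z hz
    calc ‖exp (-(a * I)) - exp (-(b * I))‖ * ‖z‖ ≤ |a - b| * R := by gcongr
      _ = R * |a - b| := mul_comm _ _
  have hlip : ∀ a b : ℝ, |h a - h b| ≤ R * |a - b| := by
    intro a b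
    rw [abs_le]
    constructor
    · have := hlip1 b a
      rw [abs_sub_comm] at this
      linarith
    · exact hlip1 a b
  have hcont : Continuous h := by
    rw [Metric.continuous_iff]
    intro b ε hε
    refine ⟨ε / R, by positivity, fun a ha => ?_⟩
    rw [Real.dist_eq] at ha ⊢
    calc |h a - h b| ≤ R * |a - b| := hlip a b
      _ < R * (ε / R) := by gcongr
      _ = ε := by field_simp
  have hper : ∀ θ, h (θ + 2 * π) = h θ := by
    intro θ
    have e1 : exp (-(((θ + 2 * π : ℝ) : ℂ) * I)) = exp (-(θ * I)) := by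
      rw [exp_neg, exp_neg, ConvexCurve.exp_periodic]
    apply le_antisymm
    · obtain ⟨z, hz, hza⟩ := hex (θ + 2 * π)
      rw [hza, e1]; exact hle θ z hz
    · obtain ⟨z, hz, hza⟩ := hex θ
      have := hle (θ + 2 * π) z hz
      rw [e1] at this
      rw [hza]; exact this
  have habs : ∀ θ, |h θ| ≤ R := by
    intro θ
    obtain ⟨z, hz, hza⟩ := hex θ
    rw [hza]
    refine (abs_re_le_norm _).trans ?_
    rw [norm_mul]
    have : ‖exp (-(θ * I))‖ = 1 := by
      have : -((θ : ℂ) * I) = ((-θ : ℝ) : ℂ) * I := by push_cast; ring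
      rw [this, norm_exp_ofReal_mul_I]
    rw [this, one_mul]
    exact hRW z hz
  have hconv : ∀ θ s : ℝ, 2 * Real.cos s * h θ ≤ h (θ + s) + h (θ - s) := by
    intro θ s
    obtain ⟨z, hz, hza⟩ := hex θ
    have h1 := hle (θ + s) z hz
    have h2 := hle (θ - s) z hz
    have h3 : (exp (-(((θ + s : ℝ) : ℂ) * I)) * z).re + (exp (-(((θ - s : ℝ) : ℂ) * I)) * z).re
        = 2 * Real.cos s * h θ := by
      rw [← add_re, ← add_mul]
      have e1 : exp (-(((θ + s : ℝ) : ℂ) * I)) + exp (-(((θ - s : ℝ) : ℂ) * I))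
          = ((2 * Real.cos s : ℝ) : ℂ) * exp (-(θ * I)) := by
        have e2 : exp (-(((θ + s : ℝ) : ℂ) * I)) = exp (-(θ * I)) * exp (-(s * I)) := by
          rw [← exp_add]; push_cast; ring_nf
        have e3 : exp (-(((θ - s : ℝ) : ℂ) * I)) = exp (-(θ * I)) * exp (s * I) := by
          rw [← exp_add]; push_cast; ring_nf
        rw [e2, e3, ← mul_add]
        have e4 : exp (-(s * I)) + exp (s * I) = ((2 * Real.cos s : ℝ) : ℂ) := by
          push_cast
          rw [Complex.two_cos]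
          ring_nf
        rw [e4]; ring
      rw [e1, mul_assoc, re_ofReal_mul, hza]
    linarith
  -- parameters
  set δ' : ℝ := δ / 2 with hδ'
  have hδ'0 : 0 < δ' := by positivity
  set ε : ℝ := min 1 (δ' / (4 * R)) with hε
  have hε0 : 0 < ε := by positivity
  have hε1 : ε ≤ 1 := min_le_left _ _
  have hεR : ε * R ≤ δ' / 4 := by
    calc ε * R ≤ δ' / (4 * R) * R := by gcongr; exact min_le_right _ _
      _ = δ' / 4 := by field_simp
  set h1 := avg ε h with hh1
  set h2 := avg ε h1 with hh2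
  have hc1 : Continuous h1 := avg_continuous hcont
  have hc2 : Continuous h2 := avg_continuous hc1
  have hclose1 : ∀ θ, |h1 θ - h θ| ≤ ε * R := by
    intro θ
    refine avg_close hε0 hcont fun u hu => (hlip u θ).trans ?_
    rw [mul_comm ε R]; gcongr
  have hclose2 : ∀ θ, |h2 θ - h θ| ≤ 2 * (ε * R) := by
    intro θ
    refine avg_close hε0 hc1 fun u hu => ?_
    have e1 := hclose1 u
    have e2 : |h u - h θ| ≤ ε * R := (hlip u θ).trans (by rw [mul_comm ε R]; gcongr)
    have e3 : h1 u - h θ = (h1 u - h u) + (h u - h θ) := by ring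
    rw [e3]
    exact (abs_add_le _ _).trans (by linarith)
  set d1 : ℝ → ℝ := fun θ => (h1 (θ + ε) - h1 (θ - ε)) / (2 * ε) with hd1
  set d2 : ℝ → ℝ := fun θ => ((h (θ + ε + ε) - h (θ + ε - ε)) / (2 * ε)
    - (h (θ - ε + ε) - h (θ - ε - ε)) / (2 * ε)) / (2 * ε) with hd2
  have hD1 : ∀ θ, HasDerivAt h2 (d1 θ) θ := fun θ => avg_hasDerivAt hc1 θ
  have hD2 : ∀ θ, HasDerivAt d1 (d2 θ) θ := by
    intro θ
    have e1 := (avg_hasDerivAt (ε := ε) hcont (θ + ε)).comp_add_const θ ε
    have e2 := (avg_hasDerivAt (ε := ε) hcont (θ - ε)).comp_sub_const θ ε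
    exact (e1.sub e2).div_const _
  have hd2c : Continuous d2 := by
    rw [hd2]; fun_prop
  -- lower bound for `h2 + d2`
  have hlow : ∀ θ, -(3 * (ε * R)) ≤ h2 θ + d2 θ := by
    intro θ
    have e1 : d2 θ = (h (θ + 2 * ε) + h (θ - 2 * ε) - 2 * h θ) / (4 * ε ^ 2) := by
      rw [hd2]
      simp only
      have a1 : θ + ε + ε = θ + 2 * ε := by ring
      have a2 : θ + ε - ε = θ := by ring
      have a3 : θ - ε + ε = θ := by ring
      have a4 : θ - ε - ε = θ - 2 * ε := by ring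
      rw [a1, a2, a3, a4]
      field_simp
      ring
    have e2 := hconv θ (2 * ε)
    have e3 : -(Real.sin ε / ε) ^ 2 * h θ ≤ d2 θ := by
      rw [e1, le_div_iff₀ (by positivity)]
      have : -(Real.sin ε / ε) ^ 2 * h θ * (4 * ε ^ 2) = -(4 * Real.sin ε ^ 2) * h θ := by
        field_simp
      rw [this]
      have e4 : Real.cos (2 * ε) = 1 - 2 * Real.sin ε ^ 2 := by
        rw [Real.cos_two_mul, Real.cos_sq']; ring
      rw [e4] at e2
      linarith
    have e5 : 0 ≤ 1 - (Real.sin ε / ε) ^ 2 := by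
      have : Real.sin ε / ε ≤ 1 := by
        rw [div_le_one hε0]; exact Real.sin_le hε0.le
      have h0 : 0 ≤ Real.sin ε / ε :=
        div_nonneg (Real.sin_nonneg_of_nonneg_of_le_pi hε0.le (by linarith [Real.pi_gt_three]))
          hε0.le
      nlinarith
    have e6 : 1 - (Real.sin ε / ε) ^ 2 ≤ ε := by
      have b1 := Real.sin_gt_sub_cube hε0
      have b2 : 1 - ε ^ 2 / 6 ≤ Real.sin ε / ε := by
        rw [le_div_iff₀ hε0]
        nlinarith
      have b3 : 0 ≤ 1 - ε ^ 2 / 6 := by nlinarith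
      have b4 : (1 - ε ^ 2 / 6) ^ 2 ≤ (Real.sin ε / ε) ^ 2 := by gcongr
      nlinarith
    have e7 := (abs_le.1 (hclose2 θ)).1
    have e8 := (abs_le.1 (habs θ)).1
    have e9 : -(ε * R) ≤ (1 - (Real.sin ε / ε) ^ 2) * h θ := by
      calc -(ε * R) ≤ (1 - (Real.sin ε / ε) ^ 2) * (-R) := by nlinarith
        _ ≤ _ := by gcongr
    nlinarith
  set Hf : ℝ → ℝ := fun θ => h2 θ + δ' with hHf
  set r : ℝ → ℝ := fun θ => h2 θ + δ' + d2 θ with hr
  set σ : ℝ → ℂ := fun θ => ((h2 θ + δ' : ℝ) : ℂ) * exp (θ * I)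
    + (d1 θ : ℂ) * (I * exp (θ * I)) with hσ
  have hh2per : ∀ θ, h2 (θ + 2 * π) = h2 θ := avg_periodic (avg_periodic hper)
  have hd1per : ∀ θ, d1 (θ + 2 * π) = d1 θ := by
    intro θ
    rw [hd1]
    simp only
    have a1 : θ + 2 * π + ε = θ + ε + 2 * π := by ring
    have a2 : θ + 2 * π - ε = θ - ε + 2 * π := by ring
    rw [a1, a2, hh1, avg_periodic hper, avg_periodic hper]
  have hd2per : ∀ θ, d2 (θ + 2 * π) = d2 θ := by
    intro θ
    rw [hd2]
    simp only
    have a1 : θ + 2 * π + ε + ε = θ + ε + ε + 2 * π := by ring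
    have a2 : θ + 2 * π + ε - ε = θ + ε - ε + 2 * π := by ring
    have a3 : θ + 2 * π - ε + ε = θ - ε + ε + 2 * π := by ring
    have a4 : θ + 2 * π - ε - ε = θ - ε - ε + 2 * π := by ring
    rw [a1, a2, a3, a4, hper, hper, hper, hper]
  let c : ConvexCurve :=
    { σ := σ
      r := r
      r_cont := (hc2.add continuous_const).add hd2c
      r_pos := fun θ => by
        have := hlow θ
        change 0 < h2 θ + δ' + d2 θ
        linarith
      r_per := fun θ => by
        change h2 (θ + 2 * π) + δ' + d2 (θ + 2 * π) = h2 θ + δ' + d2 θ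
        rw [hh2per, hd2per]
      σ_per := fun θ => by
        rw [hσ]
        simp only
        rw [hh2per, hd1per, ConvexCurve.exp_periodic]
      σ_deriv := fun θ => by
        have e0 : HasDerivAt (fun θ : ℝ => exp ((θ : ℂ) * I)) (exp (θ * I) * I) θ := by
          have := ((hasDerivAt_id θ).ofReal_comp.mul_const I).cexp
          simpa using this
        have e1 : HasDerivAt (fun θ : ℝ => ((h2 θ + δ' : ℝ) : ℂ)) (d1 θ : ℂ) θ :=
          ((hD1 θ).add_const δ').ofReal_comp
        have e2 : HasDerivAt (fun θ : ℝ => (d1 θ : ℂ)) (d2 θ : ℂ) θ := (hD2 θ).ofReal_comp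
        have e3 := (e1.fun_mul e0).fun_add (e2.fun_mul (e0.const_mul I))
        refine e3.congr_deriv ?_
        change _ = ((h2 θ + δ' + d2 θ : ℝ) : ℂ) * I * exp (θ * I)
        push_cast
        linear_combination (d1 θ : ℂ) * exp (θ * I) * I_sq }
  have hsupp : ∀ φ : ℝ, (exp (-(φ * I)) * c.σ φ).re = h2 φ + δ' := by
    intro φ
    change (exp (-(φ * I)) * (((h2 φ + δ' : ℝ) : ℂ) * exp (φ * I)
      + (d1 φ : ℂ) * (I * exp (φ * I)))).re = _
    have e1 : exp (-(φ * I)) * (((h2 φ + δ' : ℝ) : ℂ) * exp (φ * I)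
      + (d1 φ : ℂ) * (I * exp (φ * I))) = ((h2 φ + δ' : ℝ) : ℂ) + (d1 φ : ℂ) * I := by
      have e2 : exp (-(φ * I)) * exp (φ * I) = 1 := by rw [← exp_add]; simp
      linear_combination (((h2 φ + δ' : ℝ) : ℂ) + (d1 φ : ℂ) * I) * e2
    rw [e1]
    simp
  refine ⟨c, ?_, ?_⟩
  · intro z hz θ
    rw [mul_sub, sub_re, hsupp θ]
    have e1 := hle θ z hz
    have e2 := (abs_le.1 (hclose2 θ)).1
    linarith
  · intro θ
    set ζ := c.σ θ with hζ
    obtain ⟨w, hw, hmin⟩ := exists_norm_eq_iInf_of_complete_convex hne hW.isComplete hc ζ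
    refine ⟨w, hw, ?_⟩
    by_cases hzero : ζ - w = 0
    · rw [hzero, norm_zero]; exact hδ.le
    have hproj := (norm_eq_iInf_iff_real_inner_le_zero hc hw).1 hmin
    set φ : ℝ := arg (ζ - w) with hφ
    have e1 : exp (-(φ * I)) * (ζ - w) = (‖ζ - w‖ : ℂ) := by
      conv_lhs => rw [← norm_mul_exp_arg_mul_I (ζ - w)]
      rw [← hφ]
      have e2 : exp (-(φ * I)) * exp (φ * I) = 1 := by rw [← exp_add]; simp
      linear_combination (‖ζ - w‖ : ℂ) * e2
    have e3 : h φ ≤ (exp (-(φ * I)) * w).re := by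
      obtain ⟨z, hz, hza⟩ := hex φ
      rw [hza]
      have e4 := hproj z hz
      -- real inner product
      have e5 : inner ℝ (ζ - w) (z - w) = ‖ζ - w‖ * (exp (-(φ * I)) * (z - w)).re := by
        rw [Complex.inner]
        have e6 : (starRingEnd ℂ) (ζ - w) = (‖ζ - w‖ : ℂ) * exp (-(φ * I)) := by
          conv_lhs => rw [← norm_mul_exp_arg_mul_I (ζ - w)]
          rw [map_mul, conj_ofReal, ← exp_conj, map_mul, conj_ofReal, conj_I, mul_neg]
        rw [e6, mul_comm (z - w), mul_assoc, re_ofReal_mul]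
      rw [e5] at e4
      have e7 : 0 < ‖ζ - w‖ := norm_pos_iff.2 hzero
      have e8 : (exp (-(φ * I)) * (z - w)).re ≤ 0 := by
        by_contra hcon
        push Not at hcon
        have := mul_pos e7 hcon
        linarith
      rw [mul_sub, sub_re] at e8
      linarith
    have e9 := c.support φ θ
    rw [mul_sub, sub_re, hsupp φ] at e9
    have e10 : ‖ζ - w‖ = (exp (-(φ * I)) * ζ).re - (exp (-(φ * I)) * w).re := by
      rw [← sub_re, ← mul_sub, e1, ofReal_re]
    have e11 := (abs_le.1 (hclose2 φ)).2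
    rw [e10]
    linarith

end Vale.P123
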