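import Vale.Agent.P123.CurveBound

/-!
# P123: from curves to numerical ranges (finite dimensional case)
-/

namespace Vale.P123

open Complex MeasureTheory intervalIntegral
open scoped Real Topology InnerProductSpace

namespace ConvexCurve

/-- Translation of a curve. -/
def translate (c : ConvexCurve) (z₀ : ℂ) : ConvexCurve where
  σ θ := c.σ θ - z₀
  r := c.r
  r_cont := c.r_cont
  r_pos := c.r_pos
  r_per := c.r_per
  σ_per θ := by rw [c.σ_per]
  σ_deriv θ := (c.σ_deriv θ).sub_const z₀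

variable (c : ConvexCurve)
variable {H : Type*} [NormedAddCommGroup H] [InnerProductSpace ℂ H] [FiniteDimensional ℂ H]
  [Nontrivial H]

/-- Compactness gives uniform enclosure. -/
lemma exists_encloses (A : H →L[ℂ] H) (h : ∀ z ∈ numRange A, c.Inside z) :
    ∃ δ, c.Encloses A δ := by
  have : ProperSpace H := FiniteDimensional.proper ℂ H
  set g : ℝ × H → ℝ := fun p => (⟪p.2, exp (-(p.1 * I)) • (c.σ p.1 • p.2 - A p.2)⟫_ℂ).re with hg
  have hgc : Continuous g := by
    apply continuous_re.comp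
    apply Continuous.inner continuous_snd
    apply Continuous.smul (by fun_prop)
    exact ((c.continuous_σ.comp continuous_fst).smul continuous_snd).sub
      (A.continuous.comp continuous_snd)
  have hK : IsCompact (Set.Icc (0 : ℝ) (2 * π) ×ˢ Metric.sphere (0 : H) 1) :=
    isCompact_Icc.prod (isCompact_sphere _ _)
  have hne : (Set.Icc (0 : ℝ) (2 * π) ×ˢ Metric.sphere (0 : H) 1).Nonempty := by
    obtain ⟨y, hy, -⟩ := exists_attains A
    exact ⟨(0, y), ⟨le_rfl, by positivity⟩, by simpa using hy⟩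
  obtain ⟨⟨t, y⟩, hty, hmin⟩ := hK.exists_isMinOn hne hgc.continuousOn
  have hpos : ∀ θ : ℝ, ∀ x : H, ‖x‖ = 1 → 0 < g (θ, x) := by
    intro θ x hx
    have h1 := h _ ⟨x, hx, rfl⟩ θ
    have h2 : ⟪x, exp (-(θ * I)) • (c.σ θ • x - A x)⟫_ℂ
        = exp (-(θ * I)) * (c.σ θ - ⟪x, A x⟫_ℂ) := by
      rw [inner_smul_right, inner_sub_right, inner_smul_right, inner_self_C, hx]
      simp
    change 0 < (⟪x, exp (-(θ * I)) • (c.σ θ • x - A x)⟫_ℂ).re
    rw [h2]; exact h1
  have hy : ‖y‖ = 1 := by simpa using hty.2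
  refine ⟨g (t, y), hpos t y hy, fun θ x => ?_⟩
  by_cases hx : x = 0
  · simp [hx]
  have hx' : ‖x‖ ≠ 0 := norm_ne_zero_iff.2 hx
  set u : H := ((‖x‖⁻¹ : ℝ) : ℂ) • x with hu
  have hu1 : ‖u‖ = 1 := by
    rw [hu, norm_smul, norm_real, norm_inv, norm_norm, inv_mul_cancel₀ hx']
  have hxu : x = ((‖x‖ : ℝ) : ℂ) • u := by
    rw [hu, smul_smul, ← ofReal_mul, mul_inv_cancel₀ hx', ofReal_one, one_smul]
  have hper : Function.Periodic (fun θ => g (θ, u)) (2 * π) := by
    intro θ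
    simp only [hg]
    rw [c.σ_per]
    have : exp (-(((θ + 2 * π : ℝ) : ℂ) * I)) = exp (-(θ * I)) := by
      rw [exp_neg, exp_neg, exp_periodic]
    rw [this]
  obtain ⟨s, hs, hgs⟩ := hper.exists_mem_Ico₀ (by positivity) θ
  have h1 : g (t, y) ≤ g (θ, u) := by
    rw [show g (θ, u) = g (s, u) from hgs]
    exact hmin (show (s, u) ∈ _ from ⟨⟨hs.1, hs.2.le⟩, by simpa using hu1⟩)
  have h2 : (⟪x, exp (-(θ * I)) • (c.σ θ • x - A x)⟫_ℂ).re = g (θ, u) * ‖x‖ ^ 2 := by
    have h3 : ⟪x, exp (-(θ * I)) • (c.σ θ • x - A x)⟫_ℂ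
        = ((‖x‖ ^ 2 : ℝ) : ℂ) * ⟪u, exp (-(θ * I)) • (c.σ θ • u - A u)⟫_ℂ := by
      conv_lhs => rw [hxu]
      simp only [map_smul, inner_smul_left, inner_smul_right, inner_sub_right, conj_ofReal]
      push_cast
      ring
    rw [h3, re_ofReal_mul, mul_comm]
  rw [h2]
  gcongr

end ConvexCurve

/-- The finite dimensional case, given a good supply of curves. -/
theorem finite_dim_bound {H : Type*} [NormedAddCommGroup H] [InnerProductSpace ℂ H]
    [FiniteDimensional ℂ H] [Nontrivial H] (A : H →L[ℂ] H)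
    (hcomp : IsCompact (numRange A)) (hne : (numRange A).Nonempty)
    (hcurve : ∀ δ : ℝ, 0 < δ → ∃ c : ConvexCurve, (∀ z ∈ numRange A, c.Inside z) ∧
      ∀ θ, ∃ w ∈ numRange A, ‖c.σ θ - w‖ ≤ δ)
    (P : Polynomial ℂ) (M : ℝ) (hM : ∀ z ∈ numRange A, ‖P.eval z‖ ≤ M) :
    ‖Polynomial.aeval A P‖ ≤ 12 / 5 * M := by
  apply le_of_forall_pos_le_add
  intro ε hε
  -- uniform continuity of `P` near the numerical range
  have huc : ∃ δ : ℝ, 0 < δ ∧ ∀ z : ℂ, (∃ w ∈ numRange A, ‖z - w‖ ≤ δ) →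
      ‖P.eval z‖ ≤ M + ε / 3 := by
    have h1 : ∀ w ∈ numRange A, ∃ δ : ℝ, 0 < δ ∧ ∀ z, dist z w < δ → ‖P.eval z‖ < M + ε / 3 := by
      intro w hw
      have hc : Continuous fun z => ‖P.eval z‖ := continuous_norm.comp P.continuous
      have := hc.continuousAt.eventually_lt (continuousAt_const (y := M + ε / 3) (x := w))
        (by have := hM w hw; linarith)
      obtain ⟨δ, hδ, h⟩ := Metric.eventually_nhds_iff.1 this
      exact ⟨δ, hδ, fun z hz => h hz⟩
    set U : Set ℂ := {z | ‖P.eval z‖ < M + ε / 3} with hU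
    have hUo : IsOpen U := isOpen_lt (continuous_norm.comp P.continuous) continuous_const
    have hWU : numRange A ⊆ U := fun z hz => by
      have := hM z hz
      show ‖P.eval z‖ < M + ε / 3
      linarith
    obtain ⟨δ, hδ, h⟩ := hcomp.exists_cthickening_subset_open hUo hWU
    refine ⟨δ, hδ, fun z ⟨w, hw, hzw⟩ => ?_⟩
    have : z ∈ Metric.cthickening δ (numRange A) :=
      Metric.mem_cthickening_of_dist_le z w δ _ hw (by rwa [dist_eq_norm])
    exact (h this).le
  obtain ⟨δ, hδ, hδP⟩ := huc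
  obtain ⟨c, hin, hnear⟩ := hcurve δ hδ
  obtain ⟨z₀, hz₀⟩ := hne
  set c' := c.translate z₀ with hc'
  set A' : H →L[ℂ] H := A - algebraMap ℂ (H →L[ℂ] H) z₀ with hA'
  set P' : Polynomial ℂ := P.comp (Polynomial.X + Polynomial.C z₀) with hP'
  have h0 : c'.Inside 0 := by
    intro θ
    have := hin z₀ hz₀ θ
    change 0 < (exp (-(θ * I)) * (c.σ θ - z₀ - 0)).re
    rwa [sub_zero]
  have hA'in : ∀ z ∈ numRange A', c'.Inside z := by
    rintro z ⟨x, hx, rfl⟩ θ
    have h1 := hin _ ⟨x, hx, rfl⟩ θ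
    have h2 : ⟪x, A' x⟫_ℂ = ⟪x, A x⟫_ℂ - z₀ := by
      have : A' x = A x - z₀ • x := by
        rw [hA', Algebra.algebraMap_eq_smul_one]; rfl
      rw [this, inner_sub_right, inner_smul_right, inner_self_C, hx]
      simp
    change 0 < (exp (-(θ * I)) * (c.σ θ - z₀ - ⟪x, A' x⟫_ℂ)).re
    rw [h2]
    have : c.σ θ - z₀ - (⟪x, A x⟫_ℂ - z₀) = c.σ θ - ⟪x, A x⟫_ℂ := by ring
    rwa [this]
  obtain ⟨d, hd⟩ := c'.exists_encloses A' hA'in
  have hbound := c'.curve_bound h0 hd P' (M := M + ε / 3) (fun θ => by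
    have h1 : P'.eval (c'.σ θ) = P.eval (c.σ θ) := by
      rw [hP', Polynomial.eval_comp]
      congr 1
      change (Polynomial.X + Polynomial.C z₀).eval (c.σ θ - z₀) = c.σ θ
      simp
    rw [h1]
    exact hδP _ (hnear θ))
  have h2 : Polynomial.aeval A' P' = Polynomial.aeval A P := by
    rw [hP', Polynomial.aeval_comp]
    congr 2
    simp [hA']
  rw [h2] at hbound
  linarith

end Vale.P123
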