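import Vale.Agent.P123.Extremal

/-!
# P123: the abstract core with the sharp constant `2`
-/

namespace Vale.P123

open ContinuousMap ContinuousLinearMap
open scoped ComplexConjugate InnerProductSpace

variable {Γ : Type*} [TopologicalSpace Γ] [CompactSpace Γ]
variable {H : Type*} [NormedAddCommGroup H] [InnerProductSpace ℂ H] [FiniteDimensional ℂ H]
variable {E : Type*} [SeminormedAddCommGroup E] [InnerProductSpace ℂ E]

namespace Extremal

variable {D : CoreData Γ H E} {K₀ κ : ℝ} (X : Extremal D K₀ κ)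

/-- the functions `α(f^n)` -/
noncomputable def al (n : ℕ) : C(Γ, ℂ) := star (D.K (X.f ^ n))

/-- the operators `α(f^n)(A)` -/
noncomputable def Al (n : ℕ) : H →L[ℂ] H := ContinuousLinearMap.adjoint (D.M (X.f ^ n) - X.F ^ n)

lemma al_mem (n : ℕ) : (X.al n, X.Al n) ∈ D.B := by
  have h := D.B.pow_mem X.mem n
  have h2 : (X.f, X.F) ^ n = (X.f ^ n, X.F ^ n) := rfl
  rw [h2] at h
  exact D.Θ _ h

lemma pow_mem (n : ℕ) : (X.f ^ n, X.F ^ n) ∈ D.B := D.B.pow_mem X.mem n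

/-- the numbers `Re N(f^n α(f^n))` -/
noncomputable def mu (n : ℕ) : ℝ := (X.N (X.al n * X.f ^ n)).re

lemma norm_pow_le (n : ℕ) : ‖X.f ^ n‖ ≤ 1 := by
  rw [ContinuousMap.norm_le _ zero_le_one]
  intro ζ
  have h1 : (X.f ^ n) ζ = X.f ζ ^ n := rfl
  rw [h1, norm_pow]
  exact pow_le_one₀ (norm_nonneg _) ((X.f.norm_coe_le_norm ζ).trans X.hf)

lemma norm_al_le (n : ℕ) : ‖X.al n‖ ≤ 1 := by
  unfold al
  rw [norm_star]
  exact (D.markov.norm_le _).trans (X.norm_pow_le n)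

lemma abs_mu_le (n : ℕ) : |X.mu n| ≤ 1 := by
  refine (Complex.abs_re_le_norm _).trans ?_
  apply X.state.norm_le _ zero_le_one
  intro ζ
  have h1 : (X.al n * X.f ^ n) ζ = X.al n ζ * (X.f ^ n) ζ := rfl
  rw [h1, norm_mul]
  exact mul_le_one₀ (((X.al n).norm_coe_le_norm ζ).trans (X.norm_al_le n)) (norm_nonneg _)
    (((X.f ^ n).norm_coe_le_norm ζ).trans (X.norm_pow_le n))

/-- the defect vector -/
noncomputable def e : E := D.J 1 X.x - D.J X.f X.y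

lemma norm_e (hκ : 0 < κ) : ‖X.e‖ ^ 2 ≤ 2 * (2 - κ - X.mu 1 / κ) := by
  have hs : (⟪X.x, D.M X.f X.y⟫_ℂ).re = κ + X.mu 1 / κ := by
    have h1 : X.Al 1 = ContinuousLinearMap.adjoint (D.M X.f - X.F) := by
      unfold Al; rw [pow_one, pow_one]
    have h2 := X.inner_y _ _ (X.al_mem 1)
    have h3 : X.f * X.al 1 = X.al 1 * X.f ^ 1 := by rw [pow_one, mul_comm]
    rw [h3] at h2
    have h4 := congrArg Complex.re h2
    rw [Complex.re_ofReal_mul] at h4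
    have h5 : (⟪X.y, X.Al 1 X.x⟫_ℂ).re = X.mu 1 / κ := by
      rw [eq_div_iff hκ.ne', mul_comm]; exact h4
    rw [D.M_eq X.f X.F X.x X.y, Complex.add_re, ← h1, X.Fy, inner_smul_right, inner_self_C, X.hx,
      ← inner_conj_symm (X.Al 1 X.x), Complex.conj_re, h5]
    simp
  unfold e
  rw [@norm_sub_sq ℂ, D.J_one_norm, D.J_inner, star_one, one_mul, X.hx]
  have h1 := D.J_norm_sq_le X.f X.hf X.y
  rw [X.hy] at h1
  have h2 : RCLike.re ⟪X.x, D.M X.f X.y⟫_ℂ = κ + X.mu 1 / κ := hs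
  rw [h2]
  linarith

/-- The key identity. -/
lemma key_identity (hκ : 0 < κ) (n : ℕ) :
    (⟪D.J 1 ((X.F ^ n) X.x), D.J (X.f ^ n * 1) X.x + D.J (X.f ^ n * X.f) (-X.y)⟫_ℂ).re
      = (1 - κ) * ‖(X.F ^ n) X.x‖ ^ 2 + X.mu n - X.mu (n + 1) / κ := by
  have hFn : (X.F ^ (n + 1)) X.y = (κ : ℂ) • (X.F ^ n) X.x := by
    rw [pow_succ, mul_apply_eq_comp]
    rw [X.Fy, map_smul]
  have e1 : ⟪(X.F ^ n) X.x, D.M (X.f ^ n) X.x⟫_ℂ
      = ((‖(X.F ^ n) X.x‖ ^ 2 : ℝ) : ℂ) + conj (X.N (X.al n * X.f ^ n)) := by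
    rw [D.M_eq (X.f ^ n) (X.F ^ n), inner_self_C]
    congr 1
    rw [← inner_conj_symm]
    congr 1
    have h1 := X.hN _ (D.B.mul_mem (X.al_mem n) (X.pow_mem n))
    simp only [Prod.mk_mul_mk] at h1
    rw [h1, mul_apply_eq_comp]
    rfl
  have e2 : (κ : ℂ) * ⟪X.y, X.Al (n + 1) ((X.F ^ n) X.x)⟫_ℂ
      = X.N (X.al (n + 1) * X.f ^ (n + 1)) := by
    have h1 := X.inner_y _ _ (D.B.mul_mem (X.al_mem (n + 1)) (X.pow_mem n))
    have h2 : X.f * (X.al (n + 1) * X.f ^ n) = X.al (n + 1) * X.f ^ (n + 1) := by ring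
    have h3 : ((X.al (n + 1), X.Al (n + 1)) * (X.f ^ n, X.F ^ n)).1
      = X.al (n + 1) * X.f ^ n := rfl
    rw [← h2, ← h1]
    rfl
  have e3 : (⟪X.y, X.Al (n + 1) ((X.F ^ n) X.x)⟫_ℂ).re = X.mu (n + 1) / κ := by
    rw [eq_div_iff hκ.ne', mul_comm]
    have := congrArg Complex.re e2
    rwa [Complex.re_ofReal_mul] at this
  have e4 : (⟪(X.F ^ n) X.x, D.M (X.f ^ (n + 1)) X.y⟫_ℂ).re
      = κ * ‖(X.F ^ n) X.x‖ ^ 2 + X.mu (n + 1) / κ := by
    rw [D.M_eq (X.f ^ (n + 1)) (X.F ^ (n + 1)), hFn, inner_smul_right, inner_self_C,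
      Complex.add_re, Complex.re_ofReal_mul, Complex.ofReal_re]
    congr 1
    rw [← inner_conj_symm, Complex.conj_re]
    exact e3
  rw [mul_one, ← pow_succ, map_neg, ← sub_eq_add_neg, inner_sub_right, D.J_inner, D.J_inner,
    star_one, one_mul, one_mul, Complex.sub_re, e1, e4, Complex.add_re, Complex.ofReal_re,
    Complex.conj_re]
  unfold mu
  ring

/-- The recursive inequality. -/
lemma recursion (hκ : 1 < κ) (n : ℕ) :
    X.mu (n + 1) ≤ κ * X.mu n + κ * (2 - κ - X.mu 1 / κ) / (κ - 1) := by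
  have hκ0 : 0 < κ := by linarith
  have hκ1 : 0 < κ - 1 := by linarith
  have h1 := X.key_identity hκ0 n
  set r : ℝ := ‖(X.F ^ n) X.x‖ with hr
  set a : E := D.J 1 ((X.F ^ n) X.x) with ha
  set b : E := D.J (X.f ^ n * 1) X.x + D.J (X.f ^ n * X.f) (-X.y) with hb
  have hr0 : 0 ≤ r := norm_nonneg _
  have hae : ‖a‖ = Real.sqrt 2 * r := by
    rw [ha, ← Real.sqrt_sq (norm_nonneg (D.J 1 ((X.F ^ n) X.x))), D.J_one_norm,
      Real.sqrt_mul (by norm_num), Real.sqrt_sq (norm_nonneg _)]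
  have hbe : ‖b‖ ≤ ‖X.e‖ := by
    have := D.J_contract (X.f ^ n) 1 X.f X.x (-X.y) (X.norm_pow_le n)
    rw [hb]
    refine this.trans (le_of_eq ?_)
    rw [map_neg, ← sub_eq_add_neg]
    rfl
  have h2 : -(Real.sqrt 2 * r * ‖X.e‖) ≤ (⟪a, b⟫_ℂ).re := by
    have h3 : |(⟪a, b⟫_ℂ).re| ≤ Real.sqrt 2 * r * ‖X.e‖ := by
      refine (Complex.abs_re_le_norm _).trans ((norm_inner_le_norm _ _).trans ?_)
      rw [hae]
      gcongr
    exact (abs_le.1 h3).1
  have h4 := X.norm_e hκ0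
  set ε : ℝ := 2 - κ - X.mu 1 / κ with hε
  have hsq2 : Real.sqrt 2 * Real.sqrt 2 = 2 := Real.mul_self_sqrt (by norm_num)
  have hsq0 : 0 ≤ Real.sqrt 2 := Real.sqrt_nonneg _
  -- completing the square
  have h5 : 0 ≤ ((κ - 1) * r - Real.sqrt 2 * ‖X.e‖ / 2) ^ 2 := sq_nonneg _
  have h6 : -ε ≤ (κ - 1) * ((κ - 1) * r ^ 2 - Real.sqrt 2 * r * ‖X.e‖) := by
    have h7 : ((κ - 1) * r - Real.sqrt 2 * ‖X.e‖ / 2) ^ 2
        = (κ - 1) ^ 2 * r ^ 2 - (κ - 1) * Real.sqrt 2 * r * ‖X.e‖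
          + (Real.sqrt 2 * Real.sqrt 2) * ‖X.e‖ ^ 2 / 4 := by ring
    rw [h7, hsq2] at h5
    nlinarith
  have h8 : (κ - 1) * r ^ 2 - Real.sqrt 2 * r * ‖X.e‖ ≤ X.mu n - X.mu (n + 1) / κ := by
    linarith
  have h9 : -ε ≤ (κ - 1) * (X.mu n - X.mu (n + 1) / κ) :=
    h6.trans (by gcongr)
  have h10 : X.mu (n + 1) / κ ≤ X.mu n + ε / (κ - 1) := by
    have : -ε / (κ - 1) ≤ X.mu n - X.mu (n + 1) / κ := by
      rw [div_le_iff₀ hκ1]; linarith
    rw [neg_div] at this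
    linarith
  calc X.mu (n + 1) = κ * (X.mu (n + 1) / κ) := by field_simp
    _ ≤ κ * (X.mu n + ε / (κ - 1)) := by gcongr
    _ = κ * X.mu n + κ * ε / (κ - 1) := by ring

/-- No extremal configuration with `κ > 2`. -/
theorem false_of_two_lt {D : CoreData Γ H E} {K₀ κ : ℝ} (X : Extremal D K₀ κ) (hκ : 2 < κ) :
    False := by
  have hκ0 : 0 < κ := by linarith
  have hκ1 : 0 < κ - 1 := by linarith
  have he : 0 ≤ 2 - κ - X.mu 1 / κ := by
    have := X.norm_e hκ0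
    nlinarith [sq_nonneg ‖X.e‖]
  set ε : ℝ := 2 - κ - X.mu 1 / κ with hε
  have hmu1 : X.mu 1 = -(κ * (κ - 2) + κ * ε) := by
    rw [hε]; field_simp; ring
  set p : ℝ := κ * ε / (κ - 1) ^ 2 with hp
  have hp1 : κ * ε / (κ - 1) = p * (κ - 1) := by
    rw [hp]; field_simp
  -- the shifted sequence
  have hd : X.mu 1 + p < 0 := by
    have h1 : p ≤ κ * ε := by
      rw [hp]
      apply div_le_self (by positivity)
      nlinarith
    have h2 : 0 < κ * (κ - 2) := mul_pos hκ0 (by linarith)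
    rw [hmu1]; linarith
  have hrec : ∀ n : ℕ, X.mu (n + 1) + p ≤ κ ^ n * (X.mu 1 + p) := by
    intro n
    induction n with
    | zero => simp
    | succ n ih =>
      have h1 := X.recursion (by linarith) (n + 1)
      rw [← hε, hp1] at h1
      calc X.mu (n + 1 + 1) + p ≤ κ * X.mu (n + 1) + p * (κ - 1) + p := by linarith
        _ = κ * (X.mu (n + 1) + p) := by ring
        _ ≤ κ * (κ ^ n * (X.mu 1 + p)) := by gcongr
        _ = κ ^ (n + 1) * (X.mu 1 + p) := by ring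
  have hp0 : 0 ≤ p := by positivity
  have hlim : Filter.Tendsto (fun n : ℕ => κ ^ n * (X.mu 1 + p)) Filter.atTop Filter.atBot :=
    (tendsto_pow_atTop_atTop_of_one_lt (by linarith : 1 < κ)).atTop_mul_const_of_neg hd
  obtain ⟨n, hn⟩ := (hlim.eventually_lt_atBot (-1)).exists
  have h1 := hrec n
  have h2 := (abs_le.1 (X.abs_mu_le (n + 1))).1
  linarith

end Extremal

variable [Nontrivial H]

/-- The abstract bound with constant `2`. -/
theorem CoreData.bound_two (D : CoreData Γ H E) : ∀ b ∈ D.B, ‖b.2‖ ≤ 2 * ‖b.1‖ := by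
  obtain ⟨K₀, hK, hex⟩ := exists_extremal D
  have hK2 : K₀ ≤ 2 := by
    by_contra hcon
    push Not at hcon
    obtain ⟨X⟩ := hex ((K₀ + 2) / 2) (by linarith) (by linarith)
    exact X.false_of_two_lt (by linarith)
  intro b hb
  exact (hK b hb).trans (by gcongr)

end Vale.P123
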