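import Vale.Agent.P123.CurveBound
import Vale.Agent.P123.CoreTwo

/-!
# P123: the sharp bound for an operator inside a convex curve
-/

namespace Vale.P123

open Complex MeasureTheory intervalIntegral
open scoped Real Topology InnerProductSpace

namespace ConvexCurve

variable (c : ConvexCurve)
variable {H : Type*} [NormedAddCommGroup H] [InnerProductSpace ℂ H] [FiniteDimensional ℂ H]
  [Nontrivial H]

/-- The sharp bound for polynomials of an operator enclosed by a convex curve. -/
theorem curve_bound_two (h0 : c.Inside 0) {A : H →L[ℂ] H} {δ : ℝ} (h : c.Encloses A δ)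
    (p : Polynomial ℂ) {M : ℝ} (hM : ∀ θ, ‖p.eval (c.σ θ)‖ ≤ M) :
    ‖Polynomial.aeval A p‖ ≤ 2 * M := by
  obtain ⟨C, hC⟩ := c.exists_crude h0 h
  let _ : SeminormedAddCommGroup C(ℝ, H) :=
    InnerProductSpace.Core.toSeminormedAddCommGroup (c := c.preCore h0 h)
  let _ : InnerProductSpace ℂ C(ℝ, H) := InnerProductSpace.ofCore (c.preCore h0 h)
  let D : CoreData c.Γ H C(ℝ, H) :=
    { B := c.alg A
      comm := c.alg_comm A
      C := C
      bound := hC
      M := c.cpMap h0 h
      M_one := c.cpMap_one h0 h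
      J := c.dil H
      J_inner := fun φ ψ v w => by
        rw [c.inner_cpMap h0 h]
        change ∫ θ in (0 : ℝ)..(2 * π), ⟪φ (c.pt θ) • v,
          (c.dens A θ + ContinuousLinearMap.adjoint (c.dens A θ)) (ψ (c.pt θ) • w)⟫_ℂ = _
        congr 1; ext1 θ
        rw [map_smul, inner_smul_left, inner_smul_right]
        change _ = (starRingEnd ℂ) (φ (c.pt θ)) * ψ (c.pt θ) * _
        ring
      K := c.markov h0
      markov := c.isMarkov h0
      Θ := c.theta_mem h0 h }
  have h1 := D.bound_two (c.poly p, Polynomial.aeval A p) (c.poly_mem A p)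
  have h2 : ‖c.poly p‖ ≤ M := by
    rw [ContinuousMap.norm_le _ ((norm_nonneg _).trans (hM 0))]
    intro ζ
    obtain ⟨t, rfl⟩ := c.exists_pt ζ
    rw [c.poly_apply]
    exact hM t
  simp only at h1
  linarith

end ConvexCurve

end Vale.P123
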