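import Vale.Agent.P123.Assemble
import Vale.Agent.P123.CurveTwo

/-!
# P123: the sharp bound for numerical ranges (finite dimensional case)
-/

namespace Vale.P123

open Complex MeasureTheory intervalIntegral
open scoped Real Topology InnerProductSpace

/-- The finite dimensional case, given a good supply of curves. -/
theorem finite_dim_bound_two {H : Type*} [NormedAddCommGroup H] [InnerProductSpace ℂ H]
    [FiniteDimensional ℂ H] [Nontrivial H] (A : H →L[ℂ] H)
    (hcomp : IsCompact (numRange A)) (hne : (numRange A).Nonempty)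
    (hcurve : ∀ δ : ℝ, 0 < δ → ∃ c : ConvexCurve, (∀ z ∈ numRange A, c.Inside z) ∧
      ∀ θ, ∃ w ∈ numRange A, ‖c.σ θ - w‖ ≤ δ)
    (P : Polynomial ℂ) (M : ℝ) (hM : ∀ z ∈ numRange A, ‖P.eval z‖ ≤ M) :
    ‖Polynomial.aeval A P‖ ≤ 2 * M := by
  apply le_of_forall_pos_le_add
  intro ε hε
  -- uniform continuity of `P` near the numerical range
  have huc : ∃ δ : ℝ, 0 < δ ∧ ∀ z : ℂ, (∃ w ∈ numRange A, ‖z - w‖ ≤ δ) →
      ‖P.eval z‖ ≤ M + ε / 2 := by
    have h1 : ∀ w ∈ numRange A, ∃ δ : ℝ, 0 < δ ∧ ∀ z, dist z w < δ → ‖P.eval z‖ < M + ε / 2 := by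
      intro w hw
      have hc : Continuous fun z => ‖P.eval z‖ := continuous_norm.comp P.continuous
      have := hc.continuousAt.eventually_lt (continuousAt_const (y := M + ε / 2) (x := w))
        (by have := hM w hw; linarith)
      obtain ⟨δ, hδ, h⟩ := Metric.eventually_nhds_iff.1 this
      exact ⟨δ, hδ, fun z hz => h hz⟩
    set U : Set ℂ := {z | ‖P.eval z‖ < M + ε / 2} with hU
    have hUo : IsOpen U := isOpen_lt (continuous_norm.comp P.continuous) continuous_const
    have hWU : numRange A ⊆ U := fun z hz => by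
      have := hM z hz
      show ‖P.eval z‖ < M + ε / 2
      linarith
    obtain ⟨δ, hδ, h⟩ := hcomp.exists_cthickening_subset_open hUo hWU
    refine ⟨δ, hδ, fun z ⟨w, hw, hzw⟩ => ?_⟩
    have : z ∈ Metric.cthickening δ (numRange A) :=
      Metric.mem_cthickening_of_dist_le z w δ _ hw (by rwa [dist_eq_norm])
    exact (h this).le
  obtain ⟨δ, hδ, hδP⟩ := huc
  obtain ⟨c, hin, hnear⟩ := hcurve δ hδ
  obtain ⟨z₀, hz₀⟩ := hne
  set c' := c.translate z₀ with hc'
  set A' : H →L[ℂ] H := A - algebraMap ℂ (H →L[ℂ] H) z₀ with hA'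
  set P' : Polynomial ℂ := P.comp (Polynomial.X + Polynomial.C z₀) with hP'
  have h0 : c'.Inside 0 := by
    intro θ
    have := hin z₀ hz₀ θ
    change 0 < (exp (-(θ * I)) * (c.σ θ - z₀ - 0)).re
    rwa [sub_zero]
  have hA'in : ∀ z ∈ numRange A', c'.Inside z := by
    rintro z ⟨x, hx, rfl⟩ θ
    have h1 := hin _ ⟨x, hx, rfl⟩ θ
    have h2 : ⟪x, A' x⟫_ℂ = ⟪x, A x⟫_ℂ - z₀ := by
      have : A' x = A x - z₀ • x := by
        rw [hA', Algebra.algebraMap_eq_smul_one]; rfl
      rw [this, inner_sub_right, inner_smul_right, inner_self_C, hx]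
      simp
    change 0 < (exp (-(θ * I)) * (c.σ θ - z₀ - ⟪x, A' x⟫_ℂ)).re
    rw [h2]
    have : c.σ θ - z₀ - (⟪x, A x⟫_ℂ - z₀) = c.σ θ - ⟪x, A x⟫_ℂ := by ring
    rwa [this]
  obtain ⟨d, hd⟩ := c'.exists_encloses A' hA'in
  have hbound := c'.curve_bound_two h0 hd P' (M := M + ε / 2) (fun θ => by
    have h1 : P'.eval (c'.σ θ) = P.eval (c.σ θ) := by
      rw [hP', Polynomial.eval_comp]
      congr 1
      change (Polynomial.X + Polynomial.C z₀).eval (c.σ θ - z₀) = c.σ θ
      simp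
    rw [h1]
    exact hδP _ (hnear θ))
  have h2 : Polynomial.aeval A' P' = Polynomial.aeval A P := by
    rw [hP', Polynomial.aeval_comp]
    congr 2
    simp [hA']
  rw [h2] at hbound
  linarith

end Vale.P123
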