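import Vale.Agent.P123.Markov

/-!
# P123: Cauchy's formula in a Banach algebra
-/

namespace Vale.P123

open Complex MeasureTheory intervalIntegral
open scoped Real Topology

section Neumann

variable {𝔅 : Type*} [NormedRing 𝔅] [NormedAlgebra ℂ 𝔅] [CompleteSpace 𝔅]

/-- Neumann series inside a closed subalgebra. -/
lemma neumann (S : Subalgebra ℂ 𝔅) (hS : IsClosed (S : Set 𝔅)) {b : 𝔅} (hb : b ∈ S) {R : ℝ}
    (hR : 0 < R) (h : ‖algebraMap ℂ 𝔅 R - b‖ < R) : IsUnit b ∧ Ring.inverse b ∈ S := by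
  have hRC : (R : ℂ) ≠ 0 := by exact_mod_cast hR.ne'
  set t : 𝔅 := (R : ℂ)⁻¹ • (algebraMap ℂ 𝔅 R - b) with ht
  have htS : t ∈ S := S.smul_mem (S.sub_mem (S.algebraMap_mem _) hb) _
  have htn : ‖t‖ < 1 := by
    rw [ht, norm_smul, norm_inv, norm_real, Real.norm_eq_abs, abs_of_pos hR]
    rw [inv_mul_lt_iff₀ hR, mul_one]; exact h
  have h1t : 1 - t = (R : ℂ)⁻¹ • b := by
    rw [ht, smul_sub, Algebra.algebraMap_eq_smul_one, smul_smul, inv_mul_cancel₀ hRC, one_smul]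
    abel
  have hsum := summable_geometric_of_norm_lt_one htn
  have e1 : (1 - t) * (∑' n : ℕ, t ^ n) = 1 := mul_neg_geom_series t htn
  have e2 : (∑' n : ℕ, t ^ n) * (1 - t) = 1 := geom_series_mul_neg t htn
  have hgS : (∑' n : ℕ, t ^ n) ∈ S := by
    refine hS.mem_of_tendsto hsum.hasSum.tendsto_sum_nat
      (Filter.Eventually.of_forall fun n => ?_)
    exact S.sum_mem fun i _ => S.pow_mem htS i
  set g : 𝔅 := (R : ℂ)⁻¹ • (∑' n : ℕ, t ^ n) with hg
  have f1 : b * g = 1 := by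
    rw [hg, mul_smul_comm, ← smul_mul_assoc, ← h1t, e1]
  have f2 : g * b = 1 := by
    rw [hg, smul_mul_assoc, ← mul_smul_comm, ← h1t, e2]
  have hu : Ring.inverse b = g := Ring.inverse_unit (⟨b, g, f1, f2⟩ : 𝔅ˣ)
  exact ⟨⟨⟨b, g, f1, f2⟩, rfl⟩, by rw [hu]; exact S.smul_mem hgS _⟩

/-- Neumann series, with a phase. -/
lemma neumann_phase (S : Subalgebra ℂ 𝔅) (hS : IsClosed (S : Set 𝔅)) {X : 𝔅} (hX : X ∈ S) {κ : ℂ}
    (_hκ : κ ≠ 0) {R : ℝ} (hR : 0 < R) (h : ‖algebraMap ℂ 𝔅 R - κ • X‖ < R) :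
    IsUnit X ∧ Ring.inverse X ∈ S := by
  obtain ⟨hu, hmem⟩ := neumann S hS (S.smul_mem hX κ) hR h
  have e1 : (κ • X) * Ring.inverse (κ • X) = 1 := Ring.mul_inverse_cancel _ hu
  have e2 : Ring.inverse (κ • X) * (κ • X) = 1 := Ring.inverse_mul_cancel _ hu
  have f1 : X * (κ • Ring.inverse (κ • X)) = 1 := by
    rw [mul_smul_comm, ← smul_mul_assoc, e1]
  have f2 : (κ • Ring.inverse (κ • X)) * X = 1 := by
    rw [smul_mul_assoc, ← mul_smul_comm, e2]
  have hinv : Ring.inverse X = κ • Ring.inverse (κ • X) :=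
    Ring.inverse_unit (⟨X, κ • Ring.inverse (κ • X), f1, f2⟩ : 𝔅ˣ)
  refine ⟨⟨⟨X, κ • Ring.inverse (κ • X), f1, f2⟩, rfl⟩, ?_⟩
  rw [hinv]
  exact S.smul_mem hmem _

/-- Integrals of continuous functions stay in a closed subalgebra. -/
lemma integral_mem (S : Subalgebra ℂ 𝔅) (hS : IsClosed (S : Set 𝔅)) {f : ℝ → 𝔅}
    (hf : Continuous f) (hm : ∀ θ, f θ ∈ S) (a b : ℝ) : (∫ θ in a..b, f θ) ∈ S := by
  have : CompleteSpace S := hS.completeSpace_coe
  let g : ℝ → S := fun θ => ⟨f θ, hm θ⟩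
  have hg : Continuous g := hf.subtype_mk _
  have h1 := (S.val.toLinearMap.mkContinuous 1 (fun x => by rw [one_mul]; exact le_rfl)).intervalIntegral_comp_comm
    (μ := volume) (a := a) (b := b) (hg.intervalIntegrable a b)
  have h2 : (∫ θ in a..b, f θ) = ((∫ θ in a..b, g θ : S) : 𝔅) := h1
  rw [h2]
  exact (∫ θ in a..b, g θ : S).2

end Neumann

namespace ConvexCurve

variable (c : ConvexCurve) {𝔅 : Type*} [NormedRing 𝔅] [NormedAlgebra ℂ 𝔅] [CompleteSpace 𝔅]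

/-- The resolvent along the curve. -/
noncomputable def res (a : 𝔅) (θ : ℝ) : 𝔅 := Ring.inverse (algebraMap ℂ 𝔅 (c.σ θ) - a)

lemma continuous_res {a : 𝔅} (h : ∀ θ, IsUnit (algebraMap ℂ 𝔅 (c.σ θ) - a)) :
    Continuous (c.res a) := by
  rw [continuous_iff_continuousAt]
  intro θ
  obtain ⟨u, hu⟩ := h θ
  have h1 : ContinuousAt (fun θ => algebraMap ℂ 𝔅 (c.σ θ) - a) θ :=
    ((continuous_algebraMap ℂ 𝔅).comp c.continuous_σ |>.sub continuous_const).continuousAt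
  have h2 : ContinuousAt Ring.inverse (algebraMap ℂ 𝔅 (c.σ θ) - a) := by
    rw [← hu]; exact NormedRing.inverse_continuousAt u
  exact ContinuousAt.comp (f := fun θ => algebraMap ℂ 𝔅 (c.σ θ) - a) h2 h1

lemma hasDerivAt_res {a : 𝔅} (h : ∀ θ, IsUnit (algebraMap ℂ 𝔅 (c.σ θ) - a)) (θ : ℝ) :
    HasDerivAt (c.res a) (-(c.dσ θ • (c.res a θ * c.res a θ))) θ := by
  obtain ⟨u, hu⟩ := h θ
  have h1 : HasDerivAt (fun θ => algebraMap ℂ 𝔅 (c.σ θ) - a) (c.dσ θ • (1 : 𝔅)) θ := by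
    have h2 := ((c.hasDerivAt θ).smul_const (1 : 𝔅)).sub_const a
    simp only [← Algebra.algebraMap_eq_smul_one] at h2 ⊢
    exact h2
  have h3 := hasFDerivAt_ringInverse (𝕜 := ℝ) u
  rw [hu] at h3
  have h4 := h3.comp_hasDerivAt θ h1
  refine h4.congr_deriv ?_
  have h5 : c.res a θ = ↑u⁻¹ := by
    unfold res; rw [← hu]; exact Ring.inverse_unit u
  rw [h5]
  simp only [neg_apply, ContinuousLinearMap.mulLeftRight_apply]
  rw [mul_smul_comm, smul_mul_assoc, mul_one]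

omit [CompleteSpace 𝔅] in
lemma res_periodic (a : 𝔅) (θ : ℝ) : c.res a (θ + 2 * π) = c.res a θ := by
  unfold res; rw [c.σ_per]

/-- The integral of the square of the resolvent vanishes. -/
lemma integral_res_sq {a : 𝔅} (h : ∀ θ, IsUnit (algebraMap ℂ 𝔅 (c.σ θ) - a)) :
    ∫ θ in (0 : ℝ)..(2 * π), c.dσ θ • (c.res a θ * c.res a θ) = 0 := by
  have hc : Continuous fun θ => c.dσ θ • (c.res a θ * c.res a θ) :=
    c.continuous_dσ.smul ((c.continuous_res h).mul (c.continuous_res h))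
  have h1 := integral_eq_sub_of_hasDerivAt (a := 0) (b := 2 * π)
    (fun θ _ => c.hasDerivAt_res h θ) (hc.neg.intervalIntegrable _ _)
  rw [intervalIntegral.integral_neg] at h1
  have h2 := c.res_periodic a 0
  rw [zero_add] at h2
  rw [h2, sub_self] at h1
  exact neg_eq_zero.1 h1

omit [CompleteSpace 𝔅] in
lemma res_mul {a : 𝔅} (h : ∀ θ, IsUnit (algebraMap ℂ 𝔅 (c.σ θ) - a)) (θ : ℝ) :
    (algebraMap ℂ 𝔅 (c.σ θ) - a) * c.res a θ = 1 := Ring.mul_inverse_cancel _ (h θ)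

omit [CompleteSpace 𝔅] in
lemma mul_res {a : 𝔅} (h : ∀ θ, IsUnit (algebraMap ℂ 𝔅 (c.σ θ) - a)) (θ : ℝ) :
    c.res a θ * (algebraMap ℂ 𝔅 (c.σ θ) - a) = 1 := Ring.inverse_mul_cancel _ (h θ)

omit [CompleteSpace 𝔅] in
/-- The resolvent identity. -/
lemma res_sub {a a' : 𝔅} (h : ∀ θ, IsUnit (algebraMap ℂ 𝔅 (c.σ θ) - a))
    (h' : ∀ θ, IsUnit (algebraMap ℂ 𝔅 (c.σ θ) - a')) (θ : ℝ) :
    c.res a' θ - c.res a θ = c.res a' θ * (a' - a) * c.res a θ := by
  have e1 := c.res_mul h θ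
  have e2 := c.mul_res h' θ
  calc c.res a' θ - c.res a θ
      = c.res a' θ * ((algebraMap ℂ 𝔅 (c.σ θ) - a) * c.res a θ)
        - (c.res a' θ * (algebraMap ℂ 𝔅 (c.σ θ) - a')) * c.res a θ := by
          rw [e1, e2, mul_one, one_mul]
    _ = c.res a' θ * (a' - a) * c.res a θ := by noncomm_ring

omit [CompleteSpace 𝔅] in
lemma commute_res {a b : 𝔅} (hab : Commute b a) (θ : ℝ) : Commute b (c.res a θ) := by
  unfold res
  have h1 : Commute b (algebraMap ℂ 𝔅 (c.σ θ) - a) := by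
    have h2 : Commute b (algebraMap ℂ 𝔅 (c.σ θ)) := (Algebra.commutes (c.σ θ) b).symm
    exact h2.sub_right hab
  by_cases hu : IsUnit (algebraMap ℂ 𝔅 (c.σ θ) - a)
  · obtain ⟨u, hu⟩ := hu
    rw [← hu] at h1 ⊢
    rw [Ring.inverse_unit]
    exact h1.units_inv_right
  · rw [Ring.inverse_non_unit _ hu]
    exact Commute.zero_right b

/-- joint continuity of the resolvent -/
lemma continuousOn_res (a : 𝔅)
    (h : ∀ s : ℝ, 0 ≤ s → s ≤ 1 → ∀ θ, IsUnit (algebraMap ℂ 𝔅 (c.σ θ) - (s : ℂ) • a)) :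
    ContinuousOn (fun p : ℝ × ℝ => c.res ((p.1 : ℂ) • a) p.2) (Set.Icc 0 1 ×ˢ Set.univ) := by
  rintro ⟨s, θ⟩ ⟨hs, -⟩
  obtain ⟨u, hu⟩ := h s hs.1 hs.2 θ
  apply ContinuousAt.continuousWithinAt
  have h1 : Continuous (fun p : ℝ × ℝ => algebraMap ℂ 𝔅 (c.σ p.2) - (p.1 : ℂ) • a) := by
    apply Continuous.sub
    · exact (continuous_algebraMap ℂ 𝔅).comp (c.continuous_σ.comp continuous_snd)
    · exact (continuous_ofReal.comp continuous_fst).smul continuous_const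
  have h2 : ContinuousAt Ring.inverse (algebraMap ℂ 𝔅 (c.σ θ) - (s : ℂ) • a) := by
    rw [← hu]; exact NormedRing.inverse_continuousAt u
  exact ContinuousAt.comp (f := fun p : ℝ × ℝ => algebraMap ℂ 𝔅 (c.σ p.2) - (p.1 : ℂ) • a)
    (x := (s, θ)) h2 h1.continuousAt

lemma exists_bound_res (a : 𝔅)
    (h : ∀ s : ℝ, 0 ≤ s → s ≤ 1 → ∀ θ, IsUnit (algebraMap ℂ 𝔅 (c.σ θ) - (s : ℂ) • a)) :
    ∃ C : ℝ, 0 ≤ C ∧ ∀ s : ℝ, 0 ≤ s → s ≤ 1 → ∀ θ, ‖c.res ((s : ℂ) • a) θ‖ ≤ C := by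
  have hK : IsCompact (Set.Icc (0 : ℝ) 1 ×ˢ Set.Icc (0 : ℝ) (2 * π)) :=
    isCompact_Icc.prod isCompact_Icc
  obtain ⟨C, hC⟩ := hK.exists_bound_of_continuousOn
    ((c.continuousOn_res a h).mono (Set.prod_mono le_rfl (Set.subset_univ _)))
  refine ⟨max C 0, le_max_right _ _, fun s hs0 hs1 θ => ?_⟩
  have hper : Function.Periodic (c.res ((s : ℂ) • a)) (2 * π) := c.res_periodic _
  obtain ⟨y, hy, hys⟩ := hper.exists_mem_Ico₀ (by positivity) θ
  rw [hys]
  exact (hC (s, y) ⟨⟨hs0, hs1⟩, ⟨hy.1, hy.2.le⟩⟩).trans (le_max_left _ _)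

/-- Cauchy's formula for the constant function, in a Banach algebra. -/
theorem cauchy_one (h0 : c.Inside 0) (a : 𝔅)
    (h : ∀ s : ℝ, 0 ≤ s → s ≤ 1 → ∀ θ, IsUnit (algebraMap ℂ 𝔅 (c.σ θ) - (s : ℂ) • a)) :
    ∫ θ in (0 : ℝ)..(2 * π), c.dσ θ • c.res a θ = (2 * π * I) • (1 : 𝔅) := by
  obtain ⟨C, hC0, hC⟩ := c.exists_bound_res a h
  obtain ⟨R, hR0, hR⟩ := c.exists_bound_r
  set F : ℝ → 𝔅 := fun s => ∫ θ in (0 : ℝ)..(2 * π), c.dσ θ • c.res ((s : ℂ) • a) θ with hF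
  have hcont : ∀ s : ℝ, 0 ≤ s → s ≤ 1 → Continuous (c.res ((s : ℂ) • a)) := fun s hs0 hs1 =>
    c.continuous_res (h s hs0 hs1)
  set K : ℝ := R * (C * ‖a‖ * C * ‖a‖ * C) * |2 * π - 0| with hK
  have hquad : ∀ s ∈ Set.Icc (0 : ℝ) 1, ∀ s' ∈ Set.Icc (0 : ℝ) 1,
      ‖F s' - F s‖ ≤ K * ‖s' - s‖ ^ 2 := by
    intro s hs s' hs'
    have c1 := hcont s hs.1 hs.2
    have c2 := hcont s' hs'.1 hs'.2
    have e1 : ∀ θ, c.dσ θ • c.res ((s' : ℂ) • a) θ - c.dσ θ • c.res ((s : ℂ) • a) θ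
        = ((s' - s : ℝ) : ℂ) • (a * (c.dσ θ • (c.res ((s : ℂ) • a) θ * c.res ((s : ℂ) • a) θ)))
          + (((s' - s) ^ 2 : ℝ) : ℂ) • (c.dσ θ • (c.res ((s' : ℂ) • a) θ * a *
            c.res ((s : ℂ) • a) θ * a * c.res ((s : ℂ) • a) θ)) := by
      intro θ
      have r1 := c.res_sub (h s hs.1 hs.2) (h s' hs'.1 hs'.2) θ
      have hcomm : Commute a (c.res ((s : ℂ) • a) θ) :=
        c.commute_res ((Commute.refl a).smul_right _) θ
      have r2 : (s' : ℂ) • a - (s : ℂ) • a = ((s' - s : ℝ) : ℂ) • a := by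
        rw [← sub_smul]; push_cast; rfl
      rw [r2] at r1
      set R' := c.res ((s' : ℂ) • a) θ
      set R₀ := c.res ((s : ℂ) • a) θ
      have r3 : R' - R₀ = ((s' - s : ℝ) : ℂ) • (R' * a * R₀) := by
        rw [r1]
        simp only [mul_smul_comm, smul_mul_assoc]
      have r4 : R' * a * R₀ = R₀ * a * R₀ + ((s' - s : ℝ) : ℂ) • (R' * a * R₀ * a * R₀) := by
        calc R' * a * R₀ = R₀ * a * R₀ + (R' - R₀) * a * R₀ := by noncomm_ring
          _ = _ := by rw [r3]; simp only [smul_mul_assoc]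
      have r5 : R₀ * a * R₀ = a * (R₀ * R₀) := by
        rw [← hcomm.eq, mul_assoc]
      rw [r5] at r4
      calc c.dσ θ • R' - c.dσ θ • R₀ = c.dσ θ • (R' - R₀) := by rw [smul_sub]
        _ = c.dσ θ • (((s' - s : ℝ) : ℂ) • (R' * a * R₀)) := by rw [r3]
        _ = c.dσ θ • (((s' - s : ℝ) : ℂ) • (a * (R₀ * R₀)
            + ((s' - s : ℝ) : ℂ) • (R' * a * R₀ * a * R₀))) :=
          congrArg (fun z => c.dσ θ • (((s' - s : ℝ) : ℂ) • z)) r4
        _ = _ := by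
          rw [smul_add, smul_add, mul_smul_comm]
          simp only [smul_smul]
          congr 2
          · ring
          · push_cast; ring
    have e2 : F s' - F s = (((s' - s) ^ 2 : ℝ) : ℂ) • ∫ θ in (0 : ℝ)..(2 * π),
        (c.dσ θ • (c.res ((s' : ℂ) • a) θ * a *
            c.res ((s : ℂ) • a) θ * a * c.res ((s : ℂ) • a) θ)) := by
      rw [hF]
      simp only
      have i2 : Continuous fun θ => c.dσ θ • c.res ((s' : ℂ) • a) θ := c.continuous_dσ.smul c2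
      have i1 : Continuous fun θ => c.dσ θ • c.res ((s : ℂ) • a) θ := c.continuous_dσ.smul c1
      rw [← intervalIntegral.integral_sub (i2.intervalIntegrable _ _)
        (i1.intervalIntegrable _ _)]
      simp only [e1]
      rw [intervalIntegral.integral_add, intervalIntegral.integral_smul,
        intervalIntegral.integral_smul]
      · have e3 : ∫ θ in (0 : ℝ)..(2 * π),
            a * (c.dσ θ • (c.res ((s : ℂ) • a) θ * c.res ((s : ℂ) • a) θ)) = 0 := by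
          have i3 : Continuous fun θ => c.dσ θ • (c.res ((s : ℂ) • a) θ * c.res ((s : ℂ) • a) θ) :=
            c.continuous_dσ.smul (c1.mul c1)
          have e4 := (ContinuousLinearMap.mul ℝ 𝔅 a).intervalIntegral_comp_comm
            (μ := volume) (a := 0) (b := 2 * π) (i3.intervalIntegrable 0 (2 * π))
          simp only [ContinuousLinearMap.mul_apply'] at e4
          rw [e4, c.integral_res_sq (h s hs.1 hs.2), mul_zero]
        rw [e3, smul_zero, zero_add]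
      · exact ((continuous_const.mul (c.continuous_dσ.smul (c1.mul c1))).const_smul
          _).intervalIntegrable _ _
      · exact ((c.continuous_dσ.smul ((((c2.mul continuous_const).mul c1).mul
          continuous_const).mul c1)).const_smul _).intervalIntegrable _ _
    rw [e2, norm_smul, norm_real, Real.norm_eq_abs, Real.norm_eq_abs, sq_abs, mul_comm K,
      abs_of_nonneg (sq_nonneg (s' - s))]
    gcongr
    apply intervalIntegral.norm_integral_le_of_norm_le_const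
    intro θ _
    rw [norm_smul, c.norm_dσ]
    have b1 := hC s hs.1 hs.2 θ
    have b2 := hC s' hs'.1 hs'.2 θ
    have b3 := hR θ
    have b4 := (c.r_pos θ).le
    calc c.r θ * ‖c.res ((s' : ℂ) • a) θ * a * c.res ((s : ℂ) • a) θ * a *
          c.res ((s : ℂ) • a) θ‖
        ≤ c.r θ * (‖c.res ((s' : ℂ) • a) θ‖ * ‖a‖ * ‖c.res ((s : ℂ) • a) θ‖ * ‖a‖ *
          ‖c.res ((s : ℂ) • a) θ‖) := by
          gcongr
          refine (norm_mul_le _ _).trans ?_
          gcongr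
          refine (norm_mul_le _ _).trans ?_
          gcongr
          refine (norm_mul_le _ _).trans ?_
          gcongr
          exact norm_mul_le _ _
      _ ≤ R * (C * ‖a‖ * C * ‖a‖ * C) := by gcongr
  have hderiv : ∀ s ∈ Set.Icc (0 : ℝ) 1, HasDerivWithinAt F 0 (Set.Icc 0 1) s := by
    intro s hs
    have h1 : (fun s' => F s' - F s) =O[𝓝[Set.Icc 0 1] s] fun x => ‖x - s‖ ^ 2 := by
      apply Asymptotics.IsBigO.of_bound K
      filter_upwards [self_mem_nhdsWithin] with s' hs'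
      rw [norm_pow, norm_norm]
      exact hquad s hs s' hs'
    have h2 := (h1.hasFDerivWithinAt (𝕜 := ℝ) hs (by norm_num)).hasDerivWithinAt
    have h3 := h2.add_const (F s)
    simpa using h3
  have hconst := constant_of_derivWithin_zero (f := F) (a := 0) (b := 1)
    (fun s hs => (hderiv s hs).differentiableWithinAt)
    (fun s hs => (hderiv s ⟨hs.1, hs.2.le⟩).derivWithin
      (uniqueDiffOn_Icc zero_lt_one s ⟨hs.1, hs.2.le⟩))
  have h1 := hconst 1 ⟨zero_le_one, le_rfl⟩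
  have h2 : F 1 = ∫ θ in (0 : ℝ)..(2 * π), c.dσ θ • c.res a θ := by
    rw [hF]; simp
  have h3 : F 0 = (2 * π * I) • (1 : 𝔅) := by
    rw [hF]
    simp only [ofReal_zero, zero_smul]
    rw [← c.integral_quot_period h0, ← intervalIntegral.integral_smul_const]
    congr 1
    ext θ
    unfold res
    have hne : c.σ θ ≠ 0 := by simpa using c.inside_ne h0 θ
    have hu : Ring.inverse (algebraMap ℂ 𝔅 (c.σ θ) - 0) = algebraMap ℂ 𝔅 (c.σ θ)⁻¹ := by
      rw [sub_zero]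
      exact Ring.inverse_unit (⟨algebraMap ℂ 𝔅 (c.σ θ), algebraMap ℂ 𝔅 (c.σ θ)⁻¹,
        by rw [← map_mul, mul_inv_cancel₀ hne, map_one],
        by rw [← map_mul, inv_mul_cancel₀ hne, map_one]⟩ : 𝔅ˣ)
    rw [hu, Algebra.algebraMap_eq_smul_one, smul_smul, sub_zero, div_eq_mul_inv]
  rw [← h2, h1, h3]

/-- Cauchy's formula for powers. -/
theorem cauchy_pow {a : 𝔅} (h : ∀ θ, IsUnit (algebraMap ℂ 𝔅 (c.σ θ) - a))
    (h1 : ∫ θ in (0 : ℝ)..(2 * π), c.dσ θ • c.res a θ = (2 * π * I) • (1 : 𝔅)) (n : ℕ) :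
    ∫ θ in (0 : ℝ)..(2 * π), (c.σ θ ^ n * c.dσ θ) • c.res a θ = (2 * π * I) • a ^ n := by
  induction n with
  | zero => simpa using h1
  | succ n ih =>
    have hc := c.continuous_res h
    have e1 : ∀ θ, (c.σ θ ^ (n + 1) * c.dσ θ) • c.res a θ
        = (c.σ θ ^ n * c.dσ θ) • (1 : 𝔅) + a * ((c.σ θ ^ n * c.dσ θ) • c.res a θ) := by
      intro θ
      have := c.res_mul h θ
      rw [sub_mul, sub_eq_iff_eq_add, Algebra.algebraMap_eq_smul_one, smul_mul_assoc,
        one_mul] at this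
      rw [pow_succ, mul_smul_comm, ← smul_add, ← this, smul_smul]
      congr 1; ring
    simp only [e1]
    have hcσ : Continuous fun θ => c.σ θ ^ n * c.dσ θ := (c.continuous_σ.pow n).mul c.continuous_dσ
    rw [intervalIntegral.integral_add, intervalIntegral.integral_smul_const]
    · have e2 : ∫ θ in (0 : ℝ)..(2 * π), c.σ θ ^ n * c.dσ θ = 0 := by
        have h2 : ∀ θ : ℝ, HasDerivAt (fun θ => c.σ θ ^ (n + 1) / ((n : ℂ) + 1))
            (c.σ θ ^ n * c.dσ θ) θ := by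
          intro θ
          have h3 := ((c.hasDerivAt θ).fun_pow (n + 1)).div_const ((n : ℂ) + 1)
          refine h3.congr_deriv ?_
          have : (n : ℂ) + 1 ≠ 0 := by exact_mod_cast Nat.succ_ne_zero n
          push_cast
          field_simp
        have h4 := integral_eq_sub_of_hasDerivAt (a := 0) (b := 2 * π)
          (fun θ _ => h2 θ) (hcσ.intervalIntegrable _ _)
        rw [h4]
        have := c.σ_per 0
        rw [zero_add] at this
        rw [this, sub_self]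
      have i3 : Continuous fun θ => (c.σ θ ^ n * c.dσ θ) • c.res a θ := hcσ.smul hc
      have e3 := (ContinuousLinearMap.mul ℝ 𝔅 a).intervalIntegral_comp_comm
        (μ := volume) (a := 0) (b := 2 * π) (i3.intervalIntegrable 0 (2 * π))
      simp only [ContinuousLinearMap.mul_apply'] at e3
      rw [e2, zero_smul, zero_add, e3, ih, mul_smul_comm, pow_succ']
    · exact (hcσ.smul continuous_const).intervalIntegrable _ _
    · exact (continuous_const.mul (hcσ.smul hc)).intervalIntegrable _ _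

/-- Cauchy's formula for polynomials. -/
theorem cauchy_poly {a : 𝔅} (h : ∀ θ, IsUnit (algebraMap ℂ 𝔅 (c.σ θ) - a))
    (h1 : ∫ θ in (0 : ℝ)..(2 * π), c.dσ θ • c.res a θ = (2 * π * I) • (1 : 𝔅))
    (p : Polynomial ℂ) :
    ∫ θ in (0 : ℝ)..(2 * π), (p.eval (c.σ θ) * c.dσ θ) • c.res a θ
      = (2 * π * I) • Polynomial.aeval a p := by
  have hc := c.continuous_res h
  induction p using Polynomial.induction_on' with
  | add p q hp hq =>
    simp only [Polynomial.eval_add, add_mul, add_smul, map_add, smul_add]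
    rw [← hp, ← hq, intervalIntegral.integral_add]
    · exact (((p.continuous.comp c.continuous_σ).mul c.continuous_dσ).smul
        hc).intervalIntegrable _ _
    · exact (((q.continuous.comp c.continuous_σ).mul c.continuous_dσ).smul
        hc).intervalIntegrable _ _
  | monomial n k =>
    have h2 := c.cauchy_pow h h1 n
    simp only [Polynomial.eval_monomial, Polynomial.aeval_monomial]
    have e1 : ∀ θ, (k * c.σ θ ^ n * c.dσ θ) • c.res a θ
        = k • ((c.σ θ ^ n * c.dσ θ) • c.res a θ) := by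
      intro θ; rw [smul_smul, mul_assoc]
    simp only [e1]
    rw [intervalIntegral.integral_smul, h2, ← Algebra.smul_def, smul_comm]

/-- Continuous algebra homomorphisms commute with contour integrals of the resolvent. -/
theorem map_cint {𝔄 : Type*} [NormedRing 𝔄] [NormedAlgebra ℂ 𝔄] [CompleteSpace 𝔄]
    (f : 𝔅 →ₐ[ℂ] 𝔄) (hf : Continuous f) {a : 𝔅}
    (h : ∀ θ, IsUnit (algebraMap ℂ 𝔅 (c.σ θ) - a)) {ψ : ℝ → ℂ} (hψ : Continuous ψ) :
    (∀ θ, IsUnit (algebraMap ℂ 𝔄 (c.σ θ) - f a)) ∧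
    f (∫ θ in (0 : ℝ)..(2 * π), ψ θ • c.res a θ)
      = ∫ θ in (0 : ℝ)..(2 * π), ψ θ • c.res (f a) θ := by
  have e1 : ∀ θ, f (algebraMap ℂ 𝔅 (c.σ θ) - a) = algebraMap ℂ 𝔄 (c.σ θ) - f a := by
    intro θ; rw [map_sub, AlgHom.commutes]
  refine ⟨fun θ => by rw [← e1]; exact (h θ).map f, ?_⟩
  let L : 𝔅 →L[ℂ] 𝔄 := ⟨f.toLinearMap, hf⟩
  have hc : Continuous fun θ => ψ θ • c.res a θ := hψ.smul (c.continuous_res h)
  have h2 := L.intervalIntegral_comp_comm (μ := volume) (a := 0) (b := 2 * π)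
    (hc.intervalIntegrable 0 (2 * π))
  change L _ = _
  rw [← h2]
  congr 1; ext θ
  change f (ψ θ • c.res a θ) = _
  rw [map_smul]
  congr 1
  unfold res
  obtain ⟨u, hu⟩ := h θ
  rw [← e1, ← hu, Ring.inverse_unit]
  have : f (u : 𝔅) = ((Units.map (f : 𝔅 →* 𝔄) u : 𝔄ˣ) : 𝔄) := rfl
  rw [this, Ring.inverse_unit]
  rfl

/-- Continuity in the dilation parameter. -/
theorem tendsto_cint (a : 𝔅)
    (h : ∀ s : ℝ, 0 ≤ s → s ≤ 1 → ∀ θ, IsUnit (algebraMap ℂ 𝔅 (c.σ θ) - (s : ℂ) • a))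
    {ψ : ℝ → ℂ} (hψ : Continuous ψ) :
    Filter.Tendsto (fun n => ∫ θ in (0 : ℝ)..(2 * π), ψ θ • c.res ((rho n : ℂ) • a) θ)
      Filter.atTop (𝓝 (∫ θ in (0 : ℝ)..(2 * π), ψ θ • c.res a θ)) := by
  have h1 : Continuous fun s : Set.Icc (0 : ℝ) 1 =>
      ∫ θ in (0 : ℝ)..(2 * π), ψ θ • c.res (((s : ℝ) : ℂ) • a) θ := by
    apply intervalIntegral.continuous_parametric_intervalIntegral_of_continuous'
    have h2 : Continuous fun p : Set.Icc (0 : ℝ) 1 × ℝ => c.res (((p.1 : ℝ) : ℂ) • a) p.2 := by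
      have h3 := (c.continuousOn_res a h).comp_continuous
        (f := fun p : Set.Icc (0 : ℝ) 1 × ℝ => ((p.1 : ℝ), p.2))
        ((continuous_subtype_val.comp continuous_fst).prodMk continuous_snd)
        (fun p => ⟨p.1.2, Set.mem_univ _⟩)
      exact h3
    exact (hψ.comp continuous_snd).smul h2
  have h2 : Filter.Tendsto (fun n => (⟨rho n, rho_nonneg n, (rho_lt_one n).le⟩ :
      Set.Icc (0 : ℝ) 1)) Filter.atTop (𝓝 ⟨1, zero_le_one, le_rfl⟩) := by
    rw [tendsto_subtype_rng]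
    exact tendsto_rho
  have h3 := (h1.tendsto ⟨1, zero_le_one, le_rfl⟩).comp h2
  simp only [ofReal_one, one_smul] at h3
  exact h3

end ConvexCurve

end Vale.P123
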