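import Vale.Agent.P123.State

/-!
# P123: the abstract core
-/

namespace Vale.P123

open ContinuousMap ContinuousLinearMap
open scoped ComplexConjugate InnerProductSpace

/-- The abstract data: a commutative algebra `B` of pairs (boundary function, operator), a
completely positive map `M`, its dilation `J`, and a Markov operator `K`. -/
structure CoreData (Γ : Type*) [TopologicalSpace Γ] [CompactSpace Γ]
    (H : Type*) [NormedAddCommGroup H] [InnerProductSpace ℂ H] [FiniteDimensional ℂ H]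
    (E : Type*) [SeminormedAddCommGroup E] [InnerProductSpace ℂ E] where
  B : Subalgebra ℂ (C(Γ, ℂ) × (H →L[ℂ] H))
  comm : ∀ b ∈ B, ∀ b' ∈ B, b.2 * b'.2 = b'.2 * b.2
  C : ℝ
  bound : ∀ b ∈ B, ‖b.2‖ ≤ C * ‖b.1‖
  M : C(Γ, ℂ) →ₗ[ℂ] (H →L[ℂ] H)
  M_one : ∀ v, M 1 v = (2 : ℂ) • v
  J : C(Γ, ℂ) →ₗ[ℂ] H →ₗ[ℂ] E
  J_inner : ∀ φ ψ v w, ⟪J φ v, J ψ w⟫_ℂ = ⟪v, M (star φ * ψ) w⟫_ℂ
  K : C(Γ, ℂ) →ₗ[ℂ] C(Γ, ℂ)
  markov : IsMarkov K
  Θ : ∀ b ∈ B, (star (K b.1), ContinuousLinearMap.adjoint (M b.1 - b.2)) ∈ B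

variable {Γ : Type*} [TopologicalSpace Γ] [CompactSpace Γ]
variable {H : Type*} [NormedAddCommGroup H] [InnerProductSpace ℂ H] [FiniteDimensional ℂ H]
variable {E : Type*} [SeminormedAddCommGroup E] [InnerProductSpace ℂ E]

lemma inner_self_C {F : Type*} [SeminormedAddCommGroup F] [InnerProductSpace ℂ F] (x : F) :
    ⟪x, x⟫_ℂ = ((‖x‖ ^ 2 : ℝ) : ℂ) := by
  rw [inner_self_eq_norm_sq_to_K]
  push_cast
  rfl

namespace CoreData

variable (D : CoreData Γ H E)

lemma M_star (φ : C(Γ, ℂ)) (v w : H) : ⟪D.M (star φ) v, w⟫_ℂ = ⟪v, D.M φ w⟫_ℂ := by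
  have h1 := D.J_inner 1 φ v w
  have h2 := D.J_inner φ 1 w v
  rw [star_one, one_mul] at h1
  rw [mul_one] at h2
  rw [← inner_conj_symm, ← h2, inner_conj_symm, h1]

lemma J_one_norm (v : H) : ‖D.J 1 v‖ ^ 2 = 2 * ‖v‖ ^ 2 := by
  have h := D.J_inner 1 1 v v
  rw [star_one, one_mul, D.M_one, inner_smul_right, inner_self_C, inner_self_C] at h
  exact_mod_cast h

/-- multiplication by a contraction is a contraction of the dilation space -/
lemma J_contract (φ a b : C(Γ, ℂ)) (v w : H) (hφ : ‖φ‖ ≤ 1) :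
    ‖D.J (φ * a) v + D.J (φ * b) w‖ ≤ ‖D.J a v + D.J b w‖ := by
  obtain ⟨χ, hχ⟩ := exists_sqrt (1 - star φ * φ) (fun ζ => by
    simp only [coe_sub, Pi.sub_apply, one_apply, mul_apply, star_apply, RCLike.star_def]
    rw [Complex.conj_mul', Complex.sub_re, ← Complex.ofReal_pow, Complex.ofReal_re,
      Complex.one_re]
    have := (φ.norm_coe_le_norm ζ).trans hφ
    nlinarith [norm_nonneg (φ ζ)]) (fun ζ => by
    simp only [coe_sub, Pi.sub_apply, one_apply, mul_apply, star_apply, RCLike.star_def]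
    rw [Complex.conj_mul', Complex.sub_im, ← Complex.ofReal_pow, Complex.ofReal_im,
      Complex.one_im, sub_zero])
  have key : ∀ (p q : C(Γ, ℂ)) (z u : H), ⟪D.J (φ * p) z, D.J (φ * q) u⟫_ℂ
      + ⟪D.J (χ * p) z, D.J (χ * q) u⟫_ℂ = ⟪D.J p z, D.J q u⟫_ℂ := by
    intro p q z u
    rw [D.J_inner, D.J_inner, D.J_inner, ← inner_add_right, ← _root_.add_apply, ← map_add]
    congr 3
    have : star (φ * p) * (φ * q) + star (χ * p) * (χ * q)
        = (star φ * φ + star χ * χ) * (star p * q) := by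
      rw [star_mul, star_mul]; ring
    rw [this, hχ]; ring
  have hsum : ⟪D.J (φ * a) v + D.J (φ * b) w, D.J (φ * a) v + D.J (φ * b) w⟫_ℂ
      + ⟪D.J (χ * a) v + D.J (χ * b) w, D.J (χ * a) v + D.J (χ * b) w⟫_ℂ
      = ⟪D.J a v + D.J b w, D.J a v + D.J b w⟫_ℂ := by
    simp only [inner_add_left, inner_add_right]
    linear_combination key a a v v + key a b v w + key b a w v + key b b w w
  rw [inner_self_C, inner_self_C, inner_self_C] at hsum
  have h2 : ‖D.J (φ * a) v + D.J (φ * b) w‖ ^ 2 + ‖D.J (χ * a) v + D.J (χ * b) w‖ ^ 2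
      = ‖D.J a v + D.J b w‖ ^ 2 := by exact_mod_cast hsum
  apply le_of_sq_le_sq _ (norm_nonneg _)
  nlinarith [sq_nonneg ‖D.J (χ * a) v + D.J (χ * b) w‖]

lemma J_norm_sq_le (φ : C(Γ, ℂ)) (hφ : ‖φ‖ ≤ 1) (v : H) : ‖D.J φ v‖ ^ 2 ≤ 2 * ‖v‖ ^ 2 := by
  have h := D.J_contract φ 1 1 v 0 hφ
  simp only [mul_one, map_zero, add_zero] at h
  rw [← D.J_one_norm v]
  gcongr

lemma J_norm_le (φ : C(Γ, ℂ)) (hφ : ‖φ‖ ≤ 1) (v : H) (hv : ‖v‖ = 1) :
    ‖D.J φ v‖ ≤ Real.sqrt 2 := by
  apply Real.le_sqrt_of_sq_le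
  have := D.J_norm_sq_le φ hφ v
  rw [hv] at this
  linarith

/-- `M u = U + (αU)*` for `(u, U) ∈ B` -/
lemma M_eq (u : C(Γ, ℂ)) (U : H →L[ℂ] H) (v w : H) :
    ⟪v, D.M u w⟫_ℂ = ⟪v, U w⟫_ℂ + ⟪ContinuousLinearMap.adjoint (D.M u - U) v, w⟫_ℂ := by
  rw [ContinuousLinearMap.adjoint_inner_left, _root_.sub_apply, inner_sub_right]
  ring

end CoreData

/-- An (almost) extremal configuration. -/
structure Extremal (D : CoreData Γ H E) (K₀ κ : ℝ) where
  bound : ∀ b ∈ D.B, ‖b.2‖ ≤ K₀ * ‖b.1‖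
  x : H
  y : H
  hx : ‖x‖ = 1
  hy : ‖y‖ = 1
  f : C(Γ, ℂ)
  F : H →L[ℂ] H
  mem : (f, F) ∈ D.B
  hf : ‖f‖ ≤ 1
  Fy : F y = (κ : ℂ) • x
  Fx : ContinuousLinearMap.adjoint F x = (κ : ℂ) • y
  N : C(Γ, ℂ) →ₗ[ℂ] ℂ
  state : IsState N
  hN : ∀ b ∈ D.B, N b.1 = ⟪x, b.2 x⟫_ℂ

namespace Extremal

variable {D : CoreData Γ H E} {K₀ κ : ℝ} (X : Extremal D K₀ κ)

lemma inner_y (u : C(Γ, ℂ)) (U : H →L[ℂ] H) (h : (u, U) ∈ D.B) :
    (κ : ℂ) * ⟪X.y, U X.x⟫_ℂ = X.N (X.f * u) := by
  have h1 := X.hN _ (D.B.mul_mem X.mem h)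
  simp only [Prod.mk_mul_mk] at h1
  rw [h1, mul_apply_eq_comp]
  change _ = ⟪X.x, X.F (U X.x)⟫_ℂ
  rw [← ContinuousLinearMap.adjoint_inner_left X.F, X.Fx, inner_smul_left, Complex.conj_ofReal]

lemma inner_x (u : C(Γ, ℂ)) (U : H →L[ℂ] H) (h : (u, U) ∈ D.B) :
    ⟪X.x, (U * X.F) X.y⟫_ℂ = (κ : ℂ) * X.N u := by
  rw [mul_apply_eq_comp, X.Fy, map_smul, inner_smul_right, X.hN _ h]

lemma kappa_pos (h : 0 < κ) : (κ : ℂ) ≠ 0 := by
  exact_mod_cast h.ne'

/-- The system of inequalities satisfied by an extremal configuration. -/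
theorem estimates (X : Extremal D K₀ κ) (hκ : 2 ≤ κ) :
    ∃ a b c t : ℝ, 0 ≤ t ∧ t ^ 2 = 2 - κ + a / κ ∧ a ≤ 1 ∧ b ≤ 1 ∧
      κ * a - 1 / κ - 2 * t ≤ a + b ∧
      c ≤ -a + Real.sqrt (2 - 2 * a) + Real.sqrt (2 - 2 * b) ∧
      (κ - 2) * (a + b - a / κ - 2 * t) - 2 * t * K₀ ≤ c := by
  have hκ0 : 0 < κ := by linarith
  have hκC : (κ : ℂ) ≠ 0 := by exact_mod_cast hκ0.ne'
  obtain ⟨bound, x, y, hx, hy, f, F, mem, hf, Fy, Fx, N, hS, hN⟩ := X
  set X : Extremal D K₀ κ := ⟨bound, x, y, hx, hy, f, F, mem, hf, Fy, Fx, N, hS, hN⟩ with hXdef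
  have innery : ∀ (u : C(Γ, ℂ)) (U : H →L[ℂ] H), (u, U) ∈ D.B →
      (κ : ℂ) * ⟪y, U x⟫_ℂ = N (f * u) := X.inner_y
  have innerx : ∀ (u : C(Γ, ℂ)) (U : H →L[ℂ] H), (u, U) ∈ D.B →
      ⟪x, (U * F) y⟫_ℂ = (κ : ℂ) * N u := X.inner_x
  -- first derived element
  set g : C(Γ, ℂ) := star (D.K f) with hgdef
  set G : H →L[ℂ] H := ContinuousLinearMap.adjoint (D.M f - F) with hGdef
  have hg : (g, G) ∈ D.B := D.Θ _ mem
  have hg1 : ‖g‖ ≤ 1 := by
    rw [hgdef, norm_star]; exact (D.markov.norm_le f).trans hf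
  set w : C(Γ, ℂ) := -(f * g) with hwdef
  set W : H →L[ℂ] H := -(F * G) with hWdef
  have hfg : (f * g, F * G) ∈ D.B := D.B.mul_mem mem hg
  have hw : (w, W) ∈ D.B := D.B.neg_mem hfg
  have hw1 : ‖w‖ ≤ 1 := by
    rw [hwdef, norm_neg]
    exact (norm_mul_le _ _).trans (mul_le_one₀ hf (norm_nonneg _) hg1)
  have hNle : ∀ u : C(Γ, ℂ), ‖u‖ ≤ 1 → ‖N u‖ ≤ 1 := fun u hu =>
    hS.norm_le u zero_le_one fun ζ => (u.norm_coe_le_norm ζ).trans hu
  set a : ℝ := -(N (f * g)).re with hadef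
  have haw : (N w).re = a := by rw [hwdef, map_neg, Complex.neg_re]
  have ha1 : a ≤ 1 := by
    rw [← haw]; exact (Complex.re_le_norm _).trans (hNle w hw1)
  -- alpha w
  set v : C(Γ, ℂ) := star (D.K w) with hvdef
  set V : H →L[ℂ] H := ContinuousLinearMap.adjoint (D.M w - W) with hVdef
  have hv : (v, V) ∈ D.B := D.Θ _ hw
  have hv1 : ‖v‖ ≤ 1 := by
    rw [hvdef, norm_star]; exact (D.markov.norm_le w).trans hw1
  set b : ℝ := (N v).re with hbdef
  have hb1 : b ≤ 1 := (Complex.re_le_norm _).trans (hNle v hv1)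
  -- the number s
  have hyGx : (⟪y, G x⟫_ℂ).re = -a / κ := by
    have h := innery g G hg
    have h2 := congrArg Complex.re h
    rw [Complex.re_ofReal_mul] at h2
    rw [eq_div_iff hκ0.ne', mul_comm, h2, hadef, neg_neg]
  have hGxy : (⟪G x, y⟫_ℂ).re = -a / κ := by
    rw [← inner_conj_symm, Complex.conj_re, hyGx]
  have hs : (⟪x, D.M f y⟫_ℂ).re = κ - a / κ := by
    rw [D.M_eq f F x y, Complex.add_re, ← hGdef, hGxy, Fy, inner_smul_right, inner_self_C, hx]
    simp
    ring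
  -- the vector e
  set e : E := D.J 1 x - D.J f y with hedef
  have he : ‖e‖ ^ 2 ≤ 2 * (2 - κ + a / κ) := by
    rw [hedef, @norm_sub_sq ℂ, D.J_one_norm, D.J_inner, star_one, one_mul, hx]
    have h1 := D.J_norm_sq_le f hf y
    rw [hy] at h1
    have h2 : RCLike.re ⟪x, D.M f y⟫_ℂ = κ - a / κ := hs
    rw [h2]
    linarith
  set ε : ℝ := 2 - κ + a / κ with hεdef
  have hε0 : 0 ≤ ε := by nlinarith [sq_nonneg ‖e‖]
  set t : ℝ := Real.sqrt ε with htdef
  have ht0 : 0 ≤ t := Real.sqrt_nonneg _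
  have ht2 : t ^ 2 = ε := Real.sq_sqrt hε0
  have hsq2 : 0 ≤ Real.sqrt 2 := Real.sqrt_nonneg _
  have hsq2' : Real.sqrt 2 * Real.sqrt 2 = 2 := Real.mul_self_sqrt (by norm_num)
  have bnd : ∀ n : ℝ, 0 ≤ n → n ^ 2 ≤ 2 * ε → n ≤ Real.sqrt 2 * t := by
    intro n hn h
    rw [htdef, ← Real.sqrt_mul (by norm_num : (0:ℝ) ≤ 2)]
    exact Real.le_sqrt_of_sq_le h
  have he' : ‖e‖ ≤ Real.sqrt 2 * t := bnd _ (norm_nonneg _) he
  -- step (iii)
  have hstep3 : κ * a - 1 / κ - 2 * t ≤ a + b := by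
    have h1 : ‖D.J w x - D.J (w * f) y‖ ≤ Real.sqrt 2 * t := by
      have := D.J_contract w 1 f x (-y) hw1
      simp only [mul_one, map_neg, ← sub_eq_add_neg] at this
      exact this.trans he'
    have h2 : ⟪D.J 1 x, D.J w x - D.J (w * f) y⟫_ℂ
        = ⟪x, D.M w x⟫_ℂ - ⟪x, D.M (w * f) y⟫_ℂ := by
      rw [inner_sub_right, D.J_inner, D.J_inner, star_one, one_mul, one_mul]
    have h3 : ‖⟪x, D.M w x⟫_ℂ - ⟪x, D.M (w * f) y⟫_ℂ‖ ≤ 2 * t := by
      rw [← h2]
      refine (norm_inner_le_norm _ _).trans ?_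
      have h4 : ‖D.J 1 x‖ ≤ Real.sqrt 2 := by
        apply Real.le_sqrt_of_sq_le
        rw [D.J_one_norm, hx]; norm_num
      calc ‖D.J 1 x‖ * ‖D.J w x - D.J (w * f) y‖ ≤ Real.sqrt 2 * (Real.sqrt 2 * t) := by
            gcongr
        _ = 2 * t := by rw [← mul_assoc, hsq2']
    have h5 : (⟪x, D.M w x⟫_ℂ).re = a + b := by
      rw [D.M_eq w W x x, Complex.add_re, ← hVdef]
      have e1 : ⟪x, W x⟫_ℂ = N w := (hN _ hw).symm
      have e2 : ⟪V x, x⟫_ℂ = conj (N v) := by rw [hN _ hv, inner_conj_symm]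
      rw [e1, e2, haw, Complex.conj_re]
    have hwf : (w * f, W * F) ∈ D.B := D.B.mul_mem hw mem
    have hwf1 : ‖w * f‖ ≤ 1 :=
      (norm_mul_le _ _).trans (mul_le_one₀ hw1 (norm_nonneg _) hf)
    have hp := D.Θ _ hwf
    simp only at hp
    set p : C(Γ, ℂ) := star (D.K (w * f)) with hpdef
    set P : H →L[ℂ] H := ContinuousLinearMap.adjoint (D.M (w * f) - W * F) with hPdef
    have hp1 : ‖p‖ ≤ 1 := by
      rw [hpdef, norm_star]; exact (D.markov.norm_le _).trans hwf1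
    have h6 : κ * a - 1 / κ ≤ (⟪x, D.M (w * f) y⟫_ℂ).re := by
      rw [D.M_eq (w * f) (W * F) x y, Complex.add_re, ← hPdef, innerx w W hw,
        Complex.re_ofReal_mul, haw]
      have e1 : κ * (⟪y, P x⟫_ℂ).re = (N (f * p)).re := by
        have := congrArg Complex.re (innery p P hp)
        rwa [Complex.re_ofReal_mul] at this
      have e2 : (⟪P x, y⟫_ℂ).re = (⟪y, P x⟫_ℂ).re := by
        rw [← inner_conj_symm, Complex.conj_re]
      have e3 : ‖N (f * p)‖ ≤ 1 := hNle _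
        ((norm_mul_le _ _).trans (mul_le_one₀ hf (norm_nonneg _) hp1))
      have e4 : -1 ≤ (N (f * p)).re := by
        have := Complex.abs_re_le_norm (N (f * p))
        have := abs_le.1 (this.trans e3)
        exact this.1
      have e5 : -(1 / κ) ≤ (⟪y, P x⟫_ℂ).re := by
        have : 0 ≤ κ * ((⟪y, P x⟫_ℂ).re + 1 / κ) := by
          rw [mul_add, e1, mul_one_div_cancel hκ0.ne']; linarith
        linarith [nonneg_of_mul_nonneg_right this hκ0]
      rw [e2]
      linarith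
    have h7 : (⟪x, D.M (w * f) y⟫_ℂ).re - (⟪x, D.M w x⟫_ℂ).re ≤ 2 * t := by
      have := (Complex.abs_re_le_norm (⟪x, D.M w x⟫_ℂ - ⟪x, D.M (w * f) y⟫_ℂ)).trans h3
      rw [Complex.sub_re] at this
      linarith [(abs_le.1 this).1]
    linarith
  -- second derived element
  set k : C(Γ, ℂ) := star (D.K g) with hkdef
  set Q : H →L[ℂ] H := ContinuousLinearMap.adjoint (D.M g - G) with hQdef
  have hk : (k, Q) ∈ D.B := D.Θ _ hg
  have hk1 : ‖k‖ ≤ 1 := by
    rw [hkdef, norm_star]; exact (D.markov.norm_le g).trans hg1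
  -- step (iv)
  have hstep4 : (N (g * k)).re ≤ -a + Real.sqrt (2 - 2 * a) + Real.sqrt (2 - 2 * b) := by
    set r : C(Γ, ℂ) := g + star f with hrdef
    have hKf : D.K (star f) = g := by rw [D.markov.map_star, hgdef]
    have hKg : D.K g = D.K r - g := by rw [hrdef, map_add, hKf]; ring
    have e1 : g * k = r * k - star (f * D.K g) := by
      rw [hrdef, hkdef, star_mul]; ring
    have e2 : N (g * k) = N (star (star r) * k) - conj (N (star (star f) * D.K r))
        + conj (N (f * g)) := by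
      rw [e1, map_sub, hS.map_star, star_star, star_star, hKg, mul_sub, map_sub, map_sub]
      ring
    have c1 := hS.cauchy_schwarz (star r) k
    have c2 := hS.cauchy_schwarz (star f) (D.K r)
    have d1 : (N (star (star r) * star r)).re ≤ 2 - 2 * a := by
      have : star (star r) * star r = star (star g) * (star g) + star f * f
          + (f * g) + star (f * g) := by
        rw [hrdef]; simp only [star_star, star_add, star_mul]; ring
      rw [this, map_add, map_add, map_add, hS.map_star (f * g)]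
      simp only [Complex.add_re, Complex.conj_re]
      have q1 := hS.norm_le_of_bound (star g) zero_le_one
        fun ζ => by simpa using (g.norm_coe_le_norm ζ).trans hg1
      have q2 := hS.norm_le_of_bound f zero_le_one fun ζ => (f.norm_coe_le_norm ζ).trans hf
      linarith
    have d2 : (N (star k * k)).re ≤ 1 := by
      simpa using hS.norm_le_of_bound k zero_le_one fun ζ => (k.norm_coe_le_norm ζ).trans hk1
    have d3 : (N (star (star f) * star f)).re ≤ 1 := by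
      simpa using hS.norm_le_of_bound (star f) zero_le_one
        fun ζ => by simpa using (f.norm_coe_le_norm ζ).trans hf
    have d4 : (N (star (D.K r) * D.K r)).re ≤ 2 - 2 * b := by
      refine (D.markov.kadison hS r).trans ?_
      have hT := D.markov.comp_state hS
      have : star r * r = star g * g + star (star f) * star f + (f * g) + star (f * g) := by
        rw [hrdef]; simp only [star_star, star_add, star_mul]; ring
      rw [this]
      have q1 := hT.norm_le_of_bound g zero_le_one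
        fun ζ => (g.norm_coe_le_norm ζ).trans hg1
      have q2 := hT.norm_le_of_bound (star f) zero_le_one
        fun ζ => by simpa using (f.norm_coe_le_norm ζ).trans hf
      simp only [LinearMap.comp_apply] at q1 q2
      have q3 : (N (D.K (f * g))).re = -b := by
        have : v = -star (D.K (f * g)) := by rw [hvdef, hwdef, map_neg, star_neg]
        rw [hbdef, this, map_neg, hS.map_star, Complex.neg_re, Complex.conj_re, neg_neg]
      have q4 : (N (D.K (star (f * g)))).re = -b := by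
        rw [D.markov.map_star, hS.map_star, Complex.conj_re, q3]
      simp only [map_add, Complex.add_re]
      rw [q3, q4]
      linarith
    have f1 : ‖N (star (star r) * k)‖ ≤ Real.sqrt (2 - 2 * a) := by
      refine c1.trans ?_
      calc _ ≤ Real.sqrt (2 - 2 * a) * Real.sqrt 1 := by gcongr
        _ = _ := by rw [Real.sqrt_one, mul_one]
    have f2 : ‖N (star (star f) * D.K r)‖ ≤ Real.sqrt (2 - 2 * b) := by
      refine c2.trans ?_
      calc _ ≤ Real.sqrt 1 * Real.sqrt (2 - 2 * b) := by gcongr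
        _ = _ := by rw [Real.sqrt_one, one_mul]
    rw [e2, Complex.add_re, Complex.sub_re, Complex.conj_re, Complex.conj_re]
    have g1 := (Complex.abs_re_le_norm _).trans f1
    have g2 := (Complex.abs_re_le_norm _).trans f2
    have g3 := (abs_le.1 g1).2
    have g4 := (abs_le.1 g2).1
    linarith
  -- step (v)
  have hstep5 : (κ - 2) * (a + b - a / κ - 2 * t) - 2 * t * K₀ ≤ (N (g * k)).re := by
    set e2 : E := D.J (star f) x - D.J 1 y with he2def
    have he2 : ‖e2‖ ^ 2 ≤ 2 * ε := by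
      rw [he2def, @norm_sub_sq ℂ, D.J_one_norm, D.J_inner, star_star, mul_one, hy]
      have h1 := D.J_norm_sq_le (star f) (by rwa [norm_star]) x
      rw [hx] at h1
      have h2 : RCLike.re ⟪x, D.M f y⟫_ℂ = κ - a / κ := hs
      rw [h2]
      linarith
    have he2' : ‖e2‖ ≤ Real.sqrt 2 * t := bnd _ (norm_nonneg _) he2
    set r1 : H := G x - ((2 - κ : ℝ) : ℂ) • y with hr1def
    have hr1 : ∀ u : H, ‖⟪u, r1⟫_ℂ‖ ≤ 2 * t * ‖u‖ := by
      intro u
      have h1 : ⟪u, r1⟫_ℂ = ⟪D.J 1 u, e2⟫_ℂ := by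
        have h2 : ⟪u, D.M (star f) x⟫_ℂ = ⟪u, G x⟫_ℂ + (κ : ℂ) * ⟪u, y⟫_ℂ := by
          have h3 := D.M_star (star f) u x
          rw [star_star] at h3
          rw [← h3, ← inner_conj_symm, D.M_eq f F x u, ← hGdef, map_add, inner_conj_symm,
            inner_conj_symm, ← ContinuousLinearMap.adjoint_inner_right, Fx, inner_smul_right]
          ring
        rw [he2def, hr1def, inner_sub_right (D.J 1 u), D.J_inner, D.J_inner, star_one, one_mul,
          one_mul, h2, D.M_one, inner_sub_right, inner_smul_right, inner_smul_right]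
        push_cast
        ring
      rw [h1]
      refine (norm_inner_le_norm _ _).trans ?_
      have h4 : ‖D.J 1 u‖ = Real.sqrt 2 * ‖u‖ := by
        rw [← Real.sqrt_sq (norm_nonneg (D.J 1 u)), D.J_one_norm, Real.sqrt_mul (by norm_num),
          Real.sqrt_sq (norm_nonneg _)]
      rw [h4]
      calc Real.sqrt 2 * ‖u‖ * ‖e2‖ ≤ Real.sqrt 2 * ‖u‖ * (Real.sqrt 2 * t) := by gcongr
        _ = 2 * t * ‖u‖ := by
          have : Real.sqrt 2 * ‖u‖ * (Real.sqrt 2 * t)
            = (Real.sqrt 2 * Real.sqrt 2) * t * ‖u‖ := by ring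
          rw [this, hsq2']
    -- M g
    have h5 : (⟪y, D.M g x⟫_ℂ).re ≤ -(a + b) + 2 * t := by
      have h6 : ⟪y, D.M g x⟫_ℂ - ⟪x, D.M (f * g) x⟫_ℂ = -⟪e2, D.J g x⟫_ℂ := by
        rw [he2def, inner_sub_left, D.J_inner, D.J_inner, star_star, star_one, one_mul]
        ring
      have h7 : ‖⟪e2, D.J g x⟫_ℂ‖ ≤ 2 * t := by
        refine (norm_inner_le_norm _ _).trans ?_
        calc ‖e2‖ * ‖D.J g x‖ ≤ (Real.sqrt 2 * t) * Real.sqrt 2 := by
              gcongr
              exact D.J_norm_le g hg1 x hx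
          _ = (Real.sqrt 2 * Real.sqrt 2) * t := by ring
          _ = 2 * t := by rw [hsq2']
      have h8 : (⟪x, D.M (f * g) x⟫_ℂ).re = -(a + b) := by
        have h9 : D.M w = -D.M (f * g) := by rw [hwdef, map_neg]
        have h10 : (⟪x, D.M w x⟫_ℂ).re = a + b := by
          rw [D.M_eq w W x x, Complex.add_re, ← hVdef]
          have e1 : ⟪x, W x⟫_ℂ = N w := (hN _ hw).symm
          have e2 : ⟪V x, x⟫_ℂ = conj (N v) := by rw [hN _ hv, inner_conj_symm]
          rw [e1, e2, haw, Complex.conj_re]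
        rw [h9] at h10
        simp only [_root_.neg_apply, inner_neg_right, Complex.neg_re] at h10
        linarith
      have h11 := congrArg Complex.re h6
      rw [Complex.sub_re, Complex.neg_re] at h11
      have h12 := (abs_le.1 ((Complex.abs_re_le_norm _).trans h7)).1
      linarith
    have h13 : (⟪y, ContinuousLinearMap.adjoint Q x⟫_ℂ).re
        = (⟪y, D.M g x⟫_ℂ).re + a / κ := by
      have : ⟪y, ContinuousLinearMap.adjoint Q x⟫_ℂ = ⟪y, D.M g x⟫_ℂ - ⟪y, G x⟫_ℂ := by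
        rw [hQdef, ContinuousLinearMap.adjoint_adjoint, _root_.sub_apply, inner_sub_right]
      rw [this, Complex.sub_re, hyGx]
      ring
    have h14 : N (g * k) = ((2 - κ : ℝ) : ℂ) * ⟪ContinuousLinearMap.adjoint Q x, y⟫_ℂ
        + ⟪ContinuousLinearMap.adjoint Q x, r1⟫_ℂ := by
      have h15 := hN _ (D.B.mul_mem hg hk)
      simp only [Prod.mk_mul_mk] at h15
      rw [h15, D.comm _ hg _ hk, mul_apply_eq_comp]
      change ⟪x, Q (G x)⟫_ℂ = _
      rw [← ContinuousLinearMap.adjoint_inner_left Q]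
      have : G x = ((2 - κ : ℝ) : ℂ) • y + r1 := by rw [hr1def]; abel
      rw [this, inner_add_right, inner_smul_right]
    have h16 : ‖ContinuousLinearMap.adjoint Q x‖ ≤ K₀ := by
      have h17 := D.B
      have h18 := bound _ hk
      simp only at h18
      calc ‖ContinuousLinearMap.adjoint Q x‖ ≤ ‖ContinuousLinearMap.adjoint Q‖ * ‖x‖ :=
            ContinuousLinearMap.le_opNorm _ _
        _ = ‖Q‖ := by rw [hx, mul_one, LinearIsometryEquiv.norm_map]
        _ ≤ K₀ * ‖k‖ := h18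
        _ ≤ K₀ * 1 := by
          have hK0 : 0 ≤ K₀ := by
            have := bound _ D.B.one_mem
            by_contra hneg
            push Not at hneg
            have h1 : ‖((1 : C(Γ, ℂ) × (H →L[ℂ] H))).2‖ ≤ 0 :=
              this.trans (mul_nonpos_of_nonpos_of_nonneg hneg.le (norm_nonneg _))
            have h2 : (1 : H →L[ℂ] H) = 0 := by simpa using h1
            have h3 : x = 0 := by
              have := congrArg (fun L : H →L[ℂ] H => L x) h2
              simpa using this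
            rw [h3, norm_zero] at hx
            exact zero_ne_one hx
          gcongr
        _ = K₀ := mul_one _
    rw [h14, Complex.add_re, Complex.re_ofReal_mul]
    have h19 := (Complex.abs_re_le_norm _).trans (hr1 (ContinuousLinearMap.adjoint Q x))
    have h20 : 2 * t * ‖ContinuousLinearMap.adjoint Q x‖ ≤ 2 * t * K₀ := by gcongr
    have h21 := (abs_le.1 (h19.trans h20)).1
    have h22 : (⟪ContinuousLinearMap.adjoint Q x, y⟫_ℂ).re
        = (⟪y, ContinuousLinearMap.adjoint Q x⟫_ℂ).re := by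
      rw [← inner_conj_symm, Complex.conj_re]
    rw [h22, h13]
    have h23 : (κ - 2) * ((⟪y, D.M g x⟫_ℂ).re + a / κ)
        ≤ (κ - 2) * (-(a + b) + 2 * t + a / κ) := by
      have : 0 ≤ κ - 2 := by linarith
      gcongr
    linarith
  exact ⟨a, b, (N (g * k)).re, t, ht0, ht2, ha1, hb1, hstep3, hstep4, hstep5⟩

end Extremal

end Vale.P123
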