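import Vale.Agent.P123.State

/-!
# P123: geometry of a convex curve and the double layer kernel
-/

namespace Vale.P123

open Complex MeasureTheory intervalIntegral
open scoped Real

namespace ConvexCurve

variable (c : ConvexCurve)

/-- The derivative of the curve. -/
noncomputable def dσ (θ : ℝ) : ℂ := c.r θ * I * exp (θ * I)

lemma hasDerivAt (θ : ℝ) : HasDerivAt c.σ (c.dσ θ) θ := c.σ_deriv θ

lemma continuous_σ : Continuous c.σ :=
  continuous_iff_continuousAt.2 fun θ => (c.hasDerivAt θ).continuousAt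

lemma continuous_dσ : Continuous c.dσ := by
  have := c.r_cont
  unfold dσ
  fun_prop

lemma norm_dσ (θ : ℝ) : ‖c.dσ θ‖ = c.r θ := by
  unfold dσ
  rw [norm_mul, norm_mul, norm_exp_ofReal_mul_I, norm_I, norm_real, Real.norm_eq_abs,
    abs_of_pos (c.r_pos θ)]
  ring

lemma periodic_σ : Function.Periodic c.σ (2 * π) := c.σ_per

lemma periodic_r : Function.Periodic c.r (2 * π) := c.r_per

lemma exp_periodic (θ : ℝ) : exp (((θ + 2 * π : ℝ) : ℂ) * I) = exp (θ * I) := by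
  push_cast
  rw [add_mul, exp_add, exp_two_pi_mul_I, mul_one]

lemma periodic_dσ : Function.Periodic c.dσ (2 * π) := by
  intro θ
  unfold dσ
  rw [c.r_per, exp_periodic]

/-- signed distance of `σ s` to the tangent with normal angle `φ` -/
noncomputable def supp (φ s : ℝ) : ℝ := (exp (-(φ * I)) * c.σ s).re

lemma hasDerivAt_supp (φ s : ℝ) :
    HasDerivAt (c.supp φ) (c.r s * Real.sin (φ - s)) s := by
  have h1 : HasDerivAt (fun s => exp (-(φ * I)) * c.σ s) (exp (-(φ * I)) * c.dσ s) s :=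
    (c.hasDerivAt s).const_mul _
  have h2 := Complex.reCLM.hasFDerivAt.comp_hasDerivAt s h1
  refine h2.congr_deriv ?_
  have h3 : exp (-(φ * I)) * c.dσ s = c.r s * (I * exp (((s - φ : ℝ) : ℂ) * I)) := by
    unfold dσ
    have : exp (((s - φ : ℝ) : ℂ) * I) = exp (-(φ * I)) * exp (s * I) := by
      rw [← exp_add]; push_cast; ring_nf
    rw [this]; ring
  rw [h3, reCLM_apply, re_ofReal_mul, I_mul_re, exp_ofReal_mul_I_im]
  have : Real.sin (φ - s) = - Real.sin (s - φ) := by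
    rw [← Real.sin_neg]; ring_nf
  rw [this]

lemma continuous_supp (φ : ℝ) : Continuous (c.supp φ) :=
  continuous_iff_continuousAt.2 fun s => (c.hasDerivAt_supp φ s).continuousAt

lemma supp_monotoneOn (φ : ℝ) : StrictMonoOn (c.supp φ) (Set.Icc (φ - π) φ) := by
  apply strictMonoOn_of_deriv_pos (convex_Icc _ _) (c.continuous_supp φ).continuousOn
  intro s hs
  rw [interior_Icc] at hs
  rw [(c.hasDerivAt_supp φ s).deriv]
  exact mul_pos (c.r_pos s) (Real.sin_pos_of_pos_of_lt_pi (by linarith [hs.2]) (by linarith [hs.1]))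

lemma supp_antitoneOn (φ : ℝ) : StrictAntiOn (c.supp φ) (Set.Icc φ (φ + π)) := by
  apply strictAntiOn_of_deriv_neg (convex_Icc _ _) (c.continuous_supp φ).continuousOn
  intro s hs
  rw [interior_Icc] at hs
  rw [(c.hasDerivAt_supp φ s).deriv]
  have : Real.sin (φ - s) < 0 :=
    Real.sin_neg_of_neg_of_neg_pi_lt (by linarith [hs.1]) (by linarith [hs.2])
  exact mul_neg_of_pos_of_neg (c.r_pos s) this

lemma supp_lt_right {φ s : ℝ} (h1 : φ < s) (h2 : s ≤ φ + π) : c.supp φ s < c.supp φ φ :=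
  c.supp_antitoneOn φ ⟨le_rfl, by linarith [Real.pi_pos]⟩ ⟨h1.le, h2⟩ h1

lemma supp_lt_left {φ s : ℝ} (h1 : s < φ) (h2 : φ - π ≤ s) : c.supp φ s < c.supp φ φ :=
  c.supp_monotoneOn φ ⟨h2, h1.le⟩ ⟨by linarith [Real.pi_pos], le_rfl⟩ h1

lemma supp_le (φ s : ℝ) : c.supp φ s ≤ c.supp φ φ := by
  have hper : Function.Periodic (c.supp φ) (2 * π) := by
    intro s; unfold supp; rw [c.σ_per]
  obtain ⟨y, hy, hys⟩ := hper.exists_mem_Ico (by positivity) s (φ - π)
  rw [hys]
  rcases lt_trichotomy y φ with h | h | h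
  · exact (c.supp_lt_left h hy.1).le
  · rw [h]
  · exact (c.supp_lt_right h (by linarith [hy.2])).le

/-- The curve lies in its supporting half planes. -/
lemma support (φ s : ℝ) : 0 ≤ (exp (-(φ * I)) * (c.σ φ - c.σ s)).re := by
  rw [mul_sub, sub_re]
  exact sub_nonneg.2 (c.supp_le φ s)

/-- Points strictly inside: dilates of the curve about an inner point. -/
lemma inside_smul (h0 : c.Inside 0) {ρ : ℝ} (hρ0 : 0 ≤ ρ) (hρ1 : ρ < 1) (s : ℝ) :
    c.Inside (ρ * c.σ s) := by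
  intro θ
  have h1 := h0 θ
  have h2 := c.support θ s
  have : exp (-(θ * I)) * (c.σ θ - ρ * c.σ s)
      = ((1 - ρ : ℝ) : ℂ) * (exp (-(θ * I)) * (c.σ θ - 0))
        + (ρ : ℂ) * (exp (-(θ * I)) * (c.σ θ - c.σ s)) := by
    push_cast; ring
  rw [this, add_re, re_ofReal_mul, re_ofReal_mul]
  have := mul_pos (by linarith : 0 < 1 - ρ) h1
  have := mul_nonneg hρ0 h2
  linarith

lemma inside_ne {z : ℂ} (hz : c.Inside z) (θ : ℝ) : c.σ θ - z ≠ 0 := by
  intro h
  have := hz θ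
  rw [h] at this
  simp at this

/-- The double layer kernel. -/
noncomputable def ker (z : ℂ) (θ : ℝ) : ℝ := (c.dσ θ / (c.σ θ - z)).im / π

lemma ker_eq (z : ℂ) (θ : ℝ) :
    c.ker z θ = c.r θ / π * ((exp (-(θ * I)) * (c.σ θ - z)).re / normSq (c.σ θ - z)) := by
  unfold ker dσ
  have h1 : c.r θ * I * exp (θ * I) / (c.σ θ - z)
      = c.r θ * (I * (exp (θ * I) / (c.σ θ - z))) := by ring
  rw [h1, im_ofReal_mul, I_mul_im]
  have h2 : (exp (θ * I) / (c.σ θ - z)).re
      = (exp (-(θ * I)) * (c.σ θ - z)).re / normSq (c.σ θ - z) := by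
    have h3 : exp (-(θ * I)) = (starRingEnd ℂ) (exp (θ * I)) := by
      rw [← exp_conj, map_mul, conj_ofReal, conj_I, mul_neg]
    rw [h3, div_re, mul_re, conj_re, conj_im]
    ring
  rw [h2]
  ring

lemma ker_pos {z : ℂ} (hz : c.Inside z) (θ : ℝ) : 0 < c.ker z θ := by
  rw [ker_eq]
  have h1 := c.r_pos θ
  have h2 := hz θ
  have h3 : 0 < normSq (c.σ θ - z) := normSq_pos.2 (c.inside_ne hz θ)
  positivity

/-- The argument function. -/
noncomputable def ang (z : ℂ) (θ : ℝ) : ℝ := arg (exp (-(θ * I)) * (c.σ θ - z))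

lemma hasDerivAt_log {z : ℂ} (hz : c.Inside z) (θ : ℝ) :
    HasDerivAt (fun θ : ℝ => log (exp (-(θ * I)) * (c.σ θ - z)))
      (c.dσ θ / (c.σ θ - z) - I) θ := by
  have h1 : HasDerivAt (fun θ : ℝ => exp (-(θ * I))) (exp (-(θ * I)) * (-I)) θ := by
    have h2 : HasDerivAt (fun θ : ℝ => -((θ : ℂ) * I)) (-I) θ := by
      have := ((hasDerivAt_id θ).ofReal_comp.mul_const I).fun_neg
      simpa using this
    exact h2.cexp
  have h2 : HasDerivAt (fun θ : ℝ => c.σ θ - z) (c.dσ θ) θ := (c.hasDerivAt θ).sub_const z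
  have h3 := h1.fun_mul h2
  have h4 : exp (-(θ * I)) * (c.σ θ - z) ∈ slitPlane := Or.inl (hz θ)
  have h5 := h3.clog_real h4
  refine h5.congr_deriv ?_
  have h6 := c.inside_ne hz θ
  have h7 := exp_ne_zero (-(θ * I))
  field_simp
  ring

lemma continuous_quot {z : ℂ} (hz : c.Inside z) : Continuous fun θ => c.dσ θ / (c.σ θ - z) :=
  c.continuous_dσ.div (c.continuous_σ.sub continuous_const) (c.inside_ne hz)

/-- The integral of the Cauchy kernel over an arc. -/
lemma integral_quot {z : ℂ} (hz : c.Inside z) (a b : ℝ) :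
    ∫ θ in a..b, c.dσ θ / (c.σ θ - z)
      = log (exp (-(b * I)) * (c.σ b - z)) - log (exp (-(a * I)) * (c.σ a - z))
        + ((b - a : ℝ) : ℂ) * I := by
  have h1 := integral_eq_sub_of_hasDerivAt (a := a) (b := b)
    (fun θ _ => c.hasDerivAt_log hz θ)
    (((c.continuous_quot hz).sub continuous_const).intervalIntegrable _ _)
  rw [intervalIntegral.integral_sub ((c.continuous_quot hz).intervalIntegrable _ _)
    (intervalIntegrable_const)] at h1
  rw [intervalIntegral.integral_const] at h1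
  have h2 : ((b - a : ℝ) : ℂ) * I = (b - a) • I := by rw [real_smul]
  rw [h2, ← h1]; ring

/-- Cauchy's formula for the constant function. -/
lemma integral_quot_period {z : ℂ} (hz : c.Inside z) :
    ∫ θ in (0 : ℝ)..(2 * π), c.dσ θ / (c.σ θ - z) = 2 * π * I := by
  rw [c.integral_quot hz]
  have h1 := c.σ_per 0
  rw [zero_add] at h1
  have h2 : exp (-(((2 * π : ℝ) : ℂ) * I)) = exp (-((0 : ℝ) * I)) := by
    rw [exp_neg, exp_neg]
    have := exp_periodic 0
    rw [zero_add] at this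
    rw [this]
  rw [h1, h2]
  push_cast
  ring

lemma continuous_ker {z : ℂ} (hz : c.Inside z) : Continuous (c.ker z) :=
  (continuous_im.comp (c.continuous_quot hz)).div_const _

lemma integral_ker {z : ℂ} (hz : c.Inside z) (a b : ℝ) :
    ∫ θ in a..b, c.ker z θ = (c.ang z b - c.ang z a + (b - a)) / π := by
  unfold ker
  rw [intervalIntegral.integral_div]
  congr 1
  have h1 := c.integral_quot hz a b
  have h2 : (∫ θ in a..b, c.dσ θ / (c.σ θ - z)).im = ∫ θ in a..b, (c.dσ θ / (c.σ θ - z)).im := by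
    have := Complex.imCLM.intervalIntegral_comp_comm (μ := volume) (a := a) (b := b)
      ((c.continuous_quot hz).intervalIntegrable a b)
    exact this.symm
  rw [← h2, h1]
  simp [ang, log_im]

lemma integral_ker_period {z : ℂ} (hz : c.Inside z) :
    ∫ θ in (0 : ℝ)..(2 * π), c.ker z θ = 2 := by
  unfold ker
  rw [intervalIntegral.integral_div]
  have h2 : (∫ θ in (0 : ℝ)..(2 * π), c.dσ θ / (c.σ θ - z)).im
      = ∫ θ in (0 : ℝ)..(2 * π), (c.dσ θ / (c.σ θ - z)).im := by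
    have := Complex.imCLM.intervalIntegral_comp_comm (μ := volume) (a := 0) (b := 2 * π)
      ((c.continuous_quot hz).intervalIntegrable 0 (2 * π))
    exact this.symm
  rw [← h2, c.integral_quot_period hz]
  simp

/-- lower bound for an argument -/
lemma le_arg_of {v : ℂ} {β : ℝ} (hv : 0 < v.re) (h1 : β < π / 2)
    (h : 0 ≤ (exp (-(β * I)) * v).im) : β ≤ arg v := by
  by_contra hcon
  push Not at hcon
  have hα : |arg v| < π / 2 := abs_arg_lt_pi_div_two_iff.2 (Or.inl hv)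
  have hα' := abs_lt.1 hα
  have hv0 : v ≠ 0 := by rintro rfl; simp at hv
  have h2 : (exp (-(β * I)) * v).im = ‖v‖ * Real.sin (arg v - β) := by
    conv_lhs => rw [← norm_mul_exp_arg_mul_I v]
    have h3 : exp (-(β * I)) * (‖v‖ * exp (arg v * I))
        = ‖v‖ * exp (((arg v - β : ℝ) : ℂ) * I) := by
      have : exp (((arg v - β : ℝ) : ℂ) * I) = exp (-(β * I)) * exp (arg v * I) := by
        rw [← exp_add]; push_cast; ring_nf
      rw [this]; ring
    rw [h3, im_ofReal_mul, exp_ofReal_mul_I_im]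
  rw [h2] at h
  have h3 : Real.sin (arg v - β) < 0 :=
    Real.sin_neg_of_neg_of_neg_pi_lt (by linarith) (by linarith)
  have h4 : 0 < ‖v‖ := norm_pos_iff.2 hv0
  nlinarith

/-- upper bound for an argument -/
lemma arg_le_of {v : ℂ} {β : ℝ} (hv : 0 < v.re) (h1 : β < π / 2)
    (h : (exp (β * I) * v).im ≤ 0) : arg v ≤ -β := by
  by_contra hcon
  push Not at hcon
  have hα : |arg v| < π / 2 := abs_arg_lt_pi_div_two_iff.2 (Or.inl hv)
  have hα' := abs_lt.1 hα
  have hv0 : v ≠ 0 := by rintro rfl; simp at hv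
  have h2 : (exp (β * I) * v).im = ‖v‖ * Real.sin (arg v + β) := by
    conv_lhs => rw [← norm_mul_exp_arg_mul_I v]
    have h3 : exp (β * I) * (‖v‖ * exp (arg v * I))
        = ‖v‖ * exp (((arg v + β : ℝ) : ℂ) * I) := by
      have : exp (((arg v + β : ℝ) : ℂ) * I) = exp (β * I) * exp (arg v * I) := by
        rw [← exp_add]; push_cast; ring_nf
      rw [this]; ring
    rw [h3, im_ofReal_mul, exp_ofReal_mul_I_im]
  rw [h2] at h
  have h3 : 0 < Real.sin (arg v + β) :=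
    Real.sin_pos_of_pos_of_lt_pi (by linarith) (by linarith)
  have h4 : 0 < ‖v‖ := norm_pos_iff.2 hv0
  nlinarith

lemma re_pos_right (θ₀ η : ℝ) (h0 : 0 < η) (h1 : η ≤ π / 2) :
    0 < (exp (-(((θ₀ + η : ℝ) : ℂ) * I)) * (c.σ (θ₀ + η) - c.σ θ₀)).re := by
  rw [mul_sub, sub_re]
  have := c.supp_lt_left (φ := θ₀ + η) (s := θ₀) (by linarith) (by linarith [Real.pi_pos])
  unfold supp at this
  linarith

lemma re_pos_left (θ₀ η : ℝ) (h0 : 0 < η) (h1 : η ≤ π / 2) :
    0 < (exp (-(((θ₀ - η : ℝ) : ℂ) * I)) * (c.σ (θ₀ - η) - c.σ θ₀)).re := by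
  rw [mul_sub, sub_re]
  have := c.supp_lt_right (φ := θ₀ - η) (s := θ₀) (by linarith) (by linarith [Real.pi_pos])
  unfold supp at this
  linarith

lemma exp_half : exp (-((π / 2 : ℝ) : ℂ) * I) = -I := by
  have : exp (((-(π / 2) : ℝ) : ℂ) * I) = -I := by
    apply Complex.ext
    · rw [exp_ofReal_mul_I_re, Real.cos_neg, Real.cos_pi_div_two]; simp
    · rw [exp_ofReal_mul_I_im, Real.sin_neg, Real.sin_pi_div_two]; simp
  rw [← this]; push_cast; ring_nf

lemma ang_right (θ₀ η : ℝ) (h0 : 0 < η) (h1 : η ≤ π / 2) :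
    π / 2 - η ≤ c.ang (c.σ θ₀) (θ₀ + η) := by
  apply le_arg_of (c.re_pos_right θ₀ η h0 h1) (by linarith)
  have h2 : exp (-(((π / 2 - η : ℝ) : ℂ) * I)) * (exp (-(((θ₀ + η : ℝ) : ℂ) * I))
      * (c.σ (θ₀ + η) - c.σ θ₀)) = I * (exp (-(θ₀ * I)) * (c.σ θ₀ - c.σ (θ₀ + η))) := by
    have : exp (-(((π / 2 - η : ℝ) : ℂ) * I)) * exp (-(((θ₀ + η : ℝ) : ℂ) * I))
        = -I * exp (-(θ₀ * I)) := by
      rw [← exp_half, ← exp_add, ← exp_add]; push_cast; ring_nf
    rw [← mul_assoc, this]; ring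
  rw [h2, I_mul_im]
  exact c.support θ₀ (θ₀ + η)

lemma ang_left (θ₀ η : ℝ) (h0 : 0 < η) (h1 : η ≤ π / 2) :
    c.ang (c.σ θ₀) (θ₀ - η) ≤ -(π / 2 - η) := by
  apply arg_le_of (c.re_pos_left θ₀ η h0 h1) (by linarith)
  have h2 : exp (((π / 2 - η : ℝ) : ℂ) * I) * (exp (-(((θ₀ - η : ℝ) : ℂ) * I))
      * (c.σ (θ₀ - η) - c.σ θ₀)) = -I * (exp (-(θ₀ * I)) * (c.σ θ₀ - c.σ (θ₀ - η))) := by
    have h3 : exp (((π / 2 : ℝ) : ℂ) * I) = I := by
      apply Complex.ext
      · rw [exp_ofReal_mul_I_re, Real.cos_pi_div_two]; simp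
      · rw [exp_ofReal_mul_I_im, Real.sin_pi_div_two]; simp
    have : exp (((π / 2 - η : ℝ) : ℂ) * I) * exp (-(((θ₀ - η : ℝ) : ℂ) * I))
        = I * exp (-(θ₀ * I)) := by
      have h4 : exp (((π / 2 - η : ℝ) : ℂ) * I) * exp (-(((θ₀ - η : ℝ) : ℂ) * I))
        = exp (((π / 2 : ℝ) : ℂ) * I) * exp (-(θ₀ * I)) := by
        rw [← exp_add, ← exp_add]; push_cast; ring_nf
      rw [h4, h3]
    rw [← mul_assoc, this]; ring
  rw [h2, neg_mul, neg_im, I_mul_im]
  exact neg_nonpos.2 (c.support θ₀ (θ₀ - η))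

lemma continuousAt_ang {z : ℂ} {θ : ℝ} (h : 0 < (exp (-(θ * I)) * (c.σ θ - z)).re) :
    ContinuousAt (fun z => c.ang z θ) z := by
  unfold ang
  apply ContinuousAt.comp (g := arg) (f := fun z => exp (-(θ * I)) * (c.σ θ - z))
  · exact continuousAt_arg (Or.inl h)
  · fun_prop

/-- The limit mass of a short arc is at least one. -/
lemma near_mass (θ₀ η : ℝ) (h0 : 0 < η) (h1 : η ≤ π / 2) :
    ∃ m : ℝ, 1 ≤ m ∧ ContinuousAt
      (fun z => (c.ang z (θ₀ + η) - c.ang z (θ₀ - η) + ((θ₀ + η) - (θ₀ - η))) / π) (c.σ θ₀) ∧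
      (c.ang (c.σ θ₀) (θ₀ + η) - c.ang (c.σ θ₀) (θ₀ - η) + ((θ₀ + η) - (θ₀ - η))) / π = m := by
  refine ⟨_, ?_, ?_, rfl⟩
  · rw [le_div_iff₀ Real.pi_pos]
    have := c.ang_right θ₀ η h0 h1
    have := c.ang_left θ₀ η h0 h1
    linarith
  · have e1 := c.continuousAt_ang (c.re_pos_right θ₀ η h0 h1)
    have e2 := c.continuousAt_ang (c.re_pos_left θ₀ η h0 h1)
    exact ((e1.sub e2).add continuousAt_const).div_const _

end ConvexCurve

end Vale.P123
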