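import Vale.Agent.P123.Data

/-!
# P123: the bound for an operator inside a convex curve
-/

namespace Vale.P123

open Complex MeasureTheory intervalIntegral
open scoped Real Topology InnerProductSpace

namespace ConvexCurve

variable (c : ConvexCurve)
variable {H : Type*} [NormedAddCommGroup H] [InnerProductSpace ℂ H] [FiniteDimensional ℂ H]
  [Nontrivial H]

lemma aeval_gen (A : H →L[ℂ] H) (p : Polynomial ℂ) :
    Polynomial.aeval (c.gen A) p = (c.poly p, Polynomial.aeval A p) := by
  have h1 : (Polynomial.aeval (c.gen A) p).1 = c.poly p := by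
    have := Polynomial.aeval_algHom_apply (AlgHom.fst ℂ C(c.Γ, ℂ) (H →L[ℂ] H)) (c.gen A) p
    exact this.symm
  have h2 : (Polynomial.aeval (c.gen A) p).2 = Polynomial.aeval A p := by
    have := Polynomial.aeval_algHom_apply (AlgHom.snd ℂ C(c.Γ, ℂ) (H →L[ℂ] H)) (c.gen A) p
    exact this.symm
  exact Prod.ext h1 h2

lemma poly_mem (A : H →L[ℂ] H) (p : Polynomial ℂ) :
    (c.poly p, Polynomial.aeval A p) ∈ c.alg A := by
  rw [← c.aeval_gen]
  apply Subalgebra.le_topologicalClosure
  rw [Algebra.adjoin_singleton_eq_range_aeval]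
  exact ⟨p, rfl⟩

/-- induction principle for closed conditions on the algebra -/
lemma alg_induction (A : H →L[ℂ] H) {P : C(c.Γ, ℂ) × (H →L[ℂ] H) → Prop}
    (hP : IsClosed {b | P b}) (h : ∀ p : Polynomial ℂ, P (c.poly p, Polynomial.aeval A p)) :
    ∀ b ∈ c.alg A, P b := by
  intro b hb
  have h1 : (b : C(c.Γ, ℂ) × (H →L[ℂ] H)) ∈
      closure ((Algebra.adjoin ℂ {c.gen A} : Subalgebra ℂ (C(c.Γ, ℂ) × (H →L[ℂ] H))) :
        Set (C(c.Γ, ℂ) × (H →L[ℂ] H))) := hb
  refine closure_minimal ?_ hP h1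
  intro b' hb'
  rw [SetLike.mem_coe, Algebra.adjoin_singleton_eq_range_aeval] at hb'
  obtain ⟨p, rfl⟩ := hb'
  have := h p
  rw [← c.aeval_gen] at this
  exact this

/-- a crude bound -/
lemma exists_crude (h0 : c.Inside 0) {A : H →L[ℂ] H} {δ : ℝ} (h : c.Encloses A δ) :
    ∃ C : ℝ, ∀ b ∈ c.alg A, ‖b.2‖ ≤ C * ‖b.1‖ := by
  obtain ⟨R, hR0, hR⟩ := c.exists_bound_r
  obtain ⟨C, hC0, hC⟩ := c.exists_bound_res A (fun s hs0 hs1 θ => c.unit_op h0 h hs0 hs1 θ)
  refine ⟨‖(2 * π * I : ℂ)⁻¹‖ * R * C * |2 * π - 0|, ?_⟩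
  refine c.alg_induction A
    (P := fun b => ‖b.2‖ ≤ ‖(2 * π * I : ℂ)⁻¹‖ * R * C * |2 * π - 0| * ‖b.1‖) ?_ ?_
  · exact isClosed_le (continuous_norm.comp continuous_snd)
      (continuous_const.mul (continuous_norm.comp continuous_fst))
  · intro p
    change ‖Polynomial.aeval A p‖ ≤ _ * ‖c.poly p‖
    rw [← c.integral_poly_dens h0 h p]
    have h1 : ∀ θ ∈ Set.uIoc (0 : ℝ) (2 * π), ‖p.eval (c.σ θ) • c.dens A θ‖
        ≤ ‖c.poly p‖ * (‖(2 * π * I : ℂ)⁻¹‖ * R * C) := by
      intro θ _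
      rw [norm_smul]
      have e1 : ‖p.eval (c.σ θ)‖ ≤ ‖c.poly p‖ := by
        have := (c.poly p).norm_coe_le_norm (c.pt θ)
        rwa [c.poly_apply] at this
      have e2 : ‖c.dens A θ‖ ≤ ‖(2 * π * I : ℂ)⁻¹‖ * R * C := by
        unfold dens
        rw [norm_smul, norm_mul, c.norm_dσ]
        have := hC 1 zero_le_one le_rfl θ
        simp only [ofReal_one, one_smul] at this
        have := hR θ
        have := (c.r_pos θ).le
        gcongr
      gcongr
    refine (intervalIntegral.norm_integral_le_of_norm_le_const h1).trans (le_of_eq ?_)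
    ring

lemma continuous_cpMap (h0 : c.Inside 0) {A : H →L[ℂ] H} {δ : ℝ} (h : c.Encloses A δ) :
    Continuous (c.cpMap h0 h) := by
  obtain ⟨R, hR0, hR⟩ := c.exists_bound_r
  obtain ⟨C, hC0, hC⟩ := c.exists_bound_res A (fun s hs0 hs1 θ => c.unit_op h0 h hs0 hs1 θ)
  set D : ℝ := ‖(2 * π * I : ℂ)⁻¹‖ * R * C with hD
  have hdens : ∀ θ, ‖c.dens A θ‖ ≤ D := by
    intro θ
    unfold dens
    rw [norm_smul, norm_mul, c.norm_dσ]
    have := hC 1 zero_le_one le_rfl θ
    simp only [ofReal_one, one_smul] at this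
    have := hR θ
    have := (c.r_pos θ).le
    rw [hD]
    gcongr
  apply AddMonoidHomClass.continuous_of_bound (c.cpMap h0 h) ((D + D) * |2 * π - 0|)
  intro φ
  change ‖∫ θ in (0 : ℝ)..(2 * π),
    φ (c.pt θ) • (c.dens A θ + ContinuousLinearMap.adjoint (c.dens A θ))‖ ≤ _
  have h1 : ∀ θ ∈ Set.uIoc (0 : ℝ) (2 * π),
      ‖φ (c.pt θ) • (c.dens A θ + ContinuousLinearMap.adjoint (c.dens A θ))‖
        ≤ ‖φ‖ * (D + D) := by
    intro θ _
    rw [norm_smul]
    have e1 := φ.norm_coe_le_norm (c.pt θ)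
    have e2 : ‖c.dens A θ + ContinuousLinearMap.adjoint (c.dens A θ)‖ ≤ D + D := by
      refine (norm_add_le _ _).trans ?_
      rw [LinearIsometryEquiv.norm_map]
      have := hdens θ
      linarith
    gcongr
  refine (intervalIntegral.norm_integral_le_of_norm_le_const h1).trans (le_of_eq ?_)
  ring

lemma continuous_markov (h0 : c.Inside 0) : Continuous (c.markov h0) := by
  apply AddMonoidHomClass.continuous_of_bound (c.markov h0) 1
  intro φ
  rw [one_mul]
  exact (c.isMarkov h0).norm_le φ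

lemma theta_mem (h0 : c.Inside 0) {A : H →L[ℂ] H} {δ : ℝ} (h : c.Encloses A δ) :
    ∀ b ∈ c.alg A, (star (c.markov h0 b.1),
      ContinuousLinearMap.adjoint (c.cpMap h0 h b.1 - b.2)) ∈ c.alg A := by
  refine c.alg_induction A (P := fun b => (star (c.markov h0 b.1),
      ContinuousLinearMap.adjoint (c.cpMap h0 h b.1 - b.2)) ∈ c.alg A) ?_ ?_
  · apply (c.alg_closed A).preimage
    apply Continuous.prodMk
    · exact continuous_star.comp ((c.continuous_markov h0).comp continuous_fst)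
    · exact (ContinuousLinearMap.adjoint (𝕜 := ℂ) (E := H) (F := H)).continuous.comp
        (((c.continuous_cpMap h0 h).comp continuous_fst).sub continuous_snd)
  · intro p
    change (star (c.markov h0 (c.poly p)), ContinuousLinearMap.adjoint
      (c.cpMap h0 h (c.poly p) - Polynomial.aeval A p)) ∈ c.alg A
    rw [c.cpMap_poly h0 h p]
    exact c.theta_poly_mem h0 h p

lemma alg_comm (A : H →L[ℂ] H) : ∀ b ∈ c.alg A, ∀ b' ∈ c.alg A, b.2 * b'.2 = b'.2 * b.2 := by
  refine c.alg_induction A (P := fun b => ∀ b' ∈ c.alg A, b.2 * b'.2 = b'.2 * b.2) ?_ ?_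
  · simp only [Set.ofPred_forall]
    refine isClosed_iInter fun b' => isClosed_iInter fun _ => ?_
    exact isClosed_eq (continuous_snd.mul continuous_const) (continuous_const.mul continuous_snd)
  · intro p
    refine c.alg_induction A (P := fun b' => Polynomial.aeval A p * b'.2
      = b'.2 * Polynomial.aeval A p) ?_ ?_
    · exact isClosed_eq (continuous_const.mul continuous_snd) (continuous_snd.mul continuous_const)
    · intro q
      change Polynomial.aeval A p * Polynomial.aeval A q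
        = Polynomial.aeval A q * Polynomial.aeval A p
      rw [← map_mul, ← map_mul, mul_comm]

/-- The bound for polynomials of an operator enclosed by a convex curve. -/
theorem curve_bound (h0 : c.Inside 0) {A : H →L[ℂ] H} {δ : ℝ} (h : c.Encloses A δ)
    (p : Polynomial ℂ) {M : ℝ} (hM : ∀ θ, ‖p.eval (c.σ θ)‖ ≤ M) :
    ‖Polynomial.aeval A p‖ ≤ 12 / 5 * M := by
  obtain ⟨C, hC⟩ := c.exists_crude h0 h
  let _ : SeminormedAddCommGroup C(ℝ, H) :=
    InnerProductSpace.Core.toSeminormedAddCommGroup (c := c.preCore h0 h)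
  let _ : InnerProductSpace ℂ C(ℝ, H) := InnerProductSpace.ofCore (c.preCore h0 h)
  let D : CoreData c.Γ H C(ℝ, H) :=
    { B := c.alg A
      comm := c.alg_comm A
      C := C
      bound := hC
      M := c.cpMap h0 h
      M_one := c.cpMap_one h0 h
      J := c.dil H
      J_inner := fun φ ψ v w => by
        rw [c.inner_cpMap h0 h]
        change ∫ θ in (0 : ℝ)..(2 * π), ⟪φ (c.pt θ) • v,
          (c.dens A θ + ContinuousLinearMap.adjoint (c.dens A θ)) (ψ (c.pt θ) • w)⟫_ℂ = _
        congr 1; ext1 θ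
        rw [map_smul, inner_smul_left, inner_smul_right]
        change _ = (starRingEnd ℂ) (φ (c.pt θ)) * ψ (c.pt θ) * _
        ring
      K := c.markov h0
      markov := c.isMarkov h0
      Θ := c.theta_mem h0 h }
  have h1 := D.bound_main (c.poly p, Polynomial.aeval A p) (c.poly_mem A p)
  have h2 : ‖c.poly p‖ ≤ M := by
    rw [ContinuousMap.norm_le _ ((norm_nonneg _).trans (hM 0))]
    intro ζ
    obtain ⟨t, rfl⟩ := c.exists_pt ζ
    rw [c.poly_apply]
    exact hM t
  simp only at h1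
  linarith

end ConvexCurve

end Vale.P123
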