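import Vale.Agent.P123.Theta

/-!
# P123: assembling the abstract data
-/

namespace Vale.P123

open Complex MeasureTheory intervalIntegral
open scoped Real Topology InnerProductSpace

namespace ConvexCurve

variable (c : ConvexCurve)
variable {H : Type*} [NormedAddCommGroup H] [InnerProductSpace ℂ H] [FiniteDimensional ℂ H]
  [Nontrivial H]

lemma two_pi_I_ne : (2 * π * I : ℂ) ≠ 0 := by
  have : (π : ℂ) ≠ 0 := by exact_mod_cast Real.pi_ne_zero
  simp [this]

lemma integral_poly_dens (h0 : c.Inside 0) {A : H →L[ℂ] H} {δ : ℝ} (h : c.Encloses A δ)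
    (p : Polynomial ℂ) :
    ∫ θ in (0 : ℝ)..(2 * π), p.eval (c.σ θ) • c.dens A θ = Polynomial.aeval A p := by
  have h1 := c.cauchy_poly (c.unit_op_one h0 h)
    (c.cauchy_one h0 A (fun s hs0 hs1 θ => c.unit_op h0 h hs0 hs1 θ)) p
  have h2 : ∀ θ, p.eval (c.σ θ) • c.dens A θ
      = (2 * π * I : ℂ)⁻¹ • ((p.eval (c.σ θ) * c.dσ θ) • c.res A θ) := by
    intro θ
    unfold dens
    rw [smul_smul, smul_smul]
    congr 1; ring
  simp only [h2]
  rw [intervalIntegral.integral_smul, h1, smul_smul, inv_mul_cancel₀ two_pi_I_ne, one_smul]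

lemma gop_eq (A : H →L[ℂ] H) (p : Polynomial ℂ) :
    c.gop A p = ∫ θ in (0 : ℝ)..(2 * π), (starRingEnd ℂ) (p.eval (c.σ θ)) • c.dens A θ := by
  unfold gop
  rw [← intervalIntegral.integral_smul]
  congr 1; ext1 θ
  unfold dens
  rw [smul_smul, smul_smul]
  congr 1; ring

lemma adjoint_integral {f : ℝ → H →L[ℂ] H} (hf : Continuous f) (a b : ℝ) :
    ContinuousLinearMap.adjoint (∫ θ in a..b, f θ)
      = ∫ θ in a..b, ContinuousLinearMap.adjoint (f θ) := by
  have h1 := ((starL' ℝ : (H →L[ℂ] H) ≃L[ℝ] (H →L[ℂ] H)) :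
    (H →L[ℂ] H) →L[ℝ] (H →L[ℂ] H)).intervalIntegral_comp_comm (μ := volume)
    (hf.intervalIntegrable a b)
  exact h1.symm

lemma cpMap_poly (h0 : c.Inside 0) {A : H →L[ℂ] H} {δ : ℝ} (h : c.Encloses A δ)
    (p : Polynomial ℂ) : ContinuousLinearMap.adjoint (c.cpMap h0 h (c.poly p)
      - Polynomial.aeval A p) = c.gop A p := by
  have hd := c.continuous_dens h0 h
  have hp : Continuous fun θ => p.eval (c.σ θ) := p.continuous.comp c.continuous_σ
  have hda : Continuous fun θ => ContinuousLinearMap.adjoint (c.dens A θ) :=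
    (ContinuousLinearMap.adjoint (𝕜 := ℂ) (E := H) (F := H)).continuous.comp hd
  have h1 : c.cpMap h0 h (c.poly p) = Polynomial.aeval A p
      + ∫ θ in (0 : ℝ)..(2 * π), p.eval (c.σ θ) • ContinuousLinearMap.adjoint (c.dens A θ) := by
    rw [← c.integral_poly_dens h0 h p, ← intervalIntegral.integral_add]
    · change ∫ θ in (0 : ℝ)..(2 * π), c.poly p (c.pt θ) •
        (c.dens A θ + ContinuousLinearMap.adjoint (c.dens A θ)) = _
      congr 1; ext1 θ
      rw [c.poly_apply, smul_add]; rfl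
    · exact (hp.smul hd).intervalIntegrable _ _
    · exact (hp.smul hda).intervalIntegrable _ _
  have hpda : Continuous fun θ => p.eval (c.σ θ) • ContinuousLinearMap.adjoint (c.dens A θ) :=
    hp.smul hda
  rw [h1, add_sub_cancel_left, adjoint_integral hpda, gop_eq]
  congr 1; ext1 θ
  rw [map_smulₛₗ, ContinuousLinearMap.adjoint_adjoint]

lemma poly_one : c.poly 1 = 1 := by unfold poly; simp

lemma cpMap_one (h0 : c.Inside 0) {A : H →L[ℂ] H} {δ : ℝ} (h : c.Encloses A δ) (v : H) :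
    c.cpMap h0 h 1 v = (2 : ℂ) • v := by
  have h1 := c.cpMap_poly h0 h 1
  have h2 : c.gop A 1 = 1 := by
    rw [gop_eq, ← map_one (Polynomial.aeval (R := ℂ) A), ← c.integral_poly_dens h0 h 1]
    congr 1; ext1 θ
    simp
  rw [h2, poly_one, map_one (Polynomial.aeval (R := ℂ) A)] at h1
  have h3 := congrArg ContinuousLinearMap.adjoint h1
  rw [ContinuousLinearMap.adjoint_adjoint] at h3
  have h4 : ContinuousLinearMap.adjoint (1 : H →L[ℂ] H) = 1 := star_one (H →L[ℂ] H)
  rw [h4, sub_eq_iff_eq_add] at h3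
  rw [h3, two_smul]
  rfl

/-- inner products against the completely positive map -/
lemma inner_cpMap (h0 : c.Inside 0) {A : H →L[ℂ] H} {δ : ℝ} (h : c.Encloses A δ)
    (φ : C(c.Γ, ℂ)) (v w : H) :
    ⟪v, c.cpMap h0 h φ w⟫_ℂ = ∫ θ in (0 : ℝ)..(2 * π),
      φ (c.pt θ) * ⟪v, (c.dens A θ + ContinuousLinearMap.adjoint (c.dens A θ)) w⟫_ℂ := by
  have hd := c.continuous_dens h0 h
  have hq : Continuous fun θ => c.dens A θ + ContinuousLinearMap.adjoint (c.dens A θ) :=
    hd.add ((ContinuousLinearMap.adjoint (𝕜 := ℂ) (E := H) (F := H)).continuous.comp hd)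
  have hc : Continuous fun θ => φ (c.pt θ) •
      (c.dens A θ + ContinuousLinearMap.adjoint (c.dens A θ)) :=
    (φ.continuous.comp c.continuous_pt).smul hq
  let L : (H →L[ℂ] H) →L[ℂ] ℂ := (innerSL ℂ v).comp (ContinuousLinearMap.apply ℂ H w)
  have h1 := L.intervalIntegral_comp_comm (μ := volume) (hc.intervalIntegrable 0 (2 * π))
  have h2 : ⟪v, c.cpMap h0 h φ w⟫_ℂ = L (∫ θ in (0 : ℝ)..(2 * π), φ (c.pt θ) •
      (c.dens A θ + ContinuousLinearMap.adjoint (c.dens A θ))) := rfl
  rw [h2, ← h1]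
  congr 1; ext1 θ
  rw [map_smul, smul_eq_mul]
  rfl

lemma inner_dens_symm {A : H →L[ℂ] H} (θ : ℝ) (v w : H) :
    (starRingEnd ℂ) ⟪v, (c.dens A θ + ContinuousLinearMap.adjoint (c.dens A θ)) w⟫_ℂ
      = ⟪w, (c.dens A θ + ContinuousLinearMap.adjoint (c.dens A θ)) v⟫_ℂ := by
  rw [inner_conj_symm]
  simp only [add_apply, inner_add_left, inner_add_right,
    ContinuousLinearMap.adjoint_inner_left, ContinuousLinearMap.adjoint_inner_right]
  ring

/-- The semi-inner product on `C(ℝ, H)` defined by the density. -/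
@[reducible] noncomputable def preCore (h0 : c.Inside 0) {A : H →L[ℂ] H} {δ : ℝ} (h : c.Encloses A δ) :
    PreInnerProductSpace.Core ℂ C(ℝ, H) where
  inner F G := ∫ θ in (0 : ℝ)..(2 * π),
    ⟪F θ, (c.dens A θ + ContinuousLinearMap.adjoint (c.dens A θ)) (G θ)⟫_ℂ
  conj_inner_symm F G := by
    rw [← intervalIntegral_conj]
    congr 1; ext1 θ
    exact c.inner_dens_symm θ _ _
  re_inner_nonneg F := by
    have hd := c.continuous_dens h0 h
    have hq : Continuous fun θ => c.dens A θ + ContinuousLinearMap.adjoint (c.dens A θ) :=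
      hd.add ((ContinuousLinearMap.adjoint (𝕜 := ℂ) (E := H) (F := H)).continuous.comp hd)
    have hc : Continuous fun θ =>
        ⟪F θ, (c.dens A θ + ContinuousLinearMap.adjoint (c.dens A θ)) (F θ)⟫_ℂ :=
      F.continuous.inner (hq.clm_apply F.continuous)
    have h1 := Complex.reCLM.intervalIntegral_comp_comm (μ := volume) (a := 0) (b := 2 * π)
      (hc.intervalIntegrable 0 (2 * π))
    change 0 ≤ Complex.reCLM (∫ θ in (0 : ℝ)..(2 * π),
      ⟪F θ, (c.dens A θ + ContinuousLinearMap.adjoint (c.dens A θ)) (F θ)⟫_ℂ)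
    rw [← h1]
    apply intervalIntegral.integral_nonneg (by positivity)
    intro θ _
    change 0 ≤ (⟪F θ, (c.dens A θ + ContinuousLinearMap.adjoint (c.dens A θ)) (F θ)⟫_ℂ).re
    rw [add_apply, inner_add_right, ContinuousLinearMap.adjoint_inner_right, add_re,
      ← inner_conj_symm (c.dens A θ (F θ)), conj_re]
    have := c.dens_pos h0 h θ (F θ)
    linarith
  add_left F G K := by
    have hd := c.continuous_dens h0 h
    have hq : Continuous fun θ => c.dens A θ + ContinuousLinearMap.adjoint (c.dens A θ) :=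
      hd.add ((ContinuousLinearMap.adjoint (𝕜 := ℂ) (E := H) (F := H)).continuous.comp hd)
    have hc : ∀ F : C(ℝ, H), Continuous fun θ =>
        ⟪F θ, (c.dens A θ + ContinuousLinearMap.adjoint (c.dens A θ)) (K θ)⟫_ℂ := fun F =>
      F.continuous.inner (hq.clm_apply K.continuous)
    rw [← intervalIntegral.integral_add ((hc F).intervalIntegrable _ _)
      ((hc G).intervalIntegrable _ _)]
    congr 1; ext1 θ
    rw [ContinuousMap.add_apply, inner_add_left]
  smul_left F G r := by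
    rw [← intervalIntegral.integral_const_mul]
    congr 1; ext1 θ
    rw [ContinuousMap.smul_apply, inner_smul_left]

/-- the dilation map -/
noncomputable def dil (H : Type*) [NormedAddCommGroup H] [InnerProductSpace ℂ H] :
    C(c.Γ, ℂ) →ₗ[ℂ] H →ₗ[ℂ] C(ℝ, H) :=
  LinearMap.mk₂ ℂ (fun φ v => ⟨fun θ => φ (c.pt θ) • v,
      (φ.continuous.comp c.continuous_pt).smul continuous_const⟩)
    (fun φ ψ v => by ext θ; exact add_smul _ _ _)
    (fun a φ v => by ext θ; exact mul_smul _ _ _)
    (fun φ v w => by ext θ; exact smul_add _ _ _)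
    (fun a φ v => by ext θ; exact smul_comm _ _ _)

end ConvexCurve

end Vale.P123
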