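import Mathlib

/-!
# P123: common definitions

Numerical range, and smooth strictly convex closed curves parametrised by the angle of their
outer normal.
-/

namespace Vale.P123

/-- The numerical range of a bounded operator. -/
def numRange {H : Type*} [NormedAddCommGroup H] [InnerProductSpace ℂ H] (A : H →L[ℂ] H) : Set ℂ :=
  {z | ∃ x : H, ‖x‖ = 1 ∧ z = inner ℂ x (A x)}

/-- A closed convex curve `σ`, parametrised by the angle `θ` of its outer normal, with positive
continuous radius of curvature `r`. -/
structure ConvexCurve where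
  σ : ℝ → ℂ
  r : ℝ → ℝ
  r_cont : Continuous r
  r_pos : ∀ θ, 0 < r θ
  r_per : ∀ θ, r (θ + 2 * Real.pi) = r θ
  σ_per : ∀ θ, σ (θ + 2 * Real.pi) = σ θ
  σ_deriv : ∀ θ, HasDerivAt σ (r θ * Complex.I * Complex.exp (θ * Complex.I)) θ

/-- `z` lies strictly inside the curve. -/
def ConvexCurve.Inside (c : ConvexCurve) (z : ℂ) : Prop :=
  ∀ θ : ℝ, 0 < (Complex.exp (-(θ * Complex.I)) * (c.σ θ - z)).re

end Vale.P123
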