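import Vale.Agent.P123.Core

/-!
# P123: existence of extremal configurations and the abstract bound
-/

namespace Vale.P123

open ContinuousMap ContinuousLinearMap
open scoped ComplexConjugate InnerProductSpace

variable {Γ : Type*} [TopologicalSpace Γ] [CompactSpace Γ]
variable {H : Type*} [NormedAddCommGroup H] [InnerProductSpace ℂ H] [FiniteDimensional ℂ H]
variable {E : Type*} [SeminormedAddCommGroup E] [InnerProductSpace ℂ E]

/-- An operator on a finite dimensional space attains its norm. -/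
lemma exists_attains [Nontrivial H] (T : H →L[ℂ] H) : ∃ y : H, ‖y‖ = 1 ∧ ‖T y‖ = ‖T‖ := by
  have : ProperSpace H := FiniteDimensional.proper ℂ H
  have hne : (Metric.sphere (0 : H) 1).Nonempty := by
    obtain ⟨v, hv⟩ := exists_ne (0 : H)
    refine ⟨((‖v‖⁻¹ : ℝ) : ℂ) • v, ?_⟩
    simp only [mem_sphere_iff_norm, sub_zero, norm_smul, Complex.norm_real, norm_inv, norm_norm]
    exact inv_mul_cancel₀ (norm_ne_zero_iff.2 hv)
  obtain ⟨y, hy, hmax⟩ := (isCompact_sphere (0 : H) 1).exists_isMaxOn hne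
    (f := fun v => ‖T v‖) (by fun_prop)
  have hy1 : ‖y‖ = 1 := by simpa using hy
  refine ⟨y, hy1, le_antisymm ?_ ?_⟩
  · calc ‖T y‖ ≤ ‖T‖ * ‖y‖ := T.le_opNorm y
      _ = ‖T‖ := by rw [hy1, mul_one]
  · refine T.opNorm_le_bound (norm_nonneg _) fun v => ?_
    by_cases hv : v = 0
    · simp [hv]
    have hv' : ‖v‖ ≠ 0 := norm_ne_zero_iff.2 hv
    have h1 : ((‖v‖⁻¹ : ℝ) : ℂ) • v ∈ Metric.sphere (0 : H) 1 := by
      simp only [mem_sphere_iff_norm, sub_zero, norm_smul, Complex.norm_real, norm_inv, norm_norm]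
      exact inv_mul_cancel₀ hv'
    have h2 := hmax h1
    simp only [Set.mem_ofPred_eq, map_smul, norm_smul, Complex.norm_real, norm_inv,
      norm_norm] at h2
    calc ‖T v‖ = (‖v‖⁻¹ * ‖T v‖) * ‖v‖ := by field_simp
      _ ≤ ‖T y‖ * ‖v‖ := by gcongr

/-- Vectors realising the norm of an operator. -/
lemma exists_pair [Nontrivial H] (T : H →L[ℂ] H) (hT : 0 < ‖T‖) : ∃ x y : H, ‖x‖ = 1 ∧ ‖y‖ = 1 ∧
    T y = ((‖T‖ : ℝ) : ℂ) • x ∧ ContinuousLinearMap.adjoint T x = ((‖T‖ : ℝ) : ℂ) • y := by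
  obtain ⟨y, hy, hTy⟩ := exists_attains T
  have hTC : ((‖T‖ : ℝ) : ℂ) ≠ 0 := by exact_mod_cast hT.ne'
  set x : H := ((‖T‖⁻¹ : ℝ) : ℂ) • T y with hx
  have hx1 : ‖x‖ = 1 := by
    rw [hx, norm_smul, Complex.norm_real, norm_inv, norm_norm, hTy, inv_mul_cancel₀ hT.ne']
  have hTyx : T y = ((‖T‖ : ℝ) : ℂ) • x := by
    rw [hx, smul_smul, Complex.ofReal_inv, mul_inv_cancel₀ hTC, one_smul]
  refine ⟨x, y, hx1, hy, hTyx, ?_⟩
  have h1 : ⟪ContinuousLinearMap.adjoint T x, ((‖T‖ : ℝ) : ℂ) • y⟫_ℂ = ((‖T‖ ^ 2 : ℝ) : ℂ) := by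
    rw [ContinuousLinearMap.adjoint_inner_left, map_smul, hTyx, inner_smul_right,
      inner_smul_right, inner_self_C, hx1]
    push_cast
    ring
  have h2 : ‖ContinuousLinearMap.adjoint T x - ((‖T‖ : ℝ) : ℂ) • y‖ ^ 2 ≤ 0 := by
    rw [@norm_sub_sq ℂ, h1]
    have h3 : ‖ContinuousLinearMap.adjoint T x‖ ≤ ‖T‖ := by
      calc _ ≤ ‖ContinuousLinearMap.adjoint T‖ * ‖x‖ := ContinuousLinearMap.le_opNorm _ _
        _ = ‖T‖ := by rw [hx1, mul_one, LinearIsometryEquiv.norm_map]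
    have h4 : ‖ContinuousLinearMap.adjoint T x‖ ^ 2 ≤ ‖T‖ ^ 2 := by gcongr
    have h5 : ‖((‖T‖ : ℝ) : ℂ) • y‖ = ‖T‖ := by
      rw [norm_smul, Complex.norm_real, norm_norm, hy, mul_one]
    rw [h5]
    have h6 : RCLike.re ((‖T‖ ^ 2 : ℝ) : ℂ) = ‖T‖ ^ 2 := Complex.ofReal_re _
    rw [h6]
    linarith
  have h3 : ‖ContinuousLinearMap.adjoint T x - ((‖T‖ : ℝ) : ℂ) • y‖ = 0 := by
    have := norm_nonneg (ContinuousLinearMap.adjoint T x - ((‖T‖ : ℝ) : ℂ) • y)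
    nlinarith
  exact sub_eq_zero.1 (norm_eq_zero.1 h3)

/-- Hahn-Banach for a functional dominated along a linear map. -/
lemma exists_factor {V W : Type*} [AddCommGroup V] [Module ℂ V] [NormedAddCommGroup W]
    [NormedSpace ℂ W] (p : V →ₗ[ℂ] W) (n : V →ₗ[ℂ] ℂ) (hle : ∀ b, ‖n b‖ ≤ ‖p b‖) :
    ∃ g : W →L[ℂ] ℂ, ‖g‖ ≤ 1 ∧ ∀ b, g (p b) = n b := by
  obtain ⟨s, hs⟩ := p.rangeRestrict.exists_rightInverse_of_surjective p.range_rangeRestrict
  have hns : ∀ b : V, n (s (p.rangeRestrict b)) = n b := by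
    intro b
    have h1 : p (s (p.rangeRestrict b) - b) = 0 := by
      rw [map_sub]
      have : p.rangeRestrict (s (p.rangeRestrict b)) = p.rangeRestrict b :=
        LinearMap.congr_fun hs (p.rangeRestrict b)
      have h2 : p (s (p.rangeRestrict b)) = p b := congrArg Subtype.val this
      rw [h2, sub_self]
    have h3 : ‖n (s (p.rangeRestrict b) - b)‖ ≤ ‖p (s (p.rangeRestrict b) - b)‖ := hle _
    rw [h1, norm_zero] at h3
    have h4 : n (s (p.rangeRestrict b) - b) = 0 := norm_le_zero_iff.1 h3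
    rw [map_sub] at h4
    exact sub_eq_zero.1 h4
  set m : LinearMap.range p →ₗ[ℂ] ℂ := n.comp s with hm
  have hmle : ∀ u : LinearMap.range p, ‖m u‖ ≤ 1 * ‖u‖ := by
    intro u
    obtain ⟨b, hb⟩ := p.surjective_rangeRestrict u
    rw [← hb, hm, LinearMap.comp_apply, hns, one_mul]
    exact hle _
  obtain ⟨g, hg1, hg2⟩ := exists_extension_norm_eq (LinearMap.range p) (m.mkContinuous 1 hmle)
  refine ⟨g, ?_, fun b => ?_⟩
  · rw [hg2]; exact LinearMap.mkContinuous_norm_le _ zero_le_one _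
  · have h1 := hg1 (p.rangeRestrict b)
    have h2 : m (p.rangeRestrict b) = n b := hns _
    simp only [LinearMap.mkContinuous_apply, h2] at h1
    exact h1

/-- extension of a functional on `B` to a state -/
lemma exists_state (B : Subalgebra ℂ (C(Γ, ℂ) × (H →L[ℂ] H))) (x : H) (hx : ‖x‖ = 1)
    (hle : ∀ b ∈ B, ‖⟪x, b.2 x⟫_ℂ‖ ≤ ‖b.1‖) :
    ∃ N : C(Γ, ℂ) →ₗ[ℂ] ℂ, IsState N ∧ ∀ b ∈ B, N b.1 = ⟪x, b.2 x⟫_ℂ := by
  let p : B →ₗ[ℂ] C(Γ, ℂ) :=
    { toFun := fun b => b.1.1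
      map_add' := fun a b => rfl
      map_smul' := fun c a => rfl }
  let n : B →ₗ[ℂ] ℂ :=
    { toFun := fun b => ⟪x, b.1.2 x⟫_ℂ
      map_add' := fun a b => by
        change ⟪x, (a.1.2 + b.1.2) x⟫_ℂ = _
        rw [_root_.add_apply, inner_add_right]
      map_smul' := fun c a => by
        change ⟪x, (c • a.1.2) x⟫_ℂ = _
        rw [_root_.smul_apply, inner_smul_right]; rfl }
  obtain ⟨g, hg, hgB⟩ := exists_factor p n (fun b => hle _ b.2)
  refine ⟨g.toLinearMap, IsState.of_contractive _ ?_ fun φ => ?_, fun b hb => hgB ⟨b, hb⟩⟩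
  · have := hgB ⟨1, B.one_mem⟩
    change g 1 = ⟪x, x⟫_ℂ at this
    change g 1 = 1
    rw [this]
    have h2 := inner_self_C x
    rw [hx] at h2
    simpa using h2
  · change ‖g φ‖ ≤ ‖φ‖
    calc ‖g φ‖ ≤ ‖g‖ * ‖φ‖ := g.le_opNorm φ
      _ ≤ 1 * ‖φ‖ := by gcongr
      _ = ‖φ‖ := one_mul _

/-- lifting convergence from the second components -/
lemma exists_lift {V W U : Type*} [NormedAddCommGroup W] [NormedSpace ℂ W]
    [NormedAddCommGroup U] [NormedSpace ℂ U] [FiniteDimensional ℂ U] [AddCommGroup V] [Module ℂ V]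
    (p : V →ₗ[ℂ] W) (q : V →ₗ[ℂ] U) :
    ∃ C : ℝ, 0 ≤ C ∧ ∀ u ∈ LinearMap.range q, ∃ b : V, q b = u ∧ ‖p b‖ ≤ C * ‖u‖ := by
  obtain ⟨s, hs⟩ := q.rangeRestrict.exists_rightInverse_of_surjective q.range_rangeRestrict
  let m : LinearMap.range q →L[ℂ] W := LinearMap.toContinuousLinearMap (p.comp s)
  refine ⟨‖m‖, m.opNorm_nonneg, fun u hu => ⟨s ⟨u, hu⟩, ?_, ?_⟩⟩
  · exact congrArg Subtype.val (LinearMap.congr_fun hs ⟨u, hu⟩)
  · exact m.le_opNorm ⟨u, hu⟩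

variable [Nontrivial H]

/-- Existence of extremal configurations. -/
theorem exists_extremal (D : CoreData Γ H E) : ∃ K₀ : ℝ, (∀ b ∈ D.B, ‖b.2‖ ≤ K₀ * ‖b.1‖) ∧
    ∀ κ, 0 < κ → κ < K₀ → Nonempty (Extremal D K₀ κ) := by
  have hprop : ProperSpace (H →L[ℂ] H) := FiniteDimensional.proper ℂ _
  set S : Set (H →L[ℂ] H) := {U | ∃ u, (u, U) ∈ D.B ∧ ‖u‖ ≤ 1} with hS
  have hSne : S.Nonempty := by
    refine ⟨1, 1, D.B.one_mem, ?_⟩
    rw [ContinuousMap.norm_le _ zero_le_one]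
    intro ζ; simp
  have hSb : ∀ U ∈ S, ‖U‖ ≤ |D.C| := by
    rintro U ⟨u, hu, hu1⟩
    have := D.bound _ hu
    simp only at this
    calc ‖U‖ ≤ D.C * ‖u‖ := this
      _ ≤ |D.C| * ‖u‖ := by gcongr; exact le_abs_self _
      _ ≤ |D.C| * 1 := by gcongr
      _ = _ := mul_one _
  have hcl : IsCompact (closure S) := by
    apply Metric.isCompact_of_isClosed_isBounded isClosed_closure
    apply Bornology.IsBounded.closure
    exact (Metric.isBounded_closedBall (x := (0 : H →L[ℂ] H)) (r := |D.C|)).subset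
      (fun U hU => by simpa using hSb U hU)
  obtain ⟨T, hT, hmax⟩ := hcl.exists_isMaxOn hSne.closure (f := fun U => ‖U‖) (by fun_prop)
  have hmax' : ∀ U ∈ S, ‖U‖ ≤ ‖T‖ := fun U hU => hmax (subset_closure hU)
  have hbound : ∀ b ∈ D.B, ‖b.2‖ ≤ ‖T‖ * ‖b.1‖ := by
    intro b hb
    by_cases h0 : ‖b.1‖ = 0
    · have := D.bound b hb
      rw [h0, mul_zero] at this
      rw [h0, mul_zero]; exact this
    · have h1 : ((‖b.1‖⁻¹ : ℝ) : ℂ) • b.2 ∈ S := by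
        refine ⟨((‖b.1‖⁻¹ : ℝ) : ℂ) • b.1, D.B.smul_mem hb _, ?_⟩
        rw [norm_smul, Complex.norm_real, norm_inv, norm_norm, inv_mul_cancel₀ h0]
      have h2 := hmax' _ h1
      rw [norm_smul, Complex.norm_real, norm_inv, norm_norm] at h2
      calc ‖b.2‖ = (‖b.1‖⁻¹ * ‖b.2‖) * ‖b.1‖ := by field_simp
        _ ≤ ‖T‖ * ‖b.1‖ := by gcongr
  refine ⟨‖T‖, hbound, fun κ hκ hκT => ?_⟩
  have hTpos : 0 < ‖T‖ := hκ.trans hκT
  obtain ⟨x, y, hx, hy, hTy, hTx⟩ := exists_pair T hTpos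
  -- lifting
  let p : D.B →ₗ[ℂ] C(Γ, ℂ) :=
    { toFun := fun b => b.1.1
      map_add' := fun a b => rfl
      map_smul' := fun c a => rfl }
  let q : D.B →ₗ[ℂ] (H →L[ℂ] H) :=
    { toFun := fun b => b.1.2
      map_add' := fun a b => rfl
      map_smul' := fun c a => rfl }
  obtain ⟨C, hC0, hC⟩ := exists_lift p q
  have hSrange : S ⊆ (LinearMap.range q : Set (H →L[ℂ] H)) := by
    rintro U ⟨u, hu, -⟩
    exact ⟨⟨(u, U), hu⟩, rfl⟩
  have hTrange : T ∈ (LinearMap.range q : Set (H →L[ℂ] H)) := by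
    have hclosed : IsClosed (LinearMap.range q : Set (H →L[ℂ] H)) :=
      Submodule.closed_of_finiteDimensional _
    exact closure_minimal hSrange hclosed hT
  have hfam : ∀ c : ℝ, 0 < c → c < 1 → ∃ f : C(Γ, ℂ), ‖f‖ ≤ 1 ∧ (f, (c : ℂ) • T) ∈ D.B := by
    intro c hc0 hc1
    have hδ : 0 < (1 / c - 1) / (C + 1) := by
      have : 1 < 1 / c := by rw [lt_div_iff₀ hc0]; linarith
      exact div_pos (by linarith) (by linarith)
    obtain ⟨U, ⟨u, hu, hu1⟩, hUT⟩ := Metric.mem_closure_iff.1 hT _ hδ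
    have h1 : T - U ∈ LinearMap.range q :=
      Submodule.sub_mem _ hTrange (hSrange ⟨u, hu, hu1⟩)
    obtain ⟨b, hb1, hb2⟩ := hC _ h1
    have hb3 : ‖p b‖ ≤ 1 / c - 1 := by
      refine hb2.trans ?_
      rw [dist_eq_norm] at hUT
      calc C * ‖T - U‖ ≤ (C + 1) * ‖T - U‖ := by gcongr; linarith
        _ ≤ (C + 1) * ((1 / c - 1) / (C + 1)) := by gcongr
        _ = 1 / c - 1 := by field_simp
    have h2 : (u + b.1.1, T) ∈ D.B := by
      have h3 := D.B.add_mem hu b.2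
      have h4 : (u, U) + (b : C(Γ, ℂ) × (H →L[ℂ] H)) = (u + b.1.1, T) := by
        have h5 : b.1.2 = T - U := hb1
        ext1
        · rfl
        · change U + b.1.2 = T
          rw [h5]; abel
      rwa [h4] at h3
    refine ⟨(c : ℂ) • (u + b.1.1), ?_, D.B.smul_mem h2 _⟩
    rw [norm_smul, Complex.norm_real, Real.norm_eq_abs, abs_of_pos hc0]
    calc c * ‖u + b.1.1‖ ≤ c * (‖u‖ + ‖b.1.1‖) := by gcongr; exact norm_add_le _ _
      _ ≤ c * (1 + (1 / c - 1)) := by gcongr; exact hb3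
      _ = 1 := by field_simp; ring
  have hstate : ∀ b ∈ D.B, ‖⟪x, b.2 x⟫_ℂ‖ ≤ ‖b.1‖ := by
    intro b hb
    -- for all `c < 1`, `c * ‖<x, b x>‖ ≤ ‖b.1‖`
    have key : ∀ c : ℝ, 0 < c → c < 1 → c * ‖⟪x, b.2 x⟫_ℂ‖ ≤ ‖b.1‖ := by
      intro c hc0 hc1
      obtain ⟨f, hf1, hf⟩ := hfam c hc0 hc1
      have h1 := hbound _ (D.B.mul_mem hb hf)
      have h2 : (b.2 * ((c : ℂ) • T)) y = ((c * ‖T‖ : ℝ) : ℂ) • b.2 x := by
        rw [mul_apply_eq_comp]
        change b.2 ((c : ℂ) • T y) = _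
        rw [hTy, smul_smul, map_smul]
        push_cast
        rfl
      have h3 : (c * ‖T‖) * ‖⟪x, b.2 x⟫_ℂ‖ ≤ ‖T‖ * ‖b.1‖ := by
        calc (c * ‖T‖) * ‖⟪x, b.2 x⟫_ℂ‖ ≤ (c * ‖T‖) * (‖x‖ * ‖b.2 x‖) := by
              gcongr; exact norm_inner_le_norm _ _
          _ = ‖(b.2 * ((c : ℂ) • T)) y‖ := by
              rw [h2, norm_smul, Complex.norm_real, Real.norm_eq_abs,
                abs_of_pos (by positivity), hx, one_mul]
          _ ≤ ‖b.2 * ((c : ℂ) • T)‖ * ‖y‖ := ContinuousLinearMap.le_opNorm _ _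
          _ ≤ (‖T‖ * ‖b.1 * f‖) * ‖y‖ := by gcongr; exact h1
          _ ≤ (‖T‖ * (‖b.1‖ * ‖f‖)) * ‖y‖ := by gcongr; exact norm_mul_le _ _
          _ ≤ (‖T‖ * (‖b.1‖ * 1)) * 1 := by gcongr; exact hy.le
          _ = _ := by ring
      have h4 : ‖T‖ * (c * ‖⟪x, b.2 x⟫_ℂ‖) ≤ ‖T‖ * ‖b.1‖ := by linarith
      exact le_of_mul_le_mul_left h4 hTpos
    have hlim : Filter.Tendsto (fun c : ℝ => c * ‖⟪x, b.2 x⟫_ℂ‖) (nhdsWithin 1 (Set.Iio 1))
        (nhds (1 * ‖⟪x, b.2 x⟫_ℂ‖)) := by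
      apply Filter.Tendsto.mono_left _ nhdsWithin_le_nhds
      exact (continuous_id.mul continuous_const).tendsto 1
    rw [one_mul] at hlim
    refine le_of_tendsto hlim ?_
    have : Set.Ioo (0 : ℝ) 1 ∈ nhdsWithin (1 : ℝ) (Set.Iio 1) :=
      Ioo_mem_nhdsLT zero_lt_one
    filter_upwards [this] with c hc using key c hc.1 hc.2
  obtain ⟨N, hN, hNB⟩ := exists_state D.B x hx hstate
  have hc0 : 0 < κ / ‖T‖ := by positivity
  have hc1 : κ / ‖T‖ < 1 := (div_lt_one hTpos).2 hκT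
  obtain ⟨f, hf1, hf⟩ := hfam _ hc0 hc1
  have hmul : ((κ / ‖T‖ : ℝ) : ℂ) * ((‖T‖ : ℝ) : ℂ) = (κ : ℂ) := by
    rw [← Complex.ofReal_mul, div_mul_cancel₀ _ hTpos.ne']
  refine ⟨⟨hbound, x, y, hx, hy, f, _, hf, hf1, ?_, ?_, N, hN, hNB⟩⟩
  · rw [_root_.smul_apply, hTy, smul_smul, hmul]
  · rw [map_smulₛₗ, _root_.smul_apply, hTx, smul_smul, Complex.conj_ofReal, hmul]

/-- The numerical conclusion. -/
theorem CoreData.bound_main (D : CoreData Γ H E) : ∀ b ∈ D.B, ‖b.2‖ ≤ 12 / 5 * ‖b.1‖ := by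
  obtain ⟨K₀, hK, hex⟩ := exists_extremal D
  have hK1 : K₀ ≤ 2415 / 1000 := by
    by_contra hcon
    push Not at hcon
    obtain ⟨X⟩ := hex (2415 / 1000) (by norm_num) hcon
    obtain ⟨a, b, c, t, ht0, ht2, ha, -⟩ := X.estimates (by norm_num)
    nlinarith [sq_nonneg t]
  have hK2 : K₀ ≤ 12 / 5 := by
    by_contra hcon
    push Not at hcon
    obtain ⟨X⟩ := hex (12 / 5) (by norm_num) hcon
    obtain ⟨a, b, c, t, ht0, ht2, ha, hb, h3, h4, h5⟩ := X.estimates (by norm_num)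
    have e1 : Real.sqrt (2 - 2 * a) ≤ ((2 - 2 * a) / (9/100) + 9/100) / 2 := by
      apply Real.sqrt_le_iff.2
      constructor
      · nlinarith
      · nlinarith [sq_nonneg ((2 - 2 * a) / (9/100) - 9/100)]
    have e2 : Real.sqrt (2 - 2 * b) ≤ ((2 - 2 * b) / (73/100) + 73/100) / 2 := by
      apply Real.sqrt_le_iff.2
      constructor
      · nlinarith
      · nlinarith [sq_nonneg ((2 - 2 * b) / (73/100) - 73/100)]
    have e3 : t * K₀ ≤ t * (2415 / 1000) := by gcongr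
    have ha' : a = 12 / 5 * t ^ 2 + 24 / 25 := by linarith
    subst ha'
    nlinarith [sq_nonneg (t - 1289 / 10000)]
  intro b hb
  exact (hK b hb).trans (by gcongr)

end Vale.P123
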