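import Vale.Agent.P123.Defs

/-!
# P123: Toeplitz–Hausdorff, compactness, and reduction to finite dimension
-/

namespace Vale.P123

open Complex
open scoped InnerProductSpace ComplexConjugate

section TH

variable {H : Type*} [NormedAddCommGroup H] [InnerProductSpace ℂ H]

/-- a unit complex number making `w * a + conj w * b` real. -/
lemma exists_phase (a b : ℂ) : ∃ w : ℂ, ‖w‖ = 1 ∧ (w * a + conj w * b).im = 0 := by
  by_cases h : a - conj b = 0
  · refine ⟨1, by simp, ?_⟩
    have : a = conj b := sub_eq_zero.1 h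
    rw [this]
    simp
  · refine ⟨conj (a - conj b) / (‖a - conj b‖ : ℂ), ?_, ?_⟩
    · rw [norm_div, norm_conj, norm_real, norm_norm, div_self (norm_ne_zero_iff.2 h)]
    · set c := a - conj b with hc
      have hcn : (‖c‖ : ℂ) ≠ 0 := by exact_mod_cast norm_ne_zero_iff.2 h
      have h1 : (conj c / (‖c‖ : ℂ) * a + conj (conj c / (‖c‖ : ℂ)) * b).im =
          (conj c / (‖c‖ : ℂ) * c).im := by
        have h2 : (conj (conj c / (‖c‖ : ℂ)) * b).im = -(conj c / (‖c‖ : ℂ) * conj b).im := by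
          rw [← conj_im, map_mul, conj_conj]
        rw [add_im, h2, ← sub_eq_add_neg, ← sub_im, ← mul_sub]
      rw [h1]
      have h3 : conj c / (‖c‖ : ℂ) * c = ((‖c‖ : ℝ) : ℂ) := by
        rw [div_mul_eq_mul_div, conj_mul', div_eq_iff hcn]
        ring
      rw [h3, ofReal_im]

lemma mem_numRange_of_form (B : H →L[ℂ] H) (v : H) (hv : v ≠ 0) (F : ℝ)
    (h : inner ℂ v (B v) = (F : ℂ)) : ((F / ‖v‖ ^ 2 : ℝ) : ℂ) ∈ numRange B := by
  have hn : ‖v‖ ≠ 0 := norm_ne_zero_iff.2 hv
  refine ⟨((‖v‖⁻¹ : ℝ) : ℂ) • v, ?_, ?_⟩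
  · rw [norm_smul, norm_real, norm_inv, norm_norm, inv_mul_cancel₀ hn]
  · rw [map_smul, inner_smul_left, inner_smul_right, h, conj_ofReal]
    push_cast
    field_simp

lemma seg_zero_one (B : H →L[ℂ] H) (x y : H) (hx : ‖x‖ = 1) (hy : ‖y‖ = 1)
    (hBx : inner ℂ x (B x) = 0) (hBy : inner ℂ y (B y) = 1) (t : ℝ) (ht0 : 0 ≤ t) (ht1 : t ≤ 1) :
    (t : ℂ) ∈ numRange B := by
  obtain ⟨w, hw, hwim⟩ := exists_phase (inner ℂ x (B y)) (inner ℂ y (B x))
  have hww : conj w * w = 1 := by
    rw [conj_mul', hw]; simp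
  set y' := w • y with hy'
  have hBy' : inner ℂ y' (B y') = 1 := by
    rw [hy', map_smul, inner_smul_left, inner_smul_right, hBy, mul_one, hww]
  set c := (inner ℂ x (B y') + inner ℂ y' (B x)) with hc
  have hcre : c = (c.re : ℂ) := by
    apply Complex.ext
    · simp
    · rw [ofReal_im, hc, hy', map_smul, inner_smul_left, inner_smul_right]
      exact hwim
  let v : ℝ → H := fun s => ((1 - s : ℝ) : ℂ) • x + ((s : ℝ) : ℂ) • y'
  have hv : ∀ s, v s ≠ 0 := by
    intro s hs
    -- x and y' are linearly independent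
    have h1 : ((1 - s : ℝ) : ℂ) • x = -(((s : ℝ) : ℂ) • y') := eq_neg_of_add_eq_zero_left hs
    by_cases h0 : s = 1
    · subst h0
      simp only [sub_self, ofReal_zero, zero_smul, ofReal_one, one_smul] at h1
      have : y' = 0 := by rw [← neg_eq_zero]; exact h1.symm
      rw [this] at hBy'
      simp at hBy'
    · have h2 : ((1 - s : ℝ) : ℂ) ≠ 0 := by
        exact_mod_cast sub_ne_zero.2 (Ne.symm h0)
      have h3 : x = (-(s : ℂ) / ((1 - s : ℝ) : ℂ)) • y' := by
        have h4 : ((1 - s : ℝ) : ℂ)⁻¹ • (((1 - s : ℝ) : ℂ) • x) =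
            ((1 - s : ℝ) : ℂ)⁻¹ • (-(((s : ℝ) : ℂ) • y')) := by rw [h1]
        rw [smul_smul, inv_mul_cancel₀ h2, one_smul] at h4
        rw [h4, ← neg_smul, smul_smul]
        congr 1
        field_simp
      set μ := (-(s : ℂ) / ((1 - s : ℝ) : ℂ)) with hμ
      rw [h3, map_smul, inner_smul_left, inner_smul_right, hBy', mul_one, conj_mul'] at hBx
      have h5 : ‖μ‖ = 0 := by
        have : (‖μ‖ : ℂ) = 0 := by
          exact pow_eq_zero_iff (two_ne_zero) |>.1 hBx
        exact_mod_cast this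
      have h6 : μ = 0 := norm_eq_zero.1 h5
      rw [h6, zero_smul] at h3
      rw [h3] at hx
      simp at hx
  let G : ℝ → ℝ := fun s => s ^ 2 + s * (1 - s) * c.re
  have hform : ∀ s, inner ℂ (v s) (B (v s)) = (G s : ℂ) := by
    intro s
    simp only [v, map_add, map_smul, inner_add_left, inner_add_right, inner_smul_left,
      inner_smul_right, conj_ofReal, hBx, hBy', G]
    have h7 : inner ℂ x (B y') = c - inner ℂ y' (B x) := by rw [hc]; ring
    rw [h7]
    rw [hcre]
    simp only [ofReal_re]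
    push_cast
    ring
  let F : ℝ → ℝ := fun s => G s / ‖v s‖ ^ 2
  have hFc : Continuous F := by
    have hvc : Continuous v := by
      simp only [v]
      fun_prop
    apply Continuous.div
    · simp only [G]; fun_prop
    · fun_prop
    · intro s
      exact pow_ne_zero _ (norm_ne_zero_iff.2 (hv s))
  have hF0 : F 0 = 0 := by simp [F, G]
  have hF1 : F 1 = 1 := by
    have : ‖y'‖ = 1 := by rw [hy', norm_smul, hw, hy, one_mul]
    simp [F, G, v, this]
  have hmem : t ∈ F '' Set.Icc 0 1 := by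
    apply intermediate_value_Icc (by norm_num) hFc.continuousOn
    rw [hF0, hF1]
    exact ⟨ht0, ht1⟩
  obtain ⟨s, _, hs⟩ := hmem
  have := mem_numRange_of_form B (v s) (hv s) (G s) (hform s)
  rw [← hs]
  exact this

/-- Toeplitz–Hausdorff: the numerical range is convex. -/
theorem numRange_convex (A : H →L[ℂ] H) : Convex ℝ (numRange A) := by
  intro z0 hz0 z1 hz1 a b ha hb hab
  by_cases hne : z0 = z1
  · subst hne
    rw [← add_smul, hab, one_smul]
    exact hz0
  obtain ⟨x, hx, rfl⟩ := hz0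
  obtain ⟨y, hy, rfl⟩ := hz1
  set z0 := inner ℂ x (A x) with hz0
  set z1 := inner ℂ y (A y) with hz1
  have hd : z1 - z0 ≠ 0 := sub_ne_zero.2 (Ne.symm hne)
  set B : H →L[ℂ] H := (z1 - z0)⁻¹ • (A - z0 • ContinuousLinearMap.id ℂ H) with hB
  have hBapp : ∀ u : H, ‖u‖ = 1 → inner ℂ u (B u) = (z1 - z0)⁻¹ * (inner ℂ u (A u) - z0) := by
    intro u hu
    rw [hB]
    simp only [smul_apply, sub_apply,
      ContinuousLinearMap.id_apply, inner_smul_right, inner_sub_right, inner_self_eq_norm_sq_to_K,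
      hu]
    simp
  obtain ⟨u, hu, hu2⟩ := seg_zero_one B x y hx hy (by rw [hBapp x hx]; simp [← hz0])
    (by rw [hBapp y hy, ← hz1, inv_mul_cancel₀ hd]) b hb (by linarith)
  refine ⟨u, hu, ?_⟩
  rw [hBapp u hu] at hu2
  have h1 : inner ℂ u (A u) = z0 + (b : ℂ) * (z1 - z0) := by
    rw [hu2]; field_simp; ring
  rw [h1]
  have ha' : a = 1 - b := by linarith
  rw [ha']
  simp only [real_smul]
  push_cast
  ring

theorem numRange_isCompact [FiniteDimensional ℂ H] (A : H →L[ℂ] H) : IsCompact (numRange A) := by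
  have : ProperSpace H := FiniteDimensional.proper ℂ H
  have h : numRange A = (fun x : H => inner ℂ x (A x)) '' Metric.sphere (0 : H) 1 := by
    ext z
    constructor
    · rintro ⟨x, hx, rfl⟩
      exact ⟨x, by simpa using hx, rfl⟩
    · rintro ⟨x, hx, rfl⟩
      exact ⟨x, by simpa using hx, rfl⟩
  rw [h]
  apply (isCompact_sphere _ _).image
  fun_prop

theorem numRange_nonempty [Nontrivial H] (A : H →L[ℂ] H) : (numRange A).Nonempty := by
  obtain ⟨x, hx⟩ := exists_ne (0 : H)
  have hx' : ‖x‖ ≠ 0 := norm_ne_zero_iff.2 hx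
  refine ⟨_, ((‖x‖⁻¹ : ℝ) : ℂ) • x, ?_, rfl⟩
  rw [norm_smul, norm_real, norm_inv, norm_norm, inv_mul_cancel₀ hx']

/-- Reduction to finite dimension. -/
theorem reduce [Nontrivial H] (C : ℝ)
    (hfin : ∀ (S : Submodule ℂ H), FiniteDimensional ℂ S → Nontrivial S →
      ∀ (T : S →L[ℂ] S) (P : Polynomial ℂ) (M : ℝ), (∀ z ∈ numRange T, ‖P.eval z‖ ≤ M) →
        ‖Polynomial.aeval T P‖ ≤ C * M) :
    ∀ (A : H →L[ℂ] H) (P : Polynomial ℂ) (M : ℝ), (∀ z ∈ numRange A, ‖P.eval z‖ ≤ M) →
      ‖Polynomial.aeval A P‖ ≤ C * M := by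
  intro A P M hM
  have key : ∀ x : H, x ≠ 0 → 0 ≤ C * M ∧ ‖Polynomial.aeval A P x‖ ≤ C * M * ‖x‖ := by
    intro x hx
    set d := P.natDegree with hd
    set S : Submodule ℂ H :=
      Submodule.span ℂ ((fun i : ℕ => (A ^ i) x) '' (Finset.range (d + 1) : Set ℕ)) with hS
    have hfd : FiniteDimensional ℂ S :=
      FiniteDimensional.span_of_finite ℂ ((Finset.finite_toSet _).image _)
    have hmem : ∀ i ≤ d, (A ^ i) x ∈ S := fun i hi =>
      Submodule.subset_span ⟨i, by simpa using Nat.lt_succ_of_le hi, rfl⟩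
    have hxS : x ∈ S := by simpa using hmem 0 (Nat.zero_le _)
    have hnt : Nontrivial S := ⟨⟨⟨x, hxS⟩, 0, fun h => hx (by simpa using congrArg Subtype.val h)⟩⟩
    set T : S →L[ℂ] S := (S.orthogonalProjectionOnto).comp (A.comp S.subtypeL) with hT
    have hTnum : numRange T ⊆ numRange A := by
      rintro z ⟨s, hs, rfl⟩
      refine ⟨(s : H), by simpa using hs, ?_⟩
      rw [hT]
      simp only [ContinuousLinearMap.comp_apply, Submodule.subtypeL_apply]
      rw [Submodule.coe_inner]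
      exact Submodule.inner_orthogonalProjectionOnto_eq_of_mem_left (K := S) s (A s)
    have h1 := hfin S hfd hnt T P M (fun z hz => hM z (hTnum hz))
    have hpow : ∀ i ≤ d, (((T ^ i) ⟨x, hxS⟩ : S) : H) = (A ^ i) x := by
      intro i
      induction i with
      | zero => intro _; simp
      | succ i ih =>
        intro hi
        have h2 := ih (by omega)
        rw [pow_succ', mul_apply_eq_comp, pow_succ', mul_apply_eq_comp,
          ← h2, hT]
        simp only [ContinuousLinearMap.comp_apply, Submodule.subtypeL_apply]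
        rw [← hT, h2]
        have h3 : A ((A ^ i) x) ∈ S := by
          have := hmem (i + 1) hi
          rwa [pow_succ', mul_apply_eq_comp] at this
        exact Submodule.starProjection_eq_self_iff.2 h3
    have hPx : ((Polynomial.aeval T P ⟨x, hxS⟩ : S) : H) = Polynomial.aeval A P x := by
      rw [Polynomial.aeval_eq_sum_range, Polynomial.aeval_eq_sum_range]
      simp only [sum_apply, smul_apply,
        AddSubmonoidClass.coe_finsetSum, Submodule.coe_smul]
      apply Finset.sum_congr rfl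
      intro i hi
      rw [hpow i (by have := Finset.mem_range.1 hi; omega)]
    refine ⟨le_trans (norm_nonneg (Polynomial.aeval T P)) h1, ?_⟩
    rw [← hPx]
    calc ‖((Polynomial.aeval T P ⟨x, hxS⟩ : S) : H)‖ = ‖Polynomial.aeval T P ⟨x, hxS⟩‖ := rfl
      _ ≤ ‖Polynomial.aeval T P‖ * ‖(⟨x, hxS⟩ : S)‖ := ContinuousLinearMap.le_opNorm _ _
      _ ≤ C * M * ‖(⟨x, hxS⟩ : S)‖ := by gcongr
      _ = C * M * ‖x‖ := rfl
  obtain ⟨x0, hx0⟩ := exists_ne (0 : H)
  apply ContinuousLinearMap.opNorm_le_bound _ (key x0 hx0).1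
  intro x
  by_cases hx : x = 0
  · subst hx; simp
  · exact (key x hx).2

end TH

end Vale.P123
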