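import Vale.Agent.P123.Assemble
import Vale.Agent.P123.Approx
import Vale.Agent.P123.TH

/-!
# P123: the bound `12/5` for all Hilbert spaces
-/

namespace Vale.P123

open Complex
open scoped Real Topology InnerProductSpace

/-- The bound with an upper bound `M` for `|P|` on the numerical range. -/
theorem bound_of_le {H : Type*} [NormedAddCommGroup H] [InnerProductSpace ℂ H] [CompleteSpace H]
    [Nontrivial H] (A : H →L[ℂ] H) (P : Polynomial ℂ) (M : ℝ)
    (hM : ∀ z ∈ numRange A, ‖P.eval z‖ ≤ M) : ‖Polynomial.aeval A P‖ ≤ 12 / 5 * M := by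
  refine reduce (12 / 5) ?_ A P M hM
  intro S hS hS' T P M hM
  exact finite_dim_bound T (numRange_isCompact T) (numRange_nonempty T)
    (fun δ hδ => exists_curve _ (numRange_isCompact T) (numRange_convex T)
      (numRange_nonempty T) δ hδ) P M hM

/-- The values of a polynomial on the numerical range are bounded. -/
lemma bddAbove_eval {H : Type*} [NormedAddCommGroup H] [InnerProductSpace ℂ H]
    (A : H →L[ℂ] H) (P : Polynomial ℂ) :
    BddAbove (Set.range fun z : numRange A => ‖P.eval (z : ℂ)‖) := by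
  obtain ⟨C, hC⟩ := (isCompact_closedBall (0 : ℂ) ‖A‖).exists_bound_of_continuousOn
    P.continuous.continuousOn
  refine ⟨C, ?_⟩
  rintro _ ⟨⟨_, x, hx, rfl⟩, rfl⟩
  apply hC
  rw [mem_closedBall_zero_iff]
  calc ‖⟪x, A x⟫_ℂ‖ ≤ ‖x‖ * ‖A x‖ := norm_inner_le_norm _ _
    _ ≤ ‖x‖ * (‖A‖ * ‖x‖) := by gcongr; exact A.le_opNorm x
    _ = ‖A‖ := by rw [hx]; ring

/-- The bound in terms of the supremum. -/
theorem bound_iSup {H : Type*} [NormedAddCommGroup H] [InnerProductSpace ℂ H] [CompleteSpace H]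
    [Nontrivial H] (A : H →L[ℂ] H) (P : Polynomial ℂ) :
    ‖Polynomial.aeval A P‖ ≤ 12 / 5 * ⨆ z : numRange A, ‖P.eval (z : ℂ)‖ :=
  bound_of_le A P _ fun z hz => le_ciSup (bddAbove_eval A P) ⟨z, hz⟩

end Vale.P123
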