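import Vale.Agent.P123.AssembleTwo
import Vale.Agent.P123.Final

/-!
# P123: the sharp bound `2` for all Hilbert spaces
-/

namespace Vale.P123

open Complex
open scoped Real Topology InnerProductSpace

/-- The bound with an upper bound `M` for `|P|` on the numerical range. -/
theorem bound_of_le_two {H : Type*} [NormedAddCommGroup H] [InnerProductSpace ℂ H] [CompleteSpace H]
    [Nontrivial H] (A : H →L[ℂ] H) (P : Polynomial ℂ) (M : ℝ)
    (hM : ∀ z ∈ numRange A, ‖P.eval z‖ ≤ M) : ‖Polynomial.aeval A P‖ ≤ 2 * M := by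
  refine reduce 2 ?_ A P M hM
  intro S hS hS' T P M hM
  exact finite_dim_bound_two T (numRange_isCompact T) (numRange_nonempty T)
    (fun δ hδ => exists_curve _ (numRange_isCompact T) (numRange_convex T)
      (numRange_nonempty T) δ hδ) P M hM

/-- The bound in terms of the supremum. -/
theorem bound_iSup_two {H : Type*} [NormedAddCommGroup H] [InnerProductSpace ℂ H] [CompleteSpace H]
    [Nontrivial H] (A : H →L[ℂ] H) (P : Polynomial ℂ) :
    ‖Polynomial.aeval A P‖ ≤ 2 * ⨆ z : numRange A, ‖P.eval (z : ℂ)‖ :=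
  bound_of_le_two A P _ fun z hz => le_ciSup (bddAbove_eval A P) ⟨z, hz⟩

end Vale.P123
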