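import Vale.Agent.P123.Curve

/-!
# P123: the double layer operator is Markov
-/

namespace Vale.P123

open Complex MeasureTheory intervalIntegral
open scoped Real Topology

namespace ConvexCurve

variable (c : ConvexCurve)

/-- The curve as a subset of the plane. -/
abbrev Γ : Set ℂ := Set.range c.σ

instance : CompactSpace c.Γ :=
  isCompact_iff_compactSpace.1
    (c.periodic_σ.compact_of_continuous (by positivity) c.continuous_σ)

instance : Nonempty c.Γ := ⟨⟨c.σ 0, 0, rfl⟩⟩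

/-- The point with parameter `θ`. -/
def pt (θ : ℝ) : c.Γ := ⟨c.σ θ, θ, rfl⟩

lemma continuous_pt : Continuous c.pt := c.continuous_σ.subtype_mk _

lemma pt_per (θ : ℝ) : c.pt (θ + 2 * π) = c.pt θ := Subtype.ext (c.σ_per θ)

lemma exists_pt (ζ : c.Γ) : ∃ θ, c.pt θ = ζ := by
  obtain ⟨θ, hθ⟩ := ζ.2
  exact ⟨θ, Subtype.ext hθ⟩

lemma exists_bound_σ : ∃ R : ℝ, 0 < R ∧ ∀ θ, ‖c.σ θ‖ ≤ R := by
  obtain ⟨R, hR⟩ := (c.periodic_σ.compact_of_continuous (by positivity)
    c.continuous_σ).isBounded.exists_norm_le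
  exact ⟨max R 1, by positivity, fun θ => (hR _ ⟨θ, rfl⟩).trans (le_max_left _ _)⟩

lemma exists_bound_r : ∃ R : ℝ, 0 < R ∧ ∀ θ, c.r θ ≤ R := by
  obtain ⟨R, hR⟩ := (c.periodic_r.compact_of_continuous (by positivity)
    c.r_cont).isBounded.exists_norm_le
  exact ⟨max R 1, by positivity, fun θ =>
    ((le_abs_self _).trans (hR _ ⟨θ, rfl⟩)).trans (le_max_left _ _)⟩

/-- The double layer potential. -/
noncomputable def dl (φ : C(c.Γ, ℂ)) (z : ℂ) : ℂ :=
  ∫ θ in (0 : ℝ)..(2 * π), (c.ker z θ : ℂ) * φ (c.pt θ)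

lemma continuous_dl_integrand (φ : C(c.Γ, ℂ)) {z : ℂ} (hz : c.Inside z) :
    Continuous fun θ => (c.ker z θ : ℂ) * φ (c.pt θ) :=
  (continuous_ofReal.comp (c.continuous_ker hz)).mul (φ.continuous.comp c.continuous_pt)

lemma integral_ker_period_C {z : ℂ} (hz : c.Inside z) :
    ∫ θ in (0 : ℝ)..(2 * π), (c.ker z θ : ℂ) = 2 := by
  rw [intervalIntegral.integral_ofReal, c.integral_ker_period hz]
  norm_num

lemma dl_one {z : ℂ} (hz : c.Inside z) : c.dl 1 z = 2 := by
  unfold dl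
  simp only [ContinuousMap.one_apply, mul_one]
  exact c.integral_ker_period_C hz

lemma dl_add (φ ψ : C(c.Γ, ℂ)) {z : ℂ} (hz : c.Inside z) :
    c.dl (φ + ψ) z = c.dl φ z + c.dl ψ z := by
  unfold dl
  rw [← intervalIntegral.integral_add
    ((c.continuous_dl_integrand φ hz).intervalIntegrable _ _)
    ((c.continuous_dl_integrand ψ hz).intervalIntegrable _ _)]
  congr 1
  ext θ
  rw [ContinuousMap.add_apply]; ring

lemma dl_smul (a : ℂ) (φ : C(c.Γ, ℂ)) (z : ℂ) : c.dl (a • φ) z = a * c.dl φ z := by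
  unfold dl
  rw [← intervalIntegral.integral_const_mul]
  congr 1
  ext θ
  rw [ContinuousMap.smul_apply, smul_eq_mul]; ring

/-- difference of the kernels at two points -/
lemma ker_sub_le {z z' : ℂ} (hz : c.Inside z) (hz' : c.Inside z') (θ : ℝ) :
    |c.ker z θ - c.ker z' θ| ≤ c.r θ / π * (‖z - z'‖ / (‖c.σ θ - z‖ * ‖c.σ θ - z'‖)) := by
  unfold ker
  rw [← sub_div, abs_div, abs_of_pos Real.pi_pos, ← sub_im]
  have h1 : c.dσ θ / (c.σ θ - z) - c.dσ θ / (c.σ θ - z')
      = c.dσ θ * ((z - z') / ((c.σ θ - z) * (c.σ θ - z'))) := by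
    have := c.inside_ne hz θ
    have := c.inside_ne hz' θ
    field_simp
    ring
  have h2 : ‖c.dσ θ / (c.σ θ - z) - c.dσ θ / (c.σ θ - z')‖
      = c.r θ * (‖z - z'‖ / (‖c.σ θ - z‖ * ‖c.σ θ - z'‖)) := by
    rw [h1, norm_mul, norm_div, norm_mul, c.norm_dσ]
  have h3 := abs_im_le_norm (c.dσ θ / (c.σ θ - z) - c.dσ θ / (c.σ θ - z'))
  rw [h2] at h3
  calc _ ≤ c.r θ * (‖z - z'‖ / (‖c.σ θ - z‖ * ‖c.σ θ - z'‖)) / π := by
        gcongr
    _ = _ := by ring

/-- The key uniform estimate. -/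
lemma dl_diff (φ : C(c.Γ, ℂ)) (h0 : c.Inside 0) {ε : ℝ} (hε : 0 < ε) :
    ∃ δ : ℝ, 0 < δ ∧ ∀ ζ : c.Γ, ∀ ρ ρ' : ℝ, 0 ≤ ρ → ρ < 1 → 0 ≤ ρ' → ρ' < 1 →
      1 - ρ < δ → 1 - ρ' < δ → ‖c.dl φ (ρ * ζ) - c.dl φ (ρ' * ζ)‖ ≤ ε := by
  obtain ⟨R, hR0, hR⟩ := c.exists_bound_σ
  obtain ⟨S, hS0, hS⟩ := c.exists_bound_r
  obtain ⟨η, hη0, hη⟩ := Metric.uniformContinuous_iff.1
    (CompactSpace.uniformContinuous_of_continuous φ.continuous) (ε / 8) (by positivity)
  set F : ℝ := ‖φ‖ + 1 with hF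
  have hF0 : 0 < F := by positivity
  set A : ℝ := 2 * F * (S / π * (4 / η ^ 2)) with hA
  have hA0 : 0 < A := by positivity
  refine ⟨min (η / (2 * R)) (ε / (2 * (A * R * (2 * π)))), by positivity, ?_⟩
  intro ζ ρ ρ' hρ0 hρ1 hρ'0 hρ'1 hρ hρ'
  obtain ⟨s, hs⟩ := ζ.2
  have hζ : (ζ : ℂ) = c.σ s := hs.symm
  have hζR : ‖(ζ : ℂ)‖ ≤ R := by rw [hζ]; exact hR s
  set z : ℂ := ρ * ζ with hz
  set z' : ℂ := ρ' * ζ with hz'
  have hin : c.Inside z := by rw [hz, hζ]; exact c.inside_smul h0 hρ0 hρ1 s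
  have hin' : c.Inside z' := by rw [hz', hζ]; exact c.inside_smul h0 hρ'0 hρ'1 s
  have hzz : ‖z - z'‖ ≤ ε / (2 * (A * (2 * π))) := by
    have h1 : z - z' = ((ρ - ρ' : ℝ) : ℂ) * ζ := by rw [hz, hz']; push_cast; ring
    rw [h1, norm_mul, norm_real, Real.norm_eq_abs]
    have h2 : |ρ - ρ'| ≤ ε / (2 * (A * R * (2 * π))) := by
      rw [abs_le]
      have a1 := (lt_min_iff.1 hρ).2
      have a2 := (lt_min_iff.1 hρ').2
      constructor <;> linarith
    calc |ρ - ρ'| * ‖(ζ : ℂ)‖ ≤ ε / (2 * (A * R * (2 * π))) * R := by gcongr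
      _ = _ := by field_simp
  have hdist : ∀ t : ℝ, 0 ≤ t → t < 1 → 1 - t < min (η / (2 * R)) (ε / (2 * (A * R * (2 * π)))) →
      ∀ θ, η ≤ dist (c.pt θ) ζ → η / 2 ≤ ‖c.σ θ - t * ζ‖ := by
    intro t _ ht1 ht θ hθ
    have h1 : dist (c.pt θ) ζ = ‖c.σ θ - ζ‖ := by
      rw [Subtype.dist_eq, dist_eq_norm]; rfl
    rw [h1] at hθ
    have h2 : c.σ θ - ζ = (c.σ θ - t * ζ) - ((1 - t : ℝ) : ℂ) * ζ := by push_cast; ring
    have h3 : ‖c.σ θ - ζ‖ ≤ ‖c.σ θ - t * ζ‖ + (1 - t) * R := by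
      rw [h2]
      refine (norm_sub_le _ _).trans ?_
      rw [norm_mul, norm_real, Real.norm_eq_abs, abs_of_pos (by linarith : 0 < 1 - t)]
      gcongr
    have h4 : (1 - t) * R ≤ η / 2 := by
      calc (1 - t) * R ≤ η / (2 * R) * R := by
            gcongr; exact (lt_min_iff.1 ht).1.le
        _ = _ := by field_simp
    linarith
  have hI : c.dl φ z - c.dl φ z'
      = ∫ θ in (0 : ℝ)..(2 * π), (φ (c.pt θ) - φ ζ) * ((c.ker z θ : ℂ) - c.ker z' θ) := by
    have e1 : ∀ w : ℂ, c.Inside w → c.dl φ w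
        = (∫ θ in (0 : ℝ)..(2 * π), (φ (c.pt θ) - φ ζ) * (c.ker w θ : ℂ)) + φ ζ * 2 := by
      intro w hw
      rw [← c.integral_ker_period_C hw, ← intervalIntegral.integral_const_mul,
        ← intervalIntegral.integral_add]
      · unfold dl
        congr 1; ext θ; ring
      · apply Continuous.intervalIntegrable
        exact ((φ.continuous.comp c.continuous_pt).sub continuous_const).mul
          (continuous_ofReal.comp (c.continuous_ker hw))
      · apply Continuous.intervalIntegrable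
        exact continuous_const.mul (continuous_ofReal.comp (c.continuous_ker hw))
    rw [e1 z hin, e1 z' hin', add_sub_add_right_eq_sub, ← intervalIntegral.integral_sub]
    · congr 1; ext θ; ring
    · apply Continuous.intervalIntegrable
      exact ((φ.continuous.comp c.continuous_pt).sub continuous_const).mul
        (continuous_ofReal.comp (c.continuous_ker hin))
    · apply Continuous.intervalIntegrable
      exact ((φ.continuous.comp c.continuous_pt).sub continuous_const).mul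
        (continuous_ofReal.comp (c.continuous_ker hin'))
  rw [hI]
  have hbound : ∀ θ : ℝ, ‖(φ (c.pt θ) - φ ζ) * ((c.ker z θ : ℂ) - c.ker z' θ)‖
      ≤ ε / 8 * (c.ker z θ + c.ker z' θ) + A * ‖z - z'‖ := by
    intro θ
    rw [norm_mul, ← ofReal_sub, norm_real, Real.norm_eq_abs]
    have k1 := c.ker_pos hin θ
    have k2 := c.ker_pos hin' θ
    by_cases hd : dist (c.pt θ) ζ < η
    · have h1 := hη hd
      rw [dist_eq_norm] at h1
      have h2 : |c.ker z θ - c.ker z' θ| ≤ c.ker z θ + c.ker z' θ := by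
        rw [abs_le]; constructor <;> linarith
      have h3 : 0 ≤ A * ‖z - z'‖ := by positivity
      calc ‖φ (c.pt θ) - φ ζ‖ * |c.ker z θ - c.ker z' θ|
          ≤ ε / 8 * (c.ker z θ + c.ker z' θ) := by gcongr
        _ ≤ _ := by linarith
    · push Not at hd
      have h1 := hdist ρ hρ0 hρ1 hρ θ hd
      have h2 := hdist ρ' hρ'0 hρ'1 hρ' θ hd
      rw [← hz] at h1
      rw [← hz'] at h2
      have h3 : ‖φ (c.pt θ) - φ ζ‖ ≤ 2 * F := by
        refine (norm_sub_le _ _).trans ?_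
        have a1 := φ.norm_coe_le_norm (c.pt θ)
        have a2 := φ.norm_coe_le_norm ζ
        linarith
      have h4 : |c.ker z θ - c.ker z' θ| ≤ S / π * (4 / η ^ 2) * ‖z - z'‖ := by
        refine (c.ker_sub_le hin hin' θ).trans ?_
        have h5 : η / 2 * (η / 2) ≤ ‖c.σ θ - z‖ * ‖c.σ θ - z'‖ := by gcongr
        calc c.r θ / π * (‖z - z'‖ / (‖c.σ θ - z‖ * ‖c.σ θ - z'‖))
            ≤ S / π * (‖z - z'‖ / (η / 2 * (η / 2))) := by
              gcongr; exact hS θ
          _ = _ := by field_simp; ring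
      have h5 : 0 ≤ ε / 8 * (c.ker z θ + c.ker z' θ) := by positivity
      calc ‖φ (c.pt θ) - φ ζ‖ * |c.ker z θ - c.ker z' θ|
          ≤ 2 * F * (S / π * (4 / η ^ 2) * ‖z - z'‖) := by gcongr
        _ = A * ‖z - z'‖ := by rw [hA]; ring
        _ ≤ _ := by linarith
  have hcont : Continuous fun θ => ε / 8 * (c.ker z θ + c.ker z' θ) + A * ‖z - z'‖ :=
    (continuous_const.mul ((c.continuous_ker hin).add (c.continuous_ker hin'))).add
      continuous_const
  refine (intervalIntegral.norm_integral_le_of_norm_le (by positivity)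
    (Filter.Eventually.of_forall fun θ _ => hbound θ) (hcont.intervalIntegrable _ _)).trans ?_
  rw [intervalIntegral.integral_add, intervalIntegral.integral_const_mul,
    intervalIntegral.integral_add, c.integral_ker_period hin, c.integral_ker_period hin',
    intervalIntegral.integral_const]
  · have h1 : A * ‖z - z'‖ * (2 * π) ≤ ε / 2 := by
      calc A * ‖z - z'‖ * (2 * π) ≤ A * (ε / (2 * (A * (2 * π)))) * (2 * π) := by gcongr
        _ = ε / 2 := by field_simp
    simp only [smul_eq_mul, sub_zero]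
    linarith
  · exact (c.continuous_ker hin).intervalIntegrable _ _
  · exact (c.continuous_ker hin').intervalIntegrable _ _
  · apply Continuous.intervalIntegrable
    exact continuous_const.mul ((c.continuous_ker hin).add (c.continuous_ker hin'))
  · exact intervalIntegrable_const

/-- A sequence increasing to `1`. -/
noncomputable def rho (n : ℕ) : ℝ := 1 - 1 / (n + 2)

lemma rho_nonneg (n : ℕ) : 0 ≤ rho n := by
  unfold rho
  have : 1 / ((n : ℝ) + 2) ≤ 1 := by
    rw [div_le_one (by positivity)]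
    have : (0 : ℝ) ≤ n := Nat.cast_nonneg n
    linarith
  linarith

lemma rho_lt_one (n : ℕ) : rho n < 1 := by
  unfold rho
  have : 0 < 1 / ((n : ℝ) + 2) := by positivity
  linarith

lemma tendsto_rho : Filter.Tendsto rho Filter.atTop (𝓝 1) := by
  unfold rho
  have h1 : Filter.Tendsto (fun n : ℕ => 1 / ((n : ℝ) + 2)) Filter.atTop (𝓝 0) := by
    apply Filter.Tendsto.div_atTop tendsto_const_nhds
    exact Filter.tendsto_atTop_add_const_right _ _ tendsto_natCast_atTop_atTop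
  simpa using tendsto_const_nhds.sub h1

/-- The dilated double layer operator `φ ↦ D φ (ρ ·)`. -/
noncomputable def dlMap (h0 : c.Inside 0) (n : ℕ) : C(c.Γ, ℂ) →ₗ[ℂ] C(c.Γ, ℂ) where
  toFun φ :=
    { toFun := fun ζ => c.dl φ (rho n * ζ)
      continuous_toFun := by
        unfold dl
        apply intervalIntegral.continuous_parametric_intervalIntegral_of_continuous'
        have h1 : ∀ p : c.Γ × ℝ, c.σ p.2 - rho n * (p.1 : ℂ) ≠ 0 := by
          rintro ⟨⟨_, s, rfl⟩, θ⟩
          exact c.inside_ne (c.inside_smul h0 (rho_nonneg n) (rho_lt_one n) s) θ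
        have h2 : Continuous fun p : c.Γ × ℝ => c.ker (rho n * (p.1 : ℂ)) p.2 := by
          unfold ker
          apply Continuous.div_const
          apply continuous_im.comp
          apply Continuous.div (c.continuous_dσ.comp continuous_snd) _ h1
          exact (c.continuous_σ.comp continuous_snd).sub
            (continuous_const.mul (continuous_subtype_val.comp continuous_fst))
        exact (continuous_ofReal.comp h2).mul
          (φ.continuous.comp (c.continuous_pt.comp continuous_snd)) }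
  map_add' φ ψ := by
    ext ⟨_, s, rfl⟩
    exact c.dl_add φ ψ (c.inside_smul h0 (rho_nonneg n) (rho_lt_one n) s)
  map_smul' a φ := by
    ext ζ
    exact c.dl_smul a φ _

lemma dlMap_cauchy (h0 : c.Inside 0) (φ : C(c.Γ, ℂ)) :
    CauchySeq fun n => c.dlMap h0 n φ := by
  rw [Metric.cauchySeq_iff]
  intro ε hε
  obtain ⟨δ, hδ, h⟩ := c.dl_diff φ h0 (half_pos hε)
  have h1 : ∀ᶠ n in Filter.atTop, 1 - rho n < δ := by
    have := (tendsto_rho.const_sub 1)
    rw [sub_self] at this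
    exact this.eventually_lt_const hδ
  obtain ⟨N, hN⟩ := Filter.eventually_atTop.1 h1
  refine ⟨N, fun m hm n hn => ?_⟩
  rw [dist_eq_norm]
  refine lt_of_le_of_lt ?_ (half_lt_self hε)
  rw [ContinuousMap.norm_le _ (half_pos hε).le]
  intro ζ
  exact h ζ _ _ (rho_nonneg m) (rho_lt_one m) (rho_nonneg n) (rho_lt_one n) (hN m hm) (hN n hn)

/-- The boundary limit of the double layer potential. -/
noncomputable def bdry (h0 : c.Inside 0) : C(c.Γ, ℂ) →ₗ[ℂ] C(c.Γ, ℂ) :=
  linearMapOfTendsto (l := Filter.atTop)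
    (fun φ => (cauchySeq_tendsto_of_complete (c.dlMap_cauchy h0 φ)).choose)
    (fun n => c.dlMap h0 n)
    (tendsto_pi_nhds.2 fun φ => (cauchySeq_tendsto_of_complete (c.dlMap_cauchy h0 φ)).choose_spec)

lemma bdry_tendsto (h0 : c.Inside 0) (φ : C(c.Γ, ℂ)) :
    Filter.Tendsto (fun n => c.dlMap h0 n φ) Filter.atTop (𝓝 (c.bdry h0 φ)) :=
  (cauchySeq_tendsto_of_complete (c.dlMap_cauchy h0 φ)).choose_spec

/-- The Neumann-Poincare type operator `K φ = (boundary values of D φ) - φ`. -/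
noncomputable def markov (h0 : c.Inside 0) : C(c.Γ, ℂ) →ₗ[ℂ] C(c.Γ, ℂ) :=
  c.bdry h0 - LinearMap.id

lemma bdry_apply_tendsto (h0 : c.Inside 0) (φ : C(c.Γ, ℂ)) (ζ : c.Γ) :
    Filter.Tendsto (fun n => c.dl φ (rho n * ζ)) Filter.atTop (𝓝 (c.bdry h0 φ ζ)) := by
  have h1 := c.bdry_tendsto h0 φ
  have h2 : Continuous fun f : C(c.Γ, ℂ) => f ζ := ContinuousEvalConst.continuous_eval_const ζ
  exact (h2.tendsto _).comp h1

lemma bdry_one (h0 : c.Inside 0) : c.bdry h0 1 = 2 := by
  ext ζ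
  apply tendsto_nhds_unique (c.bdry_apply_tendsto h0 1 ζ)
  obtain ⟨_, s, rfl⟩ := ζ
  have : (fun n => c.dl 1 (rho n * c.σ s)) = fun _ => (2 : ℂ) := by
    ext n
    exact c.dl_one (c.inside_smul h0 (rho_nonneg n) (rho_lt_one n) s)
  simp only [this]
  exact tendsto_const_nhds

lemma dl_real (ψ : C(c.Γ, ℂ)) (him : ∀ ζ, (ψ ζ).im = 0) (z : ℂ) :
    c.dl ψ z = ((∫ θ in (0 : ℝ)..(2 * π), c.ker z θ * (ψ (c.pt θ)).re : ℝ) : ℂ) := by
  unfold dl
  rw [← intervalIntegral.integral_ofReal]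
  congr 1
  ext θ
  rw [ofReal_mul]
  congr 1
  apply Complex.ext
  · simp
  · simp [him]

/-- Lower bound for the boundary values. -/
lemma bdry_lower (h0 : c.Inside 0) (ψ : C(c.Γ, ℂ)) (hre : ∀ ζ, 0 ≤ (ψ ζ).re)
    (him : ∀ ζ, (ψ ζ).im = 0) (ζ : c.Γ) : (ψ ζ).re ≤ (c.bdry h0 ψ ζ).re := by
  obtain ⟨θ₀, rfl⟩ := c.exists_pt ζ
  set R : C(c.Γ, ℝ) := ⟨fun ζ => (ψ ζ).re, continuous_re.comp ψ.continuous⟩ with hR
  have hlim : Filter.Tendsto (fun n => (c.dl ψ (rho n * c.σ θ₀)).re) Filter.atTop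
      (𝓝 (c.bdry h0 ψ (c.pt θ₀)).re) :=
    (continuous_re.tendsto _).comp (c.bdry_apply_tendsto h0 ψ (c.pt θ₀))
  -- reduce to an epsilon statement
  apply le_of_forall_pos_le_add
  intro ε hε
  have hcont : Continuous fun θ => (ψ (c.pt θ)).re :=
    continuous_re.comp (ψ.continuous.comp c.continuous_pt)
  obtain ⟨η₀, hη₀, hη₀'⟩ := Metric.continuousAt_iff.1 (hcont.continuousAt (x := θ₀)) ε hε
  set η : ℝ := min (η₀ / 2) (π / 2) with hηdef
  have hη : 0 < η := by positivity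
  have hη1 : η ≤ π / 2 := min_le_right _ _
  have hη2 : η < η₀ := lt_of_le_of_lt (min_le_left _ _) (half_lt_self hη₀)
  set b := (ψ (c.pt θ₀)).re with hb
  have hnear : ∀ θ ∈ Set.Icc (θ₀ - η) (θ₀ + η), b - ε ≤ (ψ (c.pt θ)).re := by
    intro θ hθ
    have : dist θ θ₀ < η₀ := by
      rw [Real.dist_eq, abs_lt]; constructor <;> linarith [hθ.1, hθ.2]
    have := hη₀' this
    rw [Real.dist_eq] at this
    linarith [(abs_lt.1 this).1]
  obtain ⟨m, hm1, hmc, hmm⟩ := c.near_mass θ₀ η hη hη1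
  have hz : Filter.Tendsto (fun n => (rho n : ℂ) * c.σ θ₀) Filter.atTop (𝓝 (c.σ θ₀)) := by
    have := ((continuous_ofReal.tendsto _).comp tendsto_rho).mul_const (c.σ θ₀)
    simpa using this
  have hmass : Filter.Tendsto (fun n => ∫ θ in (θ₀ - η)..(θ₀ + η), c.ker (rho n * c.σ θ₀) θ)
      Filter.atTop (𝓝 m) := by
    have h1 := hmc.tendsto.comp hz
    rw [hmm] at h1
    refine h1.congr fun n => ?_
    rw [c.integral_ker (c.inside_smul h0 (rho_nonneg n) (rho_lt_one n) θ₀)]
    rfl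
  by_cases hbε : b ≤ ε
  · -- trivial case
    have : 0 ≤ (c.bdry h0 ψ (c.pt θ₀)).re := by
      refine ge_of_tendsto' hlim fun n => ?_
      rw [c.dl_real ψ him, ofReal_re]
      apply intervalIntegral.integral_nonneg (by positivity)
      intro θ _
      exact mul_nonneg
        (c.ker_pos (c.inside_smul h0 (rho_nonneg n) (rho_lt_one n) θ₀) θ).le (hre _)
    linarith
  push Not at hbε
  have hle : ∀ n, (b - ε) * (∫ θ in (θ₀ - η)..(θ₀ + η), c.ker (rho n * c.σ θ₀) θ)
      ≤ (c.dl ψ (rho n * c.σ θ₀)).re := by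
    intro n
    have hin := c.inside_smul h0 (rho_nonneg n) (rho_lt_one n) θ₀
    have hkc := c.continuous_ker hin
    have hprod : Continuous fun θ => c.ker (rho n * c.σ θ₀) θ * (ψ (c.pt θ)).re :=
      hkc.mul hcont
    rw [c.dl_real ψ him, ofReal_re]
    have hper : Function.Periodic (fun θ => c.ker (rho n * c.σ θ₀) θ * (ψ (c.pt θ)).re)
        (2 * π) := by
      intro θ
      simp only [c.pt_per]
      congr 1
      unfold ker
      rw [c.periodic_dσ, c.σ_per]
    have h1 := hper.intervalIntegral_add_eq 0 (θ₀ - π)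
    rw [zero_add] at h1
    rw [h1]
    have h2 : ∫ θ in (θ₀ - η)..(θ₀ + η), c.ker (rho n * c.σ θ₀) θ * (ψ (c.pt θ)).re
        ≤ ∫ θ in (θ₀ - π)..(θ₀ - π + 2 * π), c.ker (rho n * c.σ θ₀) θ * (ψ (c.pt θ)).re := by
      apply intervalIntegral.integral_mono_interval
      · linarith [Real.pi_pos]
      · linarith
      · linarith [Real.pi_pos]
      · exact Filter.Eventually.of_forall fun θ => mul_nonneg (c.ker_pos hin θ).le (hre _)
      · exact hprod.intervalIntegrable _ _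
    refine le_trans ?_ h2
    rw [← intervalIntegral.integral_const_mul]
    apply intervalIntegral.integral_mono_on (by linarith)
    · exact (continuous_const.mul hkc).intervalIntegrable _ _
    · exact hprod.intervalIntegrable _ _
    · intro θ hθ
      rw [mul_comm]
      have := (c.ker_pos hin θ).le
      gcongr
      exact hnear θ hθ
  have h3 : (b - ε) * m ≤ (c.bdry h0 ψ (c.pt θ₀)).re :=
    le_of_tendsto_of_tendsto' (hmass.const_mul _) hlim hle
  nlinarith

/-- The operator `markov` is Markov. -/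
lemma isMarkov (h0 : c.Inside 0) : IsMarkov (c.markov h0) := by
  have hsq : ∀ (φ : C(c.Γ, ℂ)) (ζ : c.Γ), (star φ * φ) ζ = ((‖φ ζ‖ ^ 2 : ℝ) : ℂ) := by
    intro φ ζ
    simp only [ContinuousMap.mul_apply, ContinuousMap.star_apply, RCLike.star_def]
    rw [conj_mul']
    push_cast
    rfl
  refine ⟨?_, fun φ ζ => ?_, fun φ ζ => ?_⟩
  · unfold markov
    rw [LinearMap.sub_apply, c.bdry_one, LinearMap.id_apply]
    norm_num
  · have h1 := c.bdry_lower h0 (star φ * φ) (fun ζ => by rw [hsq, ofReal_re]; positivity)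
      (fun ζ => by rw [hsq, ofReal_im]) ζ
    unfold markov
    rw [LinearMap.sub_apply, LinearMap.id_apply, ContinuousMap.sub_apply, sub_re]
    linarith
  · have h1 : (c.bdry h0 (star φ * φ) ζ).im = 0 := by
      have h2 : Filter.Tendsto (fun n => (c.dl (star φ * φ) (rho n * ζ)).im) Filter.atTop
          (𝓝 (c.bdry h0 (star φ * φ) ζ).im) :=
        (continuous_im.tendsto _).comp (c.bdry_apply_tendsto h0 _ ζ)
      refine tendsto_nhds_unique h2 ?_
      have h3 : (fun n => (c.dl (star φ * φ) (rho n * ζ)).im) = fun _ => (0 : ℝ) := by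
        ext n
        rw [c.dl_real _ (fun ζ => by rw [hsq, ofReal_im]), ofReal_im]
      rw [h3]
      exact tendsto_const_nhds
    unfold markov
    rw [LinearMap.sub_apply, LinearMap.id_apply, ContinuousMap.sub_apply, sub_im, h1, hsq,
      ofReal_im, sub_zero]

end ConvexCurve

end Vale.P123
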