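import Vale.Agent.P123.Banach
import Vale.Agent.P123.Extremal

/-!
# P123: the functional calculus of an operator inside a convex curve
-/

namespace Vale.P123

open Complex MeasureTheory intervalIntegral
open scoped Real Topology InnerProductSpace

namespace ConvexCurve

variable (c : ConvexCurve)
variable {H : Type*} [NormedAddCommGroup H] [InnerProductSpace ℂ H] [FiniteDimensional ℂ H]
  [Nontrivial H]

noncomputable instance instNRPair : NormedRing (C(c.Γ, ℂ) × (H →L[ℂ] H)) := inferInstance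

noncomputable instance instNAPair : NormedAlgebra ℂ (C(c.Γ, ℂ) × (H →L[ℂ] H)) := inferInstance

instance instCSPair : CompleteSpace (C(c.Γ, ℂ) × (H →L[ℂ] H)) := inferInstance

/-- The numerical range of `A` lies uniformly inside the curve. -/
def Encloses (A : H →L[ℂ] H) (δ : ℝ) : Prop :=
  0 < δ ∧ ∀ (θ : ℝ) (x : H), δ * ‖x‖ ^ 2 ≤ (⟪x, exp (-(θ * I)) • (c.σ θ • x - A x)⟫_ℂ).re

/-- coercive operators are close to a large multiple of the identity -/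
lemma norm_sub_le_of_coercive (T : H →L[ℂ] H) {δ R : ℝ} (hR : 0 ≤ R) (hT : ‖T‖ ^ 2 ≤ R * δ)
    (h : ∀ x : H, δ * ‖x‖ ^ 2 ≤ (⟪x, T x⟫_ℂ).re) :
    ‖algebraMap ℂ (H →L[ℂ] H) R - T‖ ^ 2 ≤ R ^ 2 - R * δ := by
  have h0 : ∀ x : H, ‖(algebraMap ℂ (H →L[ℂ] H) R - T) x‖ ^ 2 ≤ (R ^ 2 - R * δ) * ‖x‖ ^ 2 := by
    intro x
    have e1 : (algebraMap ℂ (H →L[ℂ] H) R - T) x = (R : ℂ) • x - T x := by
      rw [Algebra.algebraMap_eq_smul_one]; rfl
    rw [e1, @norm_sub_sq ℂ, inner_smul_left, conj_ofReal, norm_smul, norm_real,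
      Real.norm_eq_abs, abs_of_nonneg hR]
    have e2 : RCLike.re ((R : ℂ) * ⟪x, T x⟫_ℂ) = R * (⟪x, T x⟫_ℂ).re := re_ofReal_mul _ _
    rw [e2]
    have e3 : ‖T x‖ ^ 2 ≤ R * δ * ‖x‖ ^ 2 := by
      calc ‖T x‖ ^ 2 ≤ (‖T‖ * ‖x‖) ^ 2 := by gcongr; exact T.le_opNorm x
        _ = ‖T‖ ^ 2 * ‖x‖ ^ 2 := by ring
        _ ≤ R * δ * ‖x‖ ^ 2 := by gcongr
    have e4 : R * (δ * ‖x‖ ^ 2) ≤ R * (⟪x, T x⟫_ℂ).re := by gcongr; exact h x
    nlinarith
  obtain ⟨y, hy, hTy⟩ := exists_attains (algebraMap ℂ (H →L[ℂ] H) R - T)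
  have := h0 y
  rw [hTy, hy] at this
  linarith

/-- scalar version -/
lemma norm_sub_le_scalar (v : ℂ) {δ R : ℝ} (hR : 0 ≤ R) (hT : ‖v‖ ^ 2 ≤ R * δ)
    (h : δ ≤ v.re) : ‖(R : ℂ) - v‖ ^ 2 ≤ R ^ 2 - R * δ := by
  rw [Complex.sq_norm, normSq_apply] at *
  simp only [sub_re, sub_im, ofReal_re, ofReal_im]
  have : R * δ ≤ R * v.re := by gcongr
  nlinarith

lemma coercive_scaled {A : H →L[ℂ] H} {δ : ℝ} (h : c.Encloses A δ) {s : ℝ} (hs0 : 0 ≤ s)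
    (θ : ℝ) (x : H) :
    ((1 - s) * (exp (-(θ * I)) * (c.σ θ - 0)).re + s * δ) * ‖x‖ ^ 2
      ≤ (⟪x, (exp (-(θ * I)) • (algebraMap ℂ (H →L[ℂ] H) (c.σ θ) - (s : ℂ) • A)) x⟫_ℂ).re := by
  have e1 : (exp (-(θ * I)) • (algebraMap ℂ (H →L[ℂ] H) (c.σ θ) - (s : ℂ) • A)) x
      = ((1 - s : ℝ) : ℂ) • ((exp (-(θ * I)) * (c.σ θ - 0)) • x)
        + (s : ℂ) • (exp (-(θ * I)) • (c.σ θ • x - A x)) := by
    rw [Algebra.algebraMap_eq_smul_one]
    simp only [smul_apply, sub_apply, one_apply_eq_self]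
    simp only [smul_sub, smul_smul, sub_zero]
    push_cast
    module
  rw [e1, inner_add_right, inner_smul_right, inner_smul_right, inner_smul_right, inner_self_C,
    add_re, re_ofReal_mul, re_ofReal_mul]
  have e2 : (exp (-(θ * I)) * (c.σ θ - 0) * ((‖x‖ ^ 2 : ℝ) : ℂ)).re
      = (exp (-(θ * I)) * (c.σ θ - 0)).re * ‖x‖ ^ 2 := by
    rw [mul_comm, re_ofReal_mul, mul_comm]
  rw [e2]
  have e3 := h.2 θ x
  have e4 : s * (δ * ‖x‖ ^ 2) ≤ s * (⟪x, exp (-(θ * I)) • (c.σ θ • x - A x)⟫_ℂ).re := by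
    gcongr
  linarith

/-- invertibility of the operator part -/
lemma unit_op (h0 : c.Inside 0) {A : H →L[ℂ] H} {δ : ℝ} (h : c.Encloses A δ) {s : ℝ}
    (hs0 : 0 ≤ s) (hs1 : s ≤ 1) (θ : ℝ) :
    IsUnit (algebraMap ℂ (H →L[ℂ] H) (c.σ θ) - (s : ℂ) • A) := by
  set X := algebraMap ℂ (H →L[ℂ] H) (c.σ θ) - (s : ℂ) • A with hX
  set κ : ℂ := exp (-(θ * I)) with hκ
  have hm : 0 < (κ * (c.σ θ - 0)).re := h0 θ
  set d : ℝ := (1 - s) * (κ * (c.σ θ - 0)).re + s * δ with hd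
  have hd0 : 0 < d := by
    rcases lt_or_eq_of_le hs1 with h1 | h1
    · have := mul_pos (by linarith : 0 < 1 - s) hm
      have := mul_nonneg hs0 h.1.le
      linarith
    · rw [hd, h1]; simpa using h.1
  set b := κ • X with hb
  set R : ℝ := (‖b‖ ^ 2 + 1) / d with hR
  have hR0 : 0 < R := by positivity
  have hRd : R * d = ‖b‖ ^ 2 + 1 := by rw [hR]; field_simp
  have h1 := norm_sub_le_of_coercive b (δ := d) (R := R) hR0.le (by rw [hRd]; linarith)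
    (fun x => c.coercive_scaled h hs0 θ x)
  have h2 : ‖algebraMap ℂ (H →L[ℂ] H) R - b‖ < R := by
    have h3 : ‖algebraMap ℂ (H →L[ℂ] H) R - b‖ ^ 2 < R ^ 2 := by
      rw [hRd] at h1
      nlinarith [sq_nonneg ‖b‖]
    exact lt_of_pow_lt_pow_left₀ 2 hR0.le h3
  exact (neumann_phase (⊤ : Subalgebra ℂ (H →L[ℂ] H)) (by simp) (X := X) Algebra.mem_top
    (exp_ne_zero _) hR0 h2).1

/-- the coordinate function on the curve -/
def coord : C(c.Γ, ℂ) := ⟨Subtype.val, continuous_subtype_val⟩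

/-- the generator of the algebra -/
def gen (A : H →L[ℂ] H) : C(c.Γ, ℂ) × (H →L[ℂ] H) := (c.coord, A)

/-- the closed algebra generated by the pair -/
noncomputable def alg (A : H →L[ℂ] H) : Subalgebra ℂ (C(c.Γ, ℂ) × (H →L[ℂ] H)) :=
  (Algebra.adjoin ℂ {c.gen A}).topologicalClosure

lemma alg_closed (A : H →L[ℂ] H) : IsClosed (c.alg A : Set (C(c.Γ, ℂ) × (H →L[ℂ] H))) :=
  Subalgebra.isClosed_topologicalClosure _

lemma gen_mem (A : H →L[ℂ] H) : c.gen A ∈ c.alg A :=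
  Subalgebra.le_topologicalClosure _ (Algebra.subset_adjoin (Set.mem_singleton _))

/-- norm estimate in the product algebra -/
lemma pair_close (b : C(c.Γ, ℂ) × (H →L[ℂ] H)) {d : ℝ} (hd : 0 < d)
    (h1 : ∀ ζ, d ≤ (b.1 ζ).re) (h2 : ∀ x : H, d * ‖x‖ ^ 2 ≤ (⟪x, b.2 x⟫_ℂ).re) :
    ∃ R : ℝ, 0 < R ∧ ‖algebraMap ℂ (C(c.Γ, ℂ) × (H →L[ℂ] H)) R - b‖ < R := by
  set R : ℝ := (‖b‖ ^ 2 + 1) / d with hR
  have hR0 : 0 < R := by positivity
  have hRd : R * d = ‖b‖ ^ 2 + 1 := by rw [hR]; field_simp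
  have hb2 : ‖algebraMap ℂ (H →L[ℂ] H) R - b.2‖ ^ 2 ≤ R ^ 2 - R * d := by
    apply norm_sub_le_of_coercive b.2 hR0.le _ h2
    rw [hRd]
    have : ‖b.2‖ ^ 2 ≤ ‖b‖ ^ 2 := by gcongr; exact norm_snd_le b
    linarith
  have hb1 : ∀ ζ : c.Γ, ‖(R : ℂ) - b.1 ζ‖ ^ 2 ≤ R ^ 2 - R * d := by
    intro ζ
    apply norm_sub_le_scalar _ hR0.le _ (h1 ζ)
    rw [hRd]
    have : ‖b.1 ζ‖ ^ 2 ≤ ‖b‖ ^ 2 := by
      gcongr; exact (b.1.norm_coe_le_norm _).trans (norm_fst_le b)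
    linarith
  have h3 : Real.sqrt (R ^ 2 - R * d) < R := by
    rw [Real.sqrt_lt' hR0]
    rw [hRd]; nlinarith [sq_nonneg ‖b‖]
  refine ⟨R, hR0, lt_of_le_of_lt ?_ h3⟩
  rw [Prod.norm_def]
  apply max_le
  · rw [ContinuousMap.norm_le _ (Real.sqrt_nonneg _)]
    intro ζ
    apply Real.le_sqrt_of_sq_le
    exact hb1 ζ
  · apply Real.le_sqrt_of_sq_le
    exact hb2

lemma pair_fst (A : H →L[ℂ] H) (s θ : ℝ) (ζ : c.Γ) :
    (exp (-(θ * I)) • (algebraMap ℂ (C(c.Γ, ℂ) × (H →L[ℂ] H)) (c.σ θ) - (s : ℂ) • c.gen A)).1 ζ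
      = exp (-(θ * I)) * (c.σ θ - s * ζ) := rfl

lemma pair_snd (A : H →L[ℂ] H) (s θ : ℝ) :
    (exp (-(θ * I)) • (algebraMap ℂ (C(c.Γ, ℂ) × (H →L[ℂ] H)) (c.σ θ) - (s : ℂ) • c.gen A)).2
      = exp (-(θ * I)) • (algebraMap ℂ (H →L[ℂ] H) (c.σ θ) - (s : ℂ) • A) := rfl

/-- invertibility of the pair, with inverse in the algebra -/
lemma unit_pair (h0 : c.Inside 0) {A : H →L[ℂ] H} {δ : ℝ} (h : c.Encloses A δ) {s : ℝ}
    (hs0 : 0 ≤ s) (hs1 : s < 1) (θ : ℝ) :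
    IsUnit (algebraMap ℂ (C(c.Γ, ℂ) × (H →L[ℂ] H)) (c.σ θ) - (s : ℂ) • c.gen A) ∧
      Ring.inverse (algebraMap ℂ (C(c.Γ, ℂ) × (H →L[ℂ] H)) (c.σ θ) - (s : ℂ) • c.gen A)
        ∈ c.alg A := by
  have hm : 0 < (exp (-(θ * I)) * (c.σ θ - 0)).re := h0 θ
  have hd0 : 0 < (1 - s) * (exp (-(θ * I)) * (c.σ θ - 0)).re := mul_pos (by linarith) hm
  have hXmem : (algebraMap ℂ (C(c.Γ, ℂ) × (H →L[ℂ] H)) (c.σ θ) - (s : ℂ) • c.gen A)
      ∈ c.alg A :=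
    Subalgebra.sub_mem _ (Subalgebra.algebraMap_mem _ _) (Subalgebra.smul_mem _ (c.gen_mem A) _)
  obtain ⟨R, hR0, hR⟩ := c.pair_close
    (exp (-(θ * I)) • (algebraMap ℂ (C(c.Γ, ℂ) × (H →L[ℂ] H)) (c.σ θ) - (s : ℂ) • c.gen A)) hd0
    (fun ζ => by
      rw [pair_fst]
      obtain ⟨t, rfl⟩ := c.exists_pt ζ
      have e2 : exp (-(θ * I)) * (c.σ θ - s * (c.pt t : ℂ))
          = ((1 - s : ℝ) : ℂ) * (exp (-(θ * I)) * (c.σ θ - 0))
          + (s : ℂ) * (exp (-(θ * I)) * (c.σ θ - c.σ t)) := by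
        change exp (-(θ * I)) * (c.σ θ - s * c.σ t) = _
        push_cast; ring
      rw [e2, add_re, re_ofReal_mul, re_ofReal_mul]
      have := mul_nonneg hs0 (c.support θ t)
      linarith)
    (fun x => by
      rw [pair_snd]
      refine le_trans ?_ (c.coercive_scaled h hs0 θ x)
      have : 0 ≤ s * δ * ‖x‖ ^ 2 := by
        have := h.1.le
        positivity
      rw [add_mul]; linarith)
  exact neumann_phase (𝔅 := C(c.Γ, ℂ) × (H →L[ℂ] H)) (c.alg A) (c.alg_closed A) hXmem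
    (exp_ne_zero _) hR0 hR

lemma cauchy_scalar {z : ℂ} (hz : c.Inside z) (p : Polynomial ℂ) :
    ∫ θ in (0 : ℝ)..(2 * π), p.eval (c.σ θ) * (c.dσ θ / (c.σ θ - z))
      = (2 * π * I) * p.eval z := by
  have hu : ∀ θ, IsUnit (algebraMap ℂ ℂ (c.σ θ) - z) := fun θ => by
    simpa using c.inside_ne hz θ
  have hres : ∀ θ, c.res z θ = (c.σ θ - z)⁻¹ := by
    intro θ
    unfold res
    rw [Ring.inverse_eq_inv]; rfl
  have h1 : ∫ θ in (0 : ℝ)..(2 * π), c.dσ θ • c.res z θ = (2 * π * I) • (1 : ℂ) := by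
    rw [smul_eq_mul, mul_one, ← c.integral_quot_period hz]
    congr 1; ext θ
    rw [hres, smul_eq_mul, div_eq_mul_inv]
  have h2 := c.cauchy_poly hu h1 p
  rw [smul_eq_mul, Polynomial.coe_aeval_eq_eval] at h2
  rw [← h2]
  congr 1; ext θ
  rw [hres, smul_eq_mul, div_eq_mul_inv]; ring

/-- the polynomial as a function on the curve -/
noncomputable def poly (p : Polynomial ℂ) : C(c.Γ, ℂ) := Polynomial.aeval c.coord p

lemma poly_apply (p : Polynomial ℂ) (ζ : c.Γ) : c.poly p ζ = p.eval (ζ : ℂ) := by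
  unfold poly
  rw [Polynomial.aeval_continuousMap_apply]
  rfl

lemma ker_C (z : ℂ) (θ : ℝ) : (c.ker z θ : ℂ)
    = (2 * π * I)⁻¹ * (c.dσ θ / (c.σ θ - z) - (starRingEnd ℂ) (c.dσ θ / (c.σ θ - z))) := by
  unfold ker
  set q := c.dσ θ / (c.σ θ - z)
  have h1 : q - (starRingEnd ℂ) q = (2 * q.im : ℝ) * I := by
    apply Complex.ext <;> simp
    ring
  rw [h1]
  have : (π : ℂ) ≠ 0 := by exact_mod_cast Real.pi_ne_zero
  push_cast
  field_simp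

/-- The scalar formula for the double layer potential of a polynomial. -/
lemma dl_poly {z : ℂ} (hz : c.Inside z) (p : Polynomial ℂ) :
    (starRingEnd ℂ) ((2 * π * I)⁻¹ * ∫ θ in (0 : ℝ)..(2 * π),
      (starRingEnd ℂ) (p.eval (c.σ θ)) * (c.dσ θ / (c.σ θ - z)))
      = c.dl (c.poly p) z - p.eval z := by
  have hq := c.continuous_quot hz
  have hp : Continuous fun θ => p.eval (c.σ θ) := p.continuous.comp c.continuous_σ
  have hc1 : Continuous fun θ => p.eval (c.σ θ) * (c.dσ θ / (c.σ θ - z)) := hp.mul hq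
  have hc2 : Continuous fun θ => p.eval (c.σ θ) * (starRingEnd ℂ) (c.dσ θ / (c.σ θ - z)) :=
    hp.mul (continuous_conj.comp hq)
  have e1 : c.dl (c.poly p) z = (2 * π * I)⁻¹ * ((∫ θ in (0 : ℝ)..(2 * π),
      p.eval (c.σ θ) * (c.dσ θ / (c.σ θ - z))) - ∫ θ in (0 : ℝ)..(2 * π),
      p.eval (c.σ θ) * (starRingEnd ℂ) (c.dσ θ / (c.σ θ - z))) := by
    rw [← intervalIntegral.integral_sub (hc1.intervalIntegrable _ _)
      (hc2.intervalIntegrable _ _), ← intervalIntegral.integral_const_mul]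
    unfold dl
    congr 1; ext θ
    rw [ker_C, poly_apply]
    change _ * _ * p.eval (c.σ θ) = _
    ring
  have e2 : (starRingEnd ℂ) (∫ θ in (0 : ℝ)..(2 * π),
      (starRingEnd ℂ) (p.eval (c.σ θ)) * (c.dσ θ / (c.σ θ - z)))
      = ∫ θ in (0 : ℝ)..(2 * π),
      p.eval (c.σ θ) * (starRingEnd ℂ) (c.dσ θ / (c.σ θ - z)) := by
    rw [← intervalIntegral_conj]
    congr 1; ext θ
    rw [map_mul, conj_conj]
  rw [map_mul, e2, e1, c.cauchy_scalar hz]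
  have : (2 * π * I : ℂ) ≠ 0 := by
    have : (π : ℂ) ≠ 0 := by exact_mod_cast Real.pi_ne_zero
    simp [this]
  rw [map_inv₀]
  have e3 : (starRingEnd ℂ) (2 * π * I) = -(2 * π * I) := by
    rw [map_mul, map_mul, conj_I, conj_ofReal, Complex.conj_ofNat]
    ring
  rw [e3]
  field_simp
  ring

end ConvexCurve

end Vale.P123
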