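import Vale.Agent.P123.FinalTwo

/-!
# P123: the constant `2` is attained by a nilpotent operator
-/

namespace Vale.P123

open Complex
open scoped Real Topology InnerProductSpace

/-- In a space with two orthonormal vectors, the constant cannot be below `2`. -/
theorem two_le_of_bound {H : Type*} [NormedAddCommGroup H] [InnerProductSpace ℂ H]
    (e₀ e₁ : H) (h0 : ‖e₀‖ = 1) (h1 : ‖e₁‖ = 1) (h01 : ⟪e₀, e₁⟫_ℂ = 0) (C : ℝ)
    (hC : ∀ (A : H →L[ℂ] H) (P : Polynomial ℂ),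
      ‖Polynomial.aeval A P‖ ≤ C * ⨆ z : numRange A, ‖P.eval (z : ℂ)‖) : 2 ≤ C := by
  set A : H →L[ℂ] H := (innerSL ℂ e₁).smulRight e₀ with hA
  have hAv : ∀ v, A v = ⟪e₁, v⟫_ℂ • e₀ := fun v => rfl
  have h2 := hC A Polynomial.X
  rw [Polynomial.aeval_X] at h2
  have h3 : (1 : ℝ) ≤ ‖A‖ := by
    have h4 := A.le_opNorm e₁
    have h5 : ⟪e₁, e₁⟫_ℂ = 1 := by rw [inner_self_C, h1]; simp
    rw [hAv, h5, one_smul, h0, h1, mul_one] at h4
    exact h4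
  -- the numerical range lies in the disc of radius 1/2
  have hdisc : ∀ z ∈ numRange A, ‖z‖ ≤ 1 / 2 := by
    rintro _ ⟨x, hx, rfl⟩
    rw [hAv, inner_smul_right, norm_mul]
    set a := ‖⟪e₁, x⟫_ℂ‖ with ha
    set b := ‖⟪e₀, x⟫_ℂ‖ with hb
    have hb' : ‖⟪x, e₀⟫_ℂ‖ = b := norm_inner_symm _ _
    rw [hb']
    have hsum : a ^ 2 + b ^ 2 ≤ 1 := by
      set w : H := x - ⟪e₀, x⟫_ℂ • e₀ - ⟪e₁, x⟫_ℂ • e₁ with hw
      have hw0 : (0 : ℝ) ≤ (⟪w, w⟫_ℂ).re := by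
        rw [inner_self_C, ofReal_re]; positivity
      have h10 : ⟪e₁, e₀⟫_ℂ = 0 := by rw [← inner_conj_symm, h01, map_zero]
      have h00 : ⟪e₀, e₀⟫_ℂ = 1 := by rw [inner_self_C, h0]; simp
      have h11 : ⟪e₁, e₁⟫_ℂ = 1 := by rw [inner_self_C, h1]; simp
      have hxx : ⟪x, x⟫_ℂ = 1 := by rw [inner_self_C, hx]; simp
      have hww : ⟪w, w⟫_ℂ = 1 - ((b ^ 2 : ℝ) : ℂ) - ((a ^ 2 : ℝ) : ℂ) := by
        have c0 : ⟪x, e₀⟫_ℂ = (starRingEnd ℂ) ⟪e₀, x⟫_ℂ := (inner_conj_symm _ _).symm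
        have c1 : ⟪x, e₁⟫_ℂ = (starRingEnd ℂ) ⟪e₁, x⟫_ℂ := (inner_conj_symm _ _).symm
        have n0 : (starRingEnd ℂ) ⟪e₀, x⟫_ℂ * ⟪e₀, x⟫_ℂ = ((b ^ 2 : ℝ) : ℂ) := by
          rw [conj_mul', hb]; push_cast; rfl
        have n1 : (starRingEnd ℂ) ⟪e₁, x⟫_ℂ * ⟪e₁, x⟫_ℂ = ((a ^ 2 : ℝ) : ℂ) := by
          rw [conj_mul', ha]; push_cast; rfl
        rw [hw]
        simp only [inner_sub_left, inner_sub_right, inner_smul_left, inner_smul_right, h00, h11,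
          h01, h10, hxx, c0, c1]
        rw [← n0, ← n1]
        ring
      rw [hww] at hw0
      simp only [sub_re, one_re, ofReal_re] at hw0
      linarith
    nlinarith [sq_nonneg (a - b)]
  have hne : Nonempty (numRange A) := ⟨⟨_, e₀, h0, rfl⟩⟩
  have hsup : (⨆ z : numRange A, ‖(Polynomial.X : Polynomial ℂ).eval (z : ℂ)‖) ≤ 1 / 2 := by
    apply ciSup_le
    intro z
    rw [Polynomial.eval_X]
    exact hdisc z z.2
  have hsup0 : 0 ≤ ⨆ z : numRange A, ‖(Polynomial.X : Polynomial ℂ).eval (z : ℂ)‖ :=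
    Real.iSup_nonneg fun z => norm_nonneg _
  have hC0 : 0 ≤ C := by
    by_contra hneg
    push Not at hneg
    have := mul_nonpos_of_nonpos_of_nonneg hneg.le hsup0
    linarith
  have h6 : C * (⨆ z : numRange A, ‖(Polynomial.X : Polynomial ℂ).eval (z : ℂ)‖)
      ≤ C * (1 / 2) := by gcongr
  linarith

/-- A Hilbert space with two orthonormal vectors in every universe. -/
theorem two_le_const.{u} (C : ℝ)
    (hC : ∀ (H : Type u) [NormedAddCommGroup H] [InnerProductSpace ℂ H] [CompleteSpace H]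
      [Nontrivial H] (A : H →L[ℂ] H) (P : Polynomial ℂ),
      ‖Polynomial.aeval A P‖ ≤ C * ⨆ z : numRange A, ‖P.eval (z : ℂ)‖) : 2 ≤ C := by
  let i₀ : ULift.{u} (Fin 2) := ⟨0⟩
  let i₁ : ULift.{u} (Fin 2) := ⟨1⟩
  let e₀ : EuclideanSpace ℂ (ULift.{u} (Fin 2)) := EuclideanSpace.single i₀ (1 : ℂ)
  let e₁ : EuclideanSpace ℂ (ULift.{u} (Fin 2)) := EuclideanSpace.single i₁ (1 : ℂ)
  have h0 : ‖e₀‖ = 1 := by simp [e₀]
  have h1 : ‖e₁‖ = 1 := by simp [e₁]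
  have hne : i₀ ≠ i₁ := by
    intro h
    have := congrArg ULift.down h
    exact absurd this (by decide)
  have h01 : ⟪e₀, e₁⟫_ℂ = 0 := by
    change ⟪EuclideanSpace.single i₀ (1 : ℂ), e₁⟫_ℂ = 0
    rw [EuclideanSpace.inner_single_left]
    simp [e₁, hne]
  have hnt : Nontrivial (EuclideanSpace ℂ (ULift.{u} (Fin 2))) :=
    ⟨⟨e₀, 0, fun h => by rw [h, norm_zero] at h0; exact zero_ne_one h0⟩⟩
  exact two_le_of_bound e₀ e₁ h0 h1 h01 C (hC _)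

end Vale.P123
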