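import Vale.Agent.P123.Defs

/-!
# P123: states on `C(Γ, ℂ)`
-/

namespace Vale.P123

open ContinuousMap
open scoped ComplexConjugate

variable {Γ : Type*} [TopologicalSpace Γ] [CompactSpace Γ]

/-- A positive unital linear functional on `C(Γ, ℂ)`. -/
structure IsState (N : C(Γ, ℂ) →ₗ[ℂ] ℂ) : Prop where
  one : N 1 = 1
  pos_re : ∀ φ : C(Γ, ℂ), 0 ≤ (N (star φ * φ)).re
  pos_im : ∀ φ : C(Γ, ℂ), (N (star φ * φ)).im = 0

/-- A pointwise nonnegative function is `star χ * χ`. -/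
lemma exists_sqrt (ψ : C(Γ, ℂ)) (hre : ∀ ζ, 0 ≤ (ψ ζ).re) (him : ∀ ζ, (ψ ζ).im = 0) :
    ∃ χ : C(Γ, ℂ), star χ * χ = ψ := by
  refine ⟨⟨fun ζ => ((Real.sqrt (ψ ζ).re : ℝ) : ℂ), by fun_prop⟩, ?_⟩
  ext ζ
  simp only [mul_apply, star_apply, coe_mk, RCLike.star_def, Complex.conj_ofReal]
  rw [← Complex.ofReal_mul, Real.mul_self_sqrt (hre ζ)]
  apply Complex.ext
  · simp
  · simp [him ζ]

namespace IsState

variable {N : C(Γ, ℂ) →ₗ[ℂ] ℂ}

lemma map_star (hN : IsState N) (φ : C(Γ, ℂ)) : N (star φ) = conj (N φ) := by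
  have h1 := hN.pos_im (φ + 1)
  have h2 := hN.pos_im (Complex.I • φ + 1)
  have h3 := hN.pos_im φ
  have e1 : star (φ + 1) * (φ + 1) = star φ * φ + star φ + φ + 1 := by
    rw [star_add, star_one]; ring
  have e2 : star (Complex.I • φ + 1) * (Complex.I • φ + 1)
      = star φ * φ + (-Complex.I) • star φ + Complex.I • φ + 1 := by
    rw [star_add, star_one, star_smul]
    ext ζ
    simp
    linear_combination (-(conj (φ ζ) * φ ζ)) * Complex.I_sq
  rw [e1] at h1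
  rw [e2] at h2
  simp only [map_add, map_smul, hN.one, Complex.add_im, Complex.one_im, smul_eq_mul,
    Complex.mul_im, Complex.neg_re, Complex.neg_im, Complex.I_re, Complex.I_im] at h1 h2
  apply Complex.ext
  · simp; linarith
  · simp; linarith

/-- positivity on pointwise nonnegative functions -/
lemma nonneg (hN : IsState N) (ψ : C(Γ, ℂ)) (hre : ∀ ζ, 0 ≤ (ψ ζ).re)
    (him : ∀ ζ, (ψ ζ).im = 0) : 0 ≤ (N ψ).re ∧ (N ψ).im = 0 := by
  obtain ⟨χ, rfl⟩ := exists_sqrt ψ hre him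
  exact ⟨hN.pos_re χ, hN.pos_im χ⟩

/-- Cauchy-Schwarz. -/
lemma cauchy_schwarz (hN : IsState N) (u v : C(Γ, ℂ)) :
    ‖N (star u * v)‖ ≤ Real.sqrt (N (star u * u)).re * Real.sqrt (N (star v * v)).re := by
  let core : PreInnerProductSpace.Core ℂ C(Γ, ℂ) :=
    { inner := fun a b => N (star a * b)
      conj_inner_symm := fun a b => by
        rw [← hN.map_star, star_mul, star_star]
      re_inner_nonneg := fun a => hN.pos_re a
      add_left := fun a b c => by rw [star_add, add_mul, map_add]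
      smul_left := fun a b r => by
        rw [star_smul, smul_mul_assoc, map_smul]; rfl }
  have h := @InnerProductSpace.Core.norm_inner_le_norm ℂ C(Γ, ℂ) _ _ _ core u v
  exact h

lemma norm_le_of_bound (hN : IsState N) (u : C(Γ, ℂ)) {c : ℝ} (hc : 0 ≤ c)
    (hu : ∀ ζ, ‖u ζ‖ ≤ c) : (N (star u * u)).re ≤ c ^ 2 := by
  have h := hN.nonneg (((c ^ 2 : ℝ) : ℂ) • (1 : C(Γ, ℂ)) - star u * u) (fun ζ => by
    simp only [coe_sub, coe_smul, Pi.sub_apply, Pi.smul_apply, one_apply, mul_apply, star_apply,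
      RCLike.star_def, smul_eq_mul, mul_one]
    rw [Complex.conj_mul']
    rw [← Complex.ofReal_pow, ← Complex.ofReal_sub, Complex.ofReal_re]
    have := pow_le_pow_left₀ (norm_nonneg _) (hu ζ) 2
    linarith) (fun ζ => by
    simp only [coe_sub, coe_smul, Pi.sub_apply, Pi.smul_apply, one_apply, mul_apply, star_apply,
      RCLike.star_def, smul_eq_mul, mul_one]
    rw [Complex.conj_mul']
    rw [← Complex.ofReal_pow, ← Complex.ofReal_sub, Complex.ofReal_im])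
  have h1 := h.1
  rw [map_sub, map_smul, hN.one, Complex.sub_re] at h1
  simp only [smul_eq_mul, mul_one, Complex.ofReal_re] at h1
  linarith

/-- `|N u|² ≤ N |u|²`. -/
lemma sq_norm_le (hN : IsState N) (u : C(Γ, ℂ)) : ‖N u‖ ^ 2 ≤ (N (star u * u)).re := by
  have h := hN.cauchy_schwarz 1 u
  simp only [star_one, one_mul, hN.one, Complex.one_re, Real.sqrt_one] at h
  calc ‖N u‖ ^ 2 ≤ (Real.sqrt (N (star u * u)).re) ^ 2 := by
        gcongr
    _ = _ := Real.sq_sqrt (hN.pos_re u)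

lemma norm_le (hN : IsState N) (u : C(Γ, ℂ)) {c : ℝ} (hc : 0 ≤ c)
    (hu : ∀ ζ, ‖u ζ‖ ≤ c) : ‖N u‖ ≤ c := by
  have h := (hN.sq_norm_le u).trans (hN.norm_le_of_bound u hc hu)
  exact (pow_le_pow_iff_left₀ (norm_nonneg _) hc two_ne_zero).1 h

/-- A unital contractive functional is a state. -/
lemma of_contractive (N : C(Γ, ℂ) →ₗ[ℂ] ℂ) (h1 : N 1 = 1) (hc : ∀ φ, ‖N φ‖ ≤ ‖φ‖) :
    IsState N := by
  -- real functions have real values
  have hreal : ∀ φ : C(Γ, ℂ), (∀ ζ, (φ ζ).im = 0) → (N φ).im = 0 := by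
    intro φ hφ
    by_contra hne
    set b := (N φ).im with hb
    set R := ‖φ‖ with hR
    -- choose t = (R^2+1)/b
    set t : ℝ := (R ^ 2 + 1) / b with ht
    have h := hc (φ + ((t : ℂ) * Complex.I) • 1)
    have hn : ‖φ + ((t : ℂ) * Complex.I) • (1 : C(Γ, ℂ))‖ ≤ Real.sqrt (R ^ 2 + t ^ 2) := by
      rw [ContinuousMap.norm_le _ (Real.sqrt_nonneg _)]
      intro ζ
      apply Real.le_sqrt_of_sq_le
      rw [Complex.sq_norm, Complex.normSq_apply]
      have h1 : ‖φ ζ‖ ≤ R := φ.norm_coe_le_norm ζ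
      have h2 : |(φ ζ).re| ≤ R := (Complex.abs_re_le_norm _).trans h1
      have h3 : (φ ζ).re ^ 2 ≤ R ^ 2 := by
        rw [← sq_abs]; gcongr
      simp [hφ ζ]
      nlinarith
    have h2 : |b + t| ≤ ‖N (φ + ((t : ℂ) * Complex.I) • (1 : C(Γ, ℂ)))‖ := by
      rw [map_add, map_smul, h1]
      refine le_trans ?_ (Complex.abs_im_le_norm _)
      simp [hb]
    have h3 : |b + t| ≤ Real.sqrt (R ^ 2 + t ^ 2) := h2.trans (h.trans hn)
    have h4 : (b + t) ^ 2 ≤ R ^ 2 + t ^ 2 := by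
      have := pow_le_pow_left₀ (abs_nonneg _) h3 2
      rwa [sq_abs, Real.sq_sqrt (by positivity)] at this
    have h5 : b * t = R ^ 2 + 1 := by
      rw [ht]; field_simp
    nlinarith [sq_nonneg b, sq_nonneg R]
  have hpos : ∀ φ : C(Γ, ℂ), 0 ≤ (N (star φ * φ)).re := by
    intro φ
    set R := ‖φ‖ ^ 2 with hR
    have hpt : ∀ ζ, ‖φ ζ‖ ^ 2 ≤ R := fun ζ =>
      pow_le_pow_left₀ (norm_nonneg _) (φ.norm_coe_le_norm ζ) 2
    have h := hc ((R : ℂ) • 1 - star φ * φ)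
    have hn : ‖(R : ℂ) • 1 - star φ * φ‖ ≤ R := by
      rw [ContinuousMap.norm_le _ (by positivity)]
      intro ζ
      have : ((R : ℂ) • (1 : C(Γ, ℂ)) - star φ * φ) ζ = ((R - ‖φ ζ‖ ^ 2 : ℝ) : ℂ) := by
        simp only [coe_sub, coe_smul, Pi.sub_apply, Pi.smul_apply, one_apply, mul_apply,
          star_apply, RCLike.star_def, smul_eq_mul, mul_one]
        rw [Complex.conj_mul']
        push_cast
        rfl
      rw [this, Complex.norm_real, Real.norm_eq_abs, abs_of_nonneg (by linarith [hpt ζ])]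
      have := sq_nonneg ‖φ ζ‖
      linarith
    have h2 := (Complex.re_le_norm _).trans (h.trans hn)
    rw [map_sub, map_smul, h1, Complex.sub_re] at h2
    simp only [smul_eq_mul, mul_one, Complex.ofReal_re] at h2
    linarith
  refine ⟨h1, hpos, fun φ => hreal _ fun ζ => ?_⟩
  simp only [mul_apply, star_apply, RCLike.star_def]
  rw [Complex.conj_mul', ← Complex.ofReal_pow, Complex.ofReal_im]

end IsState

/-- A positive unital linear operator on `C(Γ, ℂ)`. -/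
structure IsMarkov (K : C(Γ, ℂ) →ₗ[ℂ] C(Γ, ℂ)) : Prop where
  one : K 1 = 1
  pos_re : ∀ φ : C(Γ, ℂ), ∀ ζ, 0 ≤ (K (star φ * φ) ζ).re
  pos_im : ∀ φ : C(Γ, ℂ), ∀ ζ, (K (star φ * φ) ζ).im = 0

namespace IsMarkov

variable {K : C(Γ, ℂ) →ₗ[ℂ] C(Γ, ℂ)}

/-- evaluation at a point -/
noncomputable def at_ (K : C(Γ, ℂ) →ₗ[ℂ] C(Γ, ℂ)) (ζ : Γ) : C(Γ, ℂ) →ₗ[ℂ] ℂ where
  toFun φ := K φ ζ
  map_add' a b := by simp
  map_smul' c a := by simp

lemma state_at (hK : IsMarkov K) (ζ : Γ) : IsState (at_ K ζ) :=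
  ⟨by simp [at_, hK.one], fun φ => hK.pos_re φ ζ, fun φ => hK.pos_im φ ζ⟩

lemma map_star (hK : IsMarkov K) (φ : C(Γ, ℂ)) : K (star φ) = star (K φ) := by
  ext ζ
  exact (hK.state_at ζ).map_star φ

lemma norm_le (hK : IsMarkov K) (u : C(Γ, ℂ)) : ‖K u‖ ≤ ‖u‖ := by
  rw [ContinuousMap.norm_le _ (norm_nonneg _)]
  intro ζ
  exact (hK.state_at ζ).norm_le u (norm_nonneg _) fun ζ => u.norm_coe_le_norm ζ

/-- `N ∘ K` is a state. -/
lemma comp_state (hK : IsMarkov K) {N : C(Γ, ℂ) →ₗ[ℂ] ℂ} (hN : IsState N) :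
    IsState (N ∘ₗ K) :=
  ⟨by simp [hK.one, hN.one],
   fun φ => (hN.nonneg _ (hK.pos_re φ) (hK.pos_im φ)).1,
   fun φ => (hN.nonneg _ (hK.pos_re φ) (hK.pos_im φ)).2⟩

/-- `N |K u|² ≤ N (K |u|²)`. -/
lemma kadison (hK : IsMarkov K) {N : C(Γ, ℂ) →ₗ[ℂ] ℂ} (hN : IsState N) (u : C(Γ, ℂ)) :
    (N (star (K u) * K u)).re ≤ (N (K (star u * u))).re := by
  have h := (hN.nonneg (K (star u * u) - star (K u) * K u) (fun ζ => ?_) (fun ζ => ?_)).1
  · rw [map_sub, Complex.sub_re] at h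
    linarith
  · have h1 := (hK.state_at ζ).sq_norm_le u
    simp only [coe_sub, Pi.sub_apply, mul_apply, star_apply, RCLike.star_def]
    rw [Complex.conj_mul', Complex.sub_re, ← Complex.ofReal_pow, Complex.ofReal_re]
    simpa [at_] using h1
  · simp only [coe_sub, Pi.sub_apply, mul_apply, star_apply, RCLike.star_def]
    rw [Complex.conj_mul', Complex.sub_im, ← Complex.ofReal_pow, Complex.ofReal_im,
      hK.pos_im u ζ, sub_zero]

end IsMarkov

end Vale.P123
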