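import Vale.Agent.P123.OpCalc

/-!
# P123: the antilinear map on the algebra and the completely positive map
-/

namespace Vale.P123

open Complex MeasureTheory intervalIntegral
open scoped Real Topology InnerProductSpace

namespace ConvexCurve

variable (c : ConvexCurve)
variable {H : Type*} [NormedAddCommGroup H] [InnerProductSpace ℂ H] [FiniteDimensional ℂ H]
  [Nontrivial H]

/-- evaluation at a point of the curve as an algebra homomorphism on pairs -/
noncomputable def evPair (H : Type*) [NormedAddCommGroup H] [InnerProductSpace ℂ H] (ζ : c.Γ) :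
    C(c.Γ, ℂ) × (H →L[ℂ] H) →ₐ[ℂ] ℂ :=
  AlgHom.comp (ContinuousMap.evalAlgHom ℂ ℂ ζ) (AlgHom.fst ℂ C(c.Γ, ℂ) (H →L[ℂ] H))

lemma evPair_apply (ζ : c.Γ) (b : C(c.Γ, ℂ) × (H →L[ℂ] H)) : c.evPair H ζ b = b.1 ζ := rfl

/-- The Cauchy type integral of `conj p`. -/
noncomputable def gop (A : H →L[ℂ] H) (p : Polynomial ℂ) : H →L[ℂ] H :=
  (2 * π * I : ℂ)⁻¹ • ∫ θ in (0 : ℝ)..(2 * π),
    ((starRingEnd ℂ) (p.eval (c.σ θ)) * c.dσ θ) • c.res A θ

lemma continuous_conj_poly (p : Polynomial ℂ) :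
    Continuous fun θ => (starRingEnd ℂ) (p.eval (c.σ θ)) * c.dσ θ :=
  (continuous_conj.comp (p.continuous.comp c.continuous_σ)).mul c.continuous_dσ

/-- the approximating elements -/
noncomputable def bseq (A : H →L[ℂ] H) (p : Polynomial ℂ) (n : ℕ) : C(c.Γ, ℂ) × (H →L[ℂ] H) :=
  (2 * π * I : ℂ)⁻¹ • ∫ θ in (0 : ℝ)..(2 * π),
    ((starRingEnd ℂ) (p.eval (c.σ θ)) * c.dσ θ) • c.res ((rho n : ℂ) • c.gen A) θ

lemma bseq_mem (h0 : c.Inside 0) {A : H →L[ℂ] H} {δ : ℝ} (h : c.Encloses A δ)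
    (p : Polynomial ℂ) (n : ℕ) : c.bseq A p n ∈ c.alg A := by
  have hu := fun θ => c.unit_pair h0 h (rho_nonneg n) (rho_lt_one n) θ
  apply Subalgebra.smul_mem
  apply integral_mem (𝔅 := C(c.Γ, ℂ) × (H →L[ℂ] H)) (c.alg A) (c.alg_closed A)
  · exact (c.continuous_conj_poly p).smul (c.continuous_res fun θ => (hu θ).1)
  · intro θ
    exact Subalgebra.smul_mem _ (hu θ).2 _

lemma bseq_snd (h0 : c.Inside 0) {A : H →L[ℂ] H} {δ : ℝ} (h : c.Encloses A δ)
    (p : Polynomial ℂ) (n : ℕ) : (c.bseq A p n).2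
      = (2 * π * I : ℂ)⁻¹ • ∫ θ in (0 : ℝ)..(2 * π),
        ((starRingEnd ℂ) (p.eval (c.σ θ)) * c.dσ θ) • c.res ((rho n : ℂ) • A) θ := by
  have h1 := (c.map_cint (𝔅 := C(c.Γ, ℂ) × (H →L[ℂ] H)) (AlgHom.snd ℂ C(c.Γ, ℂ) (H →L[ℂ] H))
    continuous_snd (fun θ => (c.unit_pair h0 h (rho_nonneg n) (rho_lt_one n) θ).1)
    (c.continuous_conj_poly p)).2
  have h2 : (c.bseq A p n).2 = (2 * π * I : ℂ)⁻¹ • (AlgHom.snd ℂ C(c.Γ, ℂ) (H →L[ℂ] H))
      (∫ θ in (0 : ℝ)..(2 * π),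
        ((starRingEnd ℂ) (p.eval (c.σ θ)) * c.dσ θ) • c.res ((rho n : ℂ) • c.gen A) θ) := rfl
  rw [h2, h1]
  rfl

lemma bseq_fst (h0 : c.Inside 0) {A : H →L[ℂ] H} {δ : ℝ} (h : c.Encloses A δ)
    (p : Polynomial ℂ) (n : ℕ) : (c.bseq A p n).1
      = star (c.dlMap h0 n (c.poly p) - Polynomial.aeval ((rho n : ℂ) • c.coord) p) := by
  ext ζ
  have h1 := (c.map_cint (𝔅 := C(c.Γ, ℂ) × (H →L[ℂ] H)) (c.evPair H ζ)
    ((ContinuousEvalConst.continuous_eval_const ζ).comp continuous_fst)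
    (fun θ => (c.unit_pair h0 h (rho_nonneg n) (rho_lt_one n) θ).1)
    (c.continuous_conj_poly p)).2
  have h2 : (c.bseq A p n).1 ζ = (2 * π * I : ℂ)⁻¹ • (c.evPair H ζ)
      (∫ θ in (0 : ℝ)..(2 * π),
        ((starRingEnd ℂ) (p.eval (c.σ θ)) * c.dσ θ) • c.res ((rho n : ℂ) • c.gen A) θ) := rfl
  rw [h2, h1]
  have h3 : c.evPair H ζ ((rho n : ℂ) • c.gen A) = rho n * ζ := rfl
  rw [h3]
  obtain ⟨t, rfl⟩ := c.exists_pt ζ
  have hin := c.inside_smul h0 (rho_nonneg n) (rho_lt_one n) t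
  have h4 := c.dl_poly hin p
  rw [ContinuousMap.star_apply, ContinuousMap.sub_apply, Polynomial.aeval_continuousMap_apply]
  have h5 : c.dlMap h0 n (c.poly p) (c.pt t) = c.dl (c.poly p) (rho n * c.σ t) := rfl
  have h6 : p.eval (((rho n : ℂ) • c.coord) (c.pt t)) = p.eval (rho n * c.σ t) := rfl
  rw [h5, h6, ← h4, RCLike.star_def, conj_conj, smul_eq_mul]
  congr 2
  ext θ
  have h7 : c.res ((rho n : ℂ) * (c.pt t : ℂ)) θ = (c.σ θ - rho n * c.σ t)⁻¹ := by
    unfold res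
    rw [Ring.inverse_eq_inv]; rfl
  rw [h7, smul_eq_mul, div_eq_mul_inv]; ring

/-- The pair `(conj (K p), G_p(A))` belongs to the algebra. -/
theorem theta_poly_mem (h0 : c.Inside 0) {A : H →L[ℂ] H} {δ : ℝ} (h : c.Encloses A δ)
    (p : Polynomial ℂ) : (star (c.markov h0 (c.poly p)), c.gop A p) ∈ c.alg A := by
  apply (c.alg_closed A).mem_of_tendsto (b := Filter.atTop) (f := c.bseq A p) _
    (Filter.Eventually.of_forall (c.bseq_mem h0 h p))
  have h1 : Filter.Tendsto (fun n => (c.bseq A p n).1) Filter.atTop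
      (𝓝 (star (c.markov h0 (c.poly p)))) := by
    simp only [c.bseq_fst h0 h p]
    apply (continuous_star.tendsto _).comp
    have h2 : c.markov h0 (c.poly p) = c.bdry h0 (c.poly p) - c.poly p := rfl
    rw [h2]
    apply (c.bdry_tendsto h0 (c.poly p)).sub
    have h3 : Continuous fun s : ℝ => Polynomial.aeval ((s : ℂ) • c.coord) p := by
      have h4 : Continuous fun x : C(c.Γ, ℂ) => Polynomial.aeval x p := p.continuous_aeval
      exact h4.comp (continuous_ofReal.smul continuous_const)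
    have h5 := (h3.tendsto 1).comp tendsto_rho
    simp only [ofReal_one, one_smul] at h5
    exact h5
  have h2 : Filter.Tendsto (fun n => (c.bseq A p n).2) Filter.atTop (𝓝 (c.gop A p)) := by
    simp only [c.bseq_snd h0 h p]
    apply Filter.Tendsto.const_smul
    exact c.tendsto_cint A (fun s hs0 hs1 θ => c.unit_op h0 h hs0 hs1 θ)
      (c.continuous_conj_poly p)
  exact h1.prodMk_nhds h2

/-- the operator density `S(θ)` -/
noncomputable def dens (A : H →L[ℂ] H) (θ : ℝ) : H →L[ℂ] H :=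
  ((2 * π * I : ℂ)⁻¹ * c.dσ θ) • c.res A θ

lemma unit_op_one (h0 : c.Inside 0) {A : H →L[ℂ] H} {δ : ℝ} (h : c.Encloses A δ) (θ : ℝ) :
    IsUnit (algebraMap ℂ (H →L[ℂ] H) (c.σ θ) - A) := by
  have := c.unit_op h0 h zero_le_one le_rfl θ
  simpa using this

lemma continuous_dens (h0 : c.Inside 0) {A : H →L[ℂ] H} {δ : ℝ} (h : c.Encloses A δ) :
    Continuous (c.dens A) :=
  (continuous_const.mul c.continuous_dσ).smul (c.continuous_res (c.unit_op_one h0 h))

/-- positivity of the real part of the density -/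
lemma dens_pos (h0 : c.Inside 0) {A : H →L[ℂ] H} {δ : ℝ} (h : c.Encloses A δ) (θ : ℝ) (x : H) :
    0 ≤ (⟪x, c.dens A θ x⟫_ℂ).re := by
  set u : H := c.res A θ x with hu
  have h1 : (algebraMap ℂ (H →L[ℂ] H) (c.σ θ) - A) u = x := by
    have := congrArg (fun T : H →L[ℂ] H => T x) (c.res_mul (c.unit_op_one h0 h) θ)
    exact this
  have h2 : (algebraMap ℂ (H →L[ℂ] H) (c.σ θ) - A) u = c.σ θ • u - A u := by
    rw [Algebra.algebraMap_eq_smul_one]; rfl
  rw [h2] at h1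
  have h3 : c.dens A θ x = ((c.r θ / (2 * π) : ℝ) : ℂ) • (exp (θ * I) • u) := by
    have e1 : c.dens A θ x = ((2 * π * I : ℂ)⁻¹ * c.dσ θ) • u := rfl
    rw [e1, smul_smul]
    congr 1
    unfold dσ
    have : (π : ℂ) ≠ 0 := by exact_mod_cast Real.pi_ne_zero
    push_cast
    field_simp
  rw [h3, inner_smul_right, re_ofReal_mul]
  apply mul_nonneg (div_nonneg (c.r_pos θ).le (by positivity))
  have h4 := h.2 θ u
  rw [h1, inner_smul_right] at h4
  rw [inner_smul_right]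
  have h5 : exp (θ * I) * ⟪x, u⟫_ℂ = (starRingEnd ℂ) (exp (-(θ * I)) * ⟪u, x⟫_ℂ) := by
    rw [map_mul, inner_conj_symm, ← exp_conj]
    simp
  rw [h5, conj_re]
  refine le_trans ?_ h4
  have := h.1.le
  positivity

/-- The completely positive map. -/
noncomputable def cpMap (h0 : c.Inside 0) {A : H →L[ℂ] H} {δ : ℝ} (h : c.Encloses A δ) :
    C(c.Γ, ℂ) →ₗ[ℂ] (H →L[ℂ] H) where
  toFun φ := ∫ θ in (0 : ℝ)..(2 * π),
    φ (c.pt θ) • (c.dens A θ + ContinuousLinearMap.adjoint (c.dens A θ))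
  map_add' φ ψ := by
    have hd := c.continuous_dens h0 h
    have hq : Continuous fun θ => c.dens A θ + ContinuousLinearMap.adjoint (c.dens A θ) :=
      hd.add ((ContinuousLinearMap.adjoint (𝕜 := ℂ) (E := H) (F := H)).continuous.comp hd)
    rw [← intervalIntegral.integral_add]
    · congr 1; ext1 θ
      rw [ContinuousMap.add_apply, add_smul]
    · exact ((φ.continuous.comp c.continuous_pt).smul hq).intervalIntegrable _ _
    · exact ((ψ.continuous.comp c.continuous_pt).smul hq).intervalIntegrable _ _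
  map_smul' a φ := by
    rw [RingHom.id_apply, ← intervalIntegral.integral_smul]
    congr 1; ext1 θ
    rw [ContinuousMap.smul_apply, smul_eq_mul, smul_smul]

end ConvexCurve

end Vale.P123
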